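import Vale.Agent.P269.Cpt.Defs
import Vale.Agent.P269.Cv.Rat
import Vale.Agent.P269.Gen.Defs

/-!
# Families of targets: monomial sections, ampleness and limits of cones
-/

set_option linter.unusedSectionVars false

namespace Vale.Agent.P269.Cpt

open Set Function Topology Filter Metric Module Vale.Agent.P269.Cv

variable {X : ℕ → Type} [∀ n, TopologicalSpace (X n)] [∀ n, T2Space (X n)]
  [∀ n, CompactSpace (X n)] [∀ n, Nonempty (X n)] {Y : Type} [TopologicalSpace Y] [T2Space Y]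
  [CompactSpace Y] {U : Ultrafilter ℕ} {R : ∀ n, RS (X n)} {Q : RS Y} {D : Dg U R Q}
  {B B' : ∀ n, LB (R n)} {L L' : LB Q} {p q : ∀ n, X n} {x y y' z : Y} {s s' : ∀ n, X n → ℂ}
  {σ σ' : Y → ℂ} {Z : ∀ n, Set (X n)} {ν : Type} [Fintype ν] {N : ∀ n, Finset (X n × X n)}
  {pm : ∀ n, ν → X n} {N₀ N₁ : Finset (Y × Y)} {p₀ : ν → Y}

theorem card_le {W : Type} [TopologicalSpace W] [T2Space W] [CompactSpace W] {S : RS W} {A : LB S}
    (hA : Ge A 1) (M : Finset (W × W)) : (M.card : ℤ) ≤ gen S M - 1 + deg A := by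
  have a := chi_le A⁻¹
  have b : finrank ℂ (A⁻¹).Γ = 0 := Ge.finrank_eq_zero (by rwa [inv_inv])
  rw [chi_eq, deg_inv, b] at a
  rw [gen]
  omega

theorem mon_mem {ρ J : Type} [Fintype ρ] [Fintype J] {w : J → ρ → ℤ} {W : Type}
    [TopologicalSpace W] {S : RS W} {M : Finset (W × W)} {A : ρ → LB S} {f : J → W → ℂ}
    (hf : ∀ j, f j ∈ H0 M (bz A (w j))) {α : J → ℕ} {c : ρ → ℤ} (h : ∀ i, ∑ j, α j * w j i = c i) :
    ∏ j, f j ^ α j ∈ H0 M (bz A c) := by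
  have e : bz A c = ∏ j, bz A (w j) ^ α j := by
    obtain rfl : c = ∑ j, (α j : ℤ) • w j := funext fun i => by simp [← h i]
    induction (Finset.univ : Finset J) using Finset.cons_induction with
    | empty => simp
    | cons a T ha ih => rw [Finset.prod_cons, Finset.sum_cons, bz_add, ih, bz_smul, zpow_natCast]
  rw [e]
  exact H0.prod_mem fun j _ => H0.pow_mem (hf j) _

theorem AmpK.amp {ρ J : Type} [Fintype ρ] [Fintype J] [DecidableEq ρ] {w : J → ρ → ℤ}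
    {K' : Set (J → ℂ)} {θ : ρ → ℤ} (h : AmpK w K' θ) {A : ρ → LB Q} {f : J → Y → ℂ}
    (hf : ∀ j, f j ∈ (bz A (w j)).Γ) (hv : ∀ y, (f · y) ∈ K') : Amp A θ := by
  obtain ⟨θ₀, rfl, k, hk, H⟩ := h
  intro y
  have key : ∀ c : ρ → ℤ,
      (c = k • θ₀ ∨ ∃ i, c = k • θ₀ + Pi.single i 1 ∨ c = k • θ₀ - Pi.single i 1) →
      0 ≤ degOn (bz A c) (connectedComponent y) := fun c hc =>
    ge_of_bpf (L := bz A c) (fun x => by
      obtain ⟨α, a, b⟩ := H c hc _ (hv x)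
      refine ⟨∏ j, f j ^ α j, (mon_mem (M := ∅) (fun j => H0_empty (L := bz A (w j)) ▸ hf j) a).1, ?_⟩
      simpa only [Finset.prod_apply, Pi.pow_apply] using b)
      _ (exists_comp (R := Q) y).1 ⟨y, mem_connectedComponent⟩
  have e : ∀ n : ℕ, degOn (bz A (n • θ₀)) (connectedComponent y) =
      n * degOn (bz A θ₀) (connectedComponent y) := fun n => by
    rw [← natCast_zsmul, bz_smul, degOn_zpow]
  have a := key _ (.inl rfl)
  rw [e] at a
  have a' : 0 ≤ degOn (bz A θ₀) (connectedComponent y) :=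
    nonneg_of_mul_nonneg_right a (by exact_mod_cast hk)
  rcases a'.eq_or_lt with b | b
  · refine .inr fun i => ?_
    have c := key _ (.inr ⟨i, .inl rfl⟩)
    have d := key _ (.inr ⟨i, .inr rfl⟩)
    rw [bz_add, degOn_mul, e, ← b, bz_single, zpow_one] at c
    rw [bz_sub, degOn_div, e, ← b, bz_single, zpow_one] at d
    omega
  · refine .inl ?_
    rw [e]
    omega

namespace FamP

theorem prod_ta {ρ J : Type} [Fintype ρ] [Fintype J] (w : J → ρ → ℤ) {t : ρ → ℂ}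
    (ht : ∀ i, t i ≠ 0) (v : J → ℂ) {α : J → ℕ} {c : ρ → ℤ} (h : ∀ i, ∑ j, α j * w j i = c i) :
    ∏ j, ta w t v j ^ α j = (∏ i, t i ^ c i) * ∏ j, v j ^ α j := by
  simp only [ta, mul_pow, Finset.prod_mul_distrib, ← Finset.prod_pow]
  congr 1
  simp only [← zpow_natCast, ← zpow_mul]
  rw [Finset.prod_comm]
  refine Finset.prod_congr rfl fun i _ => ?_
  rw [← h i]
  induction (Finset.univ : Finset J) using Finset.cons_induction with
  | empty => simp
  | cons a T ha ih => rw [Finset.prod_cons, Finset.sum_cons, zpow_add₀ (ht i), ih, mul_comm (w a i)]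

theorem unit_pair {S ρ : Type} {t : ρ → ℂ} (ht : ∀ i, t i ≠ 0) :
    IsUnit ((1, t) : (S → ℂ) × (ρ → ℂ)) :=
  Prod.isUnit_iff.2 ⟨isUnit_one, Pi.isUnit_iff.2 fun i => (ht i).isUnit⟩

end FamP

section
variable {S Λ ρ J K : Type} [Fintype S] [Fintype Λ] [Fintype ρ] [Fintype J] [Fintype K]
  [DecidableEq ρ] {F : Fam S Λ ρ J K}

theorem actT_one (l : Λ → ℂ) (t : ρ → ℂ) (v : J → ℂ) :
    F.actT (1, t) (l, v) = (l, ta F.w t v) := by
  refine Prod.ext (funext fun a => ?_) (funext fun j => ?_) <;> simp [Wt.actT, Wt.actL, ta]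

theorem ta_mem (hF : F.Inv) {l : Λ → ℂ} {t : ρ → ℂ} (ht : ∀ i, t i ≠ 0) {v : J → ℂ}
    (hv : v ∈ (F.fib l).cone) : ta F.w t v ∈ (F.fib l).cone := by
  obtain ⟨⟨a, b, c⟩, d⟩ := hv
  refine ⟨⟨?_, ?_, fun j hj => ?_⟩, fun k => ?_⟩
  · rw [← actT_one]; exact hF.invU _ (FamP.unit_pair ht) _ a
  · rw [← actT_one]; exact hF.invE _ (FamP.unit_pair ht) _ b
  · rw [ta, c j hj, mul_zero]
  · have e : MvPolynomial.eval (ta F.w t v) ((F.fib l).F k) =
        (∏ i, t i ^ F.χ k i) * MvPolynomial.eval v ((F.fib l).F k) := by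
      rw [MvPolynomial.eval_eq', MvPolynomial.eval_eq', Finset.mul_sum]
      refine Finset.sum_congr rfl fun α hα => ?_
      rw [FamP.prod_ta F.w ht v (hF.hom k α (MvPolynomial.support_map_subset _ _ hα))]
      ring
    rw [e, d k, mul_zero]

theorem ampK_fib (hF : F.Good) {l : Λ → ℂ} (hl : l ∈ F.B) : AmpK F.w (F.fib l).cone F.θ :=
  let ⟨θ₀, k, a, b, c⟩ := hF.ample
  ⟨θ₀, a, k, b, fun χ hχ v hv => c χ hχ (l, v) ⟨hl, hv⟩⟩

theorem exists_cones (hF : F.Good) (hU : (U : Filter ℕ) ≤ atTop) {l : ℕ → Λ → ℂ} {l' : Λ → ℂ}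
    (hl : ∀ n, l n ∈ F.B) (hl' : l' ∈ F.B) (ht : Tendsto l atTop (𝓝 l')) :
    ∃ χ T, Cones U F.w (fun n => (F.fib (l n)).cone) (F.fib l').cone χ T := by
  classical
  obtain ⟨C, sub, hC, H⟩ := hF.cpt (insert l' (range l))
    (insert_subset hl' (range_subset_iff.2 hl)) ht.isCompact_insert_range
  have H' : ∀ m ∈ insert l' (range l), ∀ v ∈ (F.fib m).cone, ∃ t : ρ → ℂ, (∀ i, t i ≠ 0) ∧
      (m, ta F.w t v) ∈ C := fun m hm v hv => by
    obtain ⟨t, a, b⟩ := H (m, v) ⟨insert_subset hl' (range_subset_iff.2 hl) hm, hv⟩ hm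
    exact ⟨t, fun i => (Pi.isUnit_iff.1 a i).ne_zero, actT_one (F := F) m t v ▸ b⟩
  obtain ⟨θ₀, k, -, -, amp⟩ := hF.ample
  let χ : Option ρ → ρ → ℤ := fun o => o.elim (k • θ₀) fun i => k • θ₀ + Pi.single i 1
  have hT : ∀ o, ∃ T : Finset (J → ℕ), (∀ α ∈ T, ∀ i, ∑ j, α j * F.w j i = χ o i) ∧
      ∀ z ∈ C, ∃ α ∈ T, ∏ j, z.2 j ^ α j ≠ 0 := fun o => by
    obtain ⟨T, hT⟩ := hC.elim_finite_subcover
      (fun α : {α : J → ℕ // ∀ i, ∑ j, α j * F.w j i = χ o i} => {z | ∏ j, z.2 j ^ α.1 j ≠ 0})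
      (fun α => isOpen_ne_fun (by fun_prop) continuous_const) fun z hz => by
        obtain ⟨α, a, b⟩ := amp (χ o) (by
          cases o with
          | none => exact .inl rfl
          | some i => exact .inr ⟨i, .inl rfl⟩) z (sub hz)
        exact mem_iUnion.2 ⟨⟨α, a⟩, b⟩
    refine ⟨T.image Subtype.val, fun α hα => ?_, fun z hz => ?_⟩
    · obtain ⟨β, -, rfl⟩ := Finset.mem_image.1 hα
      exact β.2
    · obtain ⟨β, a, b⟩ := mem_iUnion₂.1 (hT hz)
      exact ⟨β.1, Finset.mem_image_of_mem _ a, b⟩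
  choose T hT1 hT2 using hT
  refine ⟨χ, T, fun v hv => ?_, fun t a v b => ta_mem hF.toInv a b, fun _ => rfl, hT1,
    fun o v hv => ?_⟩
  · have : ∀ n, ∃ t : ρ → ℂ, (∀ i, t i ≠ 0) ∧
        (v n ∈ (F.fib (l n)).cone → (l n, ta F.w t (v n)) ∈ C) := fun n => by
      by_cases h : v n ∈ (F.fib (l n)).cone
      · obtain ⟨t, a, b⟩ := H' (l n) (.inr ⟨n, rfl⟩) _ h
        exact ⟨t, a, fun _ => b⟩
      · exact ⟨1, fun _ => one_ne_zero, fun a => (h a).elim⟩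
    choose t a b using this
    obtain ⟨z, c, d⟩ := hC.ultrafilter_le_nhds (U.map fun n => (l n, ta F.w (t n) (v n)))
      (le_principal_iff.2 (hv.mono b))
    have d' : Tendsto (fun n => (l n, ta F.w (t n) (v n))) U (𝓝 z) := d
    have e : z.1 = l' := tendsto_nhds_unique ((continuous_fst.tendsto z).comp d') (ht.mono_left hU)
    exact ⟨t, a, z.2, e ▸ (sub c).2, (continuous_snd.tendsto z).comp d'⟩
  · obtain ⟨t, a, b⟩ := H' l' (.inl rfl) v hv
    obtain ⟨α, c, d⟩ := hT2 o _ b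
    refine ⟨α, c, fun e => d ?_⟩
    rw [FamP.prod_ta F.w a v (hT1 o α c), e, mul_zero]

end

end Vale.Agent.P269.Cpt
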