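import Vale.Agent.P269.Cpt.Bas2
import Vale.Agent.P269.Cv.Xi

/-!
# Algebra of convergent bundles, points, twists, the dualising bundle
-/

set_option linter.unusedSectionVars false

namespace Vale.Agent.P269.Cpt

open Set Function Topology Filter Metric Module Vale.Agent.P269.Cv

variable {X : ℕ → Type} [∀ n, TopologicalSpace (X n)] [∀ n, T2Space (X n)]
  [∀ n, CompactSpace (X n)] [∀ n, Nonempty (X n)] {Y : Type} [TopologicalSpace Y] [T2Space Y]
  [CompactSpace Y] {U : Ultrafilter ℕ} {R : ∀ n, RS (X n)} {Q : RS Y} {D : Dg U R Q}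
  {B B' : ∀ n, LB (R n)} {L L' : LB Q} {p q : ∀ n, X n} {x y y' z : Y} {s s' : ∀ n, X n → ℂ}
  {σ σ' : Y → ℂ} {Z : ∀ n, Set (X n)} {ν : Type} [Fintype ν] {N : ∀ n, Finset (X n × X n)}
  {pm : ∀ n, ν → X n} {N₀ N₁ : Finset (Y × Y)} {p₀ : ν → Y}

namespace AlgP

section Static

variable {W : Type} [TopologicalSpace W] [T2Space W] [CompactSpace W] {S : RS W}
  {E E' : OpenPartialHomeomorph W ℂ} {c w : W} {M : Finset (W × W)} {P : Finset W}

theorem eq_c (hc : c ∈ E.source) (h0 : E c = 0) (hw : w ∈ E.source) : E w = 0 ↔ w = c :=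
  ⟨fun a => E.injOn hw hc (a.trans h0.symm), fun a => a ▸ h0⟩

theorem sec_pt_ne {f : W → ℂ} (h : w ≠ c) (hf : S.Hol f w) : (S.pt c).Sec f w :=
  LB.sec_iff.2 (hf.congr (.of_forall fun v => by simp [S.pt_φ_ne h]))

theorem pt_φ_self (hw : w ∈ (S.e c).source) (h : w ≠ c) : (S.pt c).φ c w = (S.e c w)⁻¹ := by
  simp [RS.pt, hw, h]

theorem dslope_ne (h : S.Cmp E) (hc : c ∈ E.source) : dslope (fun t => E (S.i c t)) 0 0 ≠ 0 := by
  rw [dslope_same]
  exact (h c hc).2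

theorem dslope_eq (h0 : E c = 0) {t : ℂ} (ht : t ≠ 0) :
    dslope (fun t => E (S.i c t)) 0 t = E (S.i c t) / t := by
  rw [dslope_of_ne _ ht, slope_def_field, S.i_zero, h0, sub_zero, sub_zero]

open Classical in
theorem sec_pt (h : S.Cmp E) (hc : c ∈ E.source) (h0 : E c = 0) (hw : w ∈ E.source) :
    (S.pt c).Sec (fun v => if v = c then (S.d E v)⁻¹ else (E v)⁻¹) w ∧
      (if w = c then (S.d E w)⁻¹ else (E w)⁻¹) ≠ 0 := by
  by_cases e : w = c
  · subst e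
    refine ⟨?_, by rw [if_pos rfl]; exact inv_ne_zero (h w hw).2⟩
    have a : AnalyticAt ℂ (fun t => (dslope (fun t => E (S.i w t)) 0 t)⁻¹) 0 :=
      (Xi.an_dslope (h w hw).1).inv (dslope_ne h hw)
    refine a.congr ((S.tgt_nhds w).mono fun t ht => ?_)
    by_cases b : t = 0
    · subst b
      rw [LB.loc_zero, if_pos rfl]
      simp only [dslope_same]
      rfl
    · have b' : S.i w t ≠ w := fun a => b ((S.i_eq ht).1 a)
      simp only [LB.loc, if_neg b', pt_φ_self (S.i_mem ht) b', S.e_i ht, dslope_eq h0 b]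
      rw [inv_div, div_inv_eq_mul, div_eq_inv_mul]
  · have a : E w ≠ 0 := fun a => e ((eq_c hc h0 hw).1 a)
    refine ⟨sec_pt_ne e (((h w hw).1.inv a).congr
      ((eventually_ne_nhds e).mono fun v hv => ?_)), by rw [if_neg e]; exact inv_ne_zero a⟩
    simp only [if_neg hv]

theorem sec_omega_good (hN : Nd M) (hP : ∀ a ∈ P, Sm M a) (h : Sm M w ∧ w ∉ P) {f : W → ℂ}
    (hf : S.K.Sec f w) : (omega S M P).Sec f w :=
  (Xi.omega_sec hN hP).2 ⟨_, hf, LB.loc_zero, .of_forall fun t => by rw [Xi.lg, if_pos h, one_mul]⟩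

open Classical in
/-- the logarithmic form of a chart, with value one at the centre -/
noncomputable def lf (S : RS W) (E : OpenPartialHomeomorph W ℂ) (k : ℂ) (v : W) : ℂ :=
  if E v = 0 then 1 else k * S.d E v / E v

theorem lf_ne (h : S.Cmp E) (hw : w ∈ E.source) {k : ℂ} (hk : k ≠ 0) : lf S E k w ≠ 0 := by
  unfold lf
  split_ifs with a
  exacts [one_ne_zero, div_ne_zero (mul_ne_zero hk (h w hw).2) a]

theorem sec_lf_off (h : S.Cmp E) (hw : w ∈ E.source) (a : E w ≠ 0) (k : ℂ) :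
    S.K.Sec (lf S E k) w := by
  have b := LB.Sec.hol_mul ((RS.hol_const k).div (h w hw).1 a) (h w hw).1.sec_d
  refine b.congr (((h w hw).1.continuousAt.eventually_ne a).mono fun v hv => ?_)
  simp only [lf, if_neg hv, Pi.mul_apply]
  ring

theorem sec_lf_ctr (hN : Nd M) (hP : ∀ a ∈ P, Sm M a) (hs : ¬(Sm M c ∧ c ∉ P)) (h : S.Cmp E)
    (hc : c ∈ E.source) (h0 : E c = 0) : (omega S M P).Sec (lf S E (Xi.sg M c)) c := by
  have a : AnalyticAt ℂ (fun t => E (S.i c t)) 0 := (h c hc).1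
  refine (Xi.omega_sec hN hP).2 ⟨fun t => deriv (fun t => E (S.i c t)) t /
    dslope (fun t => E (S.i c t)) 0 t, a.deriv.div (Xi.an_dslope a) (dslope_ne h hc), ?_, ?_⟩
  · simp only [dslope_same, lf, if_pos h0]
    exact div_self (h c hc).2
  · have b : ∀ᶠ t in 𝓝 (0 : ℂ), S.i c t ∈ E.source := S.tends_i c (E.open_source.mem_nhds hc)
    filter_upwards [((h c hc).1.loc_d).filter_mono nhdsWithin_le_nhds,
      (S.tgt_nhds c).filter_mono nhdsWithin_le_nhds, b.filter_mono nhdsWithin_le_nhds,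
      self_mem_nhdsWithin] with t a1 a2 a3 a4
    have a5 : t ≠ 0 := a4
    have a6 : E (S.i c t) ≠ 0 := fun e => a5 ((S.i_eq a2).1 ((eq_c hc h0 a3).1 e))
    have a7 := Xi.sg_sq (N := M) c
    rw [dslope_eq h0 a5, ← a1, Xi.lg, if_neg hs]
    simp only [LB.loc, lf, if_neg a6]
    have a8 := S.K.ne c (S.i c t)
    field_simp
    linear_combination (S.d E (S.i c t)) * a7

theorem lf_neck (h : S.Cmp E) (hw : w ∈ E.source) {τ : ℂ} (hτ : τ ≠ 0)
    (e : ∀ᶠ v in 𝓝 w, E v * E' v = τ) : lf S E' (-1) w = lf S E 1 w := by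
  have a : E w ≠ 0 := left_ne_zero_of_mul (e.self_of_nhds ▸ hτ)
  have a' : E' w ≠ 0 := right_ne_zero_of_mul (e.self_of_nhds ▸ hτ)
  have b : (E' : W → ℂ) =ᶠ[𝓝 w] fun v => τ / E v := e.mono fun v hv => by
    have : E v ≠ 0 := left_ne_zero_of_mul (hv ▸ hτ)
    simp only [← hv]
    field_simp
  have c1 : S.d E' w = deriv (fun t => τ / t) (E w) * S.d E w := by
    rw [RS.d_congr b]
    exact RS.d_comp (u := fun t => τ / t) (analyticAt_const.div analyticAt_id a) (h w hw).1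
  have c2 : deriv (fun t : ℂ => τ / t) (E w) = -τ / E w ^ 2 := by
    have : HasDerivAt (fun t : ℂ => τ * t⁻¹) (τ * -(E w ^ 2)⁻¹) (E w) :=
      (hasDerivAt_inv a).const_mul τ
    simp only [div_eq_mul_inv]
    rw [this.deriv]
    ring
  simp only [lf, if_neg a, if_neg a']
  rw [c1, c2, ← e.self_of_nhds]
  field_simp

theorem omega_φ (hN : Nd M) (hP : ∀ a ∈ P, Sm M a) (c : W) : ∀ᶠ v in 𝓝[≠] c,
    (omega S M P).φ c v * Xi.lg M P c (S.e c v) = S.d (S.e c) v := by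
  rw [S.ev_ne_iff]
  filter_upwards [Xi.omega_φ (R := S) hN hP c, (S.tgt_nhds c).filter_mono nhdsWithin_le_nhds]
    with t a b
  rwa [S.e_i b]

end Static

theorem transport (b : BL D B L) (hB : B' = B) (hL : L' = L) : ∃ c : BL D B' L', c.ε = b.ε := by
  subst hB hL
  exact ⟨b, rfl⟩

theorem both {P P' : ∀ n, X n → Prop} (h : ∃ δ > 0, ∀ᶠ n in U, ∀ w ∈ D.rg y n δ, P n w)
    (h' : ∃ δ > 0, ∀ᶠ n in U, ∀ w ∈ D.rg y n δ, P' n w) :
    ∃ δ > 0, ∀ᶠ n in U, ∀ w ∈ D.rg y n δ, P n w ∧ P' n w := by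
  obtain ⟨δ, h0, a⟩ := h
  obtain ⟨δ', h0', a'⟩ := h'
  exact ⟨min δ δ', lt_min h0 h0', (a.and a').mono fun n b w hw =>
    ⟨b.1 w (Dg.rg_mono (min_le_left _ _) hw), b.2 w (Dg.rg_mono (min_le_right _ _) hw)⟩⟩

theorem near (D : Dg U R Q) (y : Y) : ∀ᶠ z in 𝓝[≠] y, z ≠ y ∧ z ∈ (Q.e y).source ∧ Q.e y z ≠ 0 ∧
    ∀ p, D.To p z → (∀ᶠ n in U, p n ∈ (D.E y n).source ∧ D.E y n (p n) ≠ 0) ∧
      Tendsto (fun n => D.E y n (p n)) U (𝓝 (Q.e y z)) := by
  filter_upwards [D.near y, (Q.src_nhds y).filter_mono nhdsWithin_le_nhds, self_mem_nhdsWithin]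
    with z a b c
  have c' : z ≠ y := c
  have e : Q.e y z ≠ 0 := fun e => c' ((Q.e_eq_zero b).1 e)
  refine ⟨c', b, e, fun p hp => ?_⟩
  obtain ⟨a1, a2⟩ := (a p).1 hp
  exact ⟨a1.and (a2.eventually_ne e), a2⟩

theorem ne_of_rg {n : ℕ} {δ : ℝ} {w : X n} (hτ : D.τ y n ≠ 0) (hw : w ∈ D.rg y n δ) :
    D.E y n w ≠ 0 := fun e => by
  have := hw.2.2.resolve_left hτ
  rw [e, norm_zero, mul_zero] at this
  exact absurd this (not_lt.2 (norm_nonneg _))

theorem ev_rg {t : ℂ} {r : ℝ} (h0 : t ≠ 0) (hr : ‖t‖ < r)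
    (hs : ∀ᶠ n in U, p n ∈ (D.E y n).source) (ht : Tendsto (fun n => D.E y n (p n)) U (𝓝 t)) :
    ∀ᶠ n in U, p n ∈ D.rg y n r := by
  have hr0 : 0 < r := (norm_nonneg t).trans_lt hr
  have a : ∀ᶠ n in U, ‖D.E y n (p n)‖ < r := ht.norm.eventually_lt_const hr
  have b : ∀ᶠ n in U, ‖D.τ y n‖ < r * ‖D.E y n (p n)‖ :=
    (D.tend y).norm.eventually_lt (ht.norm.const_mul r)
      (by rw [norm_zero]; exact mul_pos hr0 (norm_pos_iff.2 h0))
  filter_upwards [hs, a, b] with n a1 a2 a3 using ⟨a1, a2, Or.inr a3⟩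

end AlgP

open AlgP

theorem exists_one (D : Dg U R Q) : ∃ b : BL D (fun _ => 1) 1, ∀ y n w, b.ε y n w = 1 :=
  ⟨⟨fun _ _ _ => 1, fun _ => ⟨1, one_pos, .of_forall fun _ _ _ =>
      ⟨LB.sec_one.2 (RS.hol_const (1 : ℂ)), one_ne_zero⟩⟩,
    fun _ _ => ⟨1, one_pos, .of_forall fun _ _ _ => rfl⟩,
    fun _ => .of_forall fun _ _ _ => by simp⟩, fun _ _ _ => rfl⟩

theorem BL.exists_mul (b : BL D B L) (b' : BL D B' L') :
    ∃ c : BL D (fun n => B n * B' n) (L * L'), ∀ y n w, c.ε y n w = b.ε y n w * b'.ε y n w := by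
  refine ⟨⟨fun y n => b.ε y n * b'.ε y n, fun y => ?_, fun m hm => ?_, fun y => ?_⟩,
    fun _ _ _ => rfl⟩
  · obtain ⟨δ, h0, a⟩ := both (b.fr y) (b'.fr y)
    exact ⟨δ, h0, a.mono fun n h w hw =>
      ⟨(h w hw).1.1.mul (h w hw).2.1, mul_ne_zero (h w hw).1.2 (h w hw).2.2⟩⟩
  · obtain ⟨δ, h0, a⟩ := both (b.neck m hm) (b'.neck m hm)
    exact ⟨δ, h0, a.mono fun n h w hw => by
      simp only [Pi.mul_apply, (h w hw).1, (h w hw).2]⟩
  · filter_upwards [b.cv y, b'.cv y] with z a a' p hp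
    simpa only [Pi.mul_apply, mul_div_mul_comm, LB.mul_φ] using (a p hp).mul (a' p hp)

theorem BL.exists_zpow (b : BL D B L) (a : ℤ) :
    ∃ c : BL D (fun n => B n ^ a) (L ^ a), ∀ y n w, c.ε y n w = b.ε y n w ^ a := by
  refine ⟨⟨fun y n => b.ε y n ^ a, fun y => ?_, fun m hm => ?_, fun y => ?_⟩, fun _ _ _ => rfl⟩
  · obtain ⟨δ, h0, h⟩ := b.fr y
    exact ⟨δ, h0, h.mono fun n h w hw =>
      ⟨(h w hw).1.zpow (h w hw).2 a, zpow_ne_zero a (h w hw).2⟩⟩
  · obtain ⟨δ, h0, h⟩ := b.neck m hm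
    exact ⟨δ, h0, h.mono fun n h w hw => by simp only [Pi.pow_apply, h w hw]⟩
  · filter_upwards [b.cv y] with z h p hp
    simpa only [Pi.pow_apply, div_zpow, LB.zpow_φ] using (h p hp).zpow₀ a (Or.inl (L.ne y z))

theorem exists_prod {β : Type} (T : Finset β) {A : ∀ n, β → LB (R n)} {A' : β → LB Q}
    (b : ∀ i, BL D (A · i) (A' i)) : ∃ c : BL D (fun n => ∏ i ∈ T, A n i) (∏ i ∈ T, A' i),
      ∀ y n w, c.ε y n w = ∏ i ∈ T, (b i).ε y n w := by
  classical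
  induction T using Finset.induction_on with
  | empty => exact exists_one D
  | insert a T ha ih =>
    obtain ⟨c, hc⟩ := ih
    obtain ⟨c', hc'⟩ := (b a).exists_mul c
    obtain ⟨c'', hc''⟩ := transport c' (B' := fun n => ∏ i ∈ insert a T, A n i)
      (funext fun n => Finset.prod_insert ha) (Finset.prod_insert ha)
    exact ⟨c'', fun y n w => by rw [hc'', hc', hc, Finset.prod_insert ha]⟩

theorem exists_bz {β : Type} [Fintype β] {A : ∀ n, β → LB (R n)} {A' : β → LB Q}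
    (b : ∀ i, BL D (A · i) (A' i)) (a : β → ℤ) : ∃ c : BL D (fun n => bz (A n) a) (bz A' a),
      ∀ y n w, c.ε y n w = ∏ i, (b i).ε y n w ^ a i := by
  choose c hc using fun i => (b i).exists_zpow (a i)
  obtain ⟨c', hc'⟩ := exists_prod Finset.univ (A := fun n i => A n i ^ a i) c
  exact ⟨c', fun y n w => by simp only [hc', hc]⟩

theorem BL.exists_congr (b : BL D B L) (h : ∀ᶠ n in U, B' n = B n) :
    ∃ c : BL D B' L, c.ε = b.ε := by
  refine ⟨⟨b.ε, fun y => ?_, b.neck, b.cv⟩, rfl⟩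
  obtain ⟨δ, h0, a⟩ := b.fr y
  exact ⟨δ, h0, (a.and h).mono fun n e => e.2 ▸ e.1⟩

theorem exists_pt (hy : Sm D.M y) : ∃ b : BL D (fun n => (R n).pt (D.c y n)) (Q.pt y),
    ∀ z ≠ y, ∀ n w, b.ε z n w = 1 := by
  classical
  refine ⟨⟨fun z n w => if z = y then
    (if w = D.c y n then ((R n).d (D.E y n) w)⁻¹ else (D.E y n w)⁻¹) else 1,
    fun z => ?_, fun m hm => ?_, fun z => ?_⟩, fun z hz _ _ => if_neg hz⟩
  · by_cases e : z = y
    · subst e
      simp only [if_true]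
      exact ⟨1, one_pos, ((D.cmp z).and (Dg.ev_c hy)).mono fun n a w hw =>
        sec_pt a.1 a.2.1 a.2.2 hw.1⟩
    · simp only [if_neg e]
      obtain ⟨δ, h0, a⟩ := Dg.not_to (fun h => e ((Dg.to_c hy).eq h hy))
      exact ⟨δ, h0, a.mono fun n a w hw =>
        ⟨sec_pt_ne (fun h => a (h ▸ hw)) (RS.hol_const (1 : ℂ)), one_ne_zero⟩⟩
  · exact ⟨1, one_pos, .of_forall fun n w _ => by rw [if_neg (hy m hm).1, if_neg (hy m hm).2]⟩
  · by_cases e : z = y
    · subst e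
      filter_upwards [near D z] with v ⟨a1, a2, a3, a4⟩ p hp
      rw [pt_φ_self a2 a1]
      refine ((a4 p hp).2.inv₀ a3).congr' ?_
      filter_upwards [(a4 p hp).1, Dg.ev_c hy] with n b1 b2
      rw [if_pos rfl, if_neg a1, if_neg fun h => b1.2 (by rw [h]; exact b2.2), div_one]
    · filter_upwards [(eventually_ne_nhds e).filter_mono nhdsWithin_le_nhds] with v a p _
      simp only [if_neg e, if_neg a, Q.pt_φ_ne e, div_one]
      exact tendsto_const_nhds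

theorem exists_tw (hm : (x, y) ∈ D.M ∨ (y, x) ∈ D.M) {C : Set Y} (hC : IsClopen C) (hy : y ∈ C)
    (hx : x ∉ C) (sat : ∀ m ∈ D.M, m ≠ (x, y) → m ≠ (y, x) → (m.1 ∈ C ↔ m.2 ∈ C)) :
    ∃ b : BL D (fun _ => 1) (Q.pt y / Q.pt x), (∀ z ∉ C, z ≠ x → ∀ n w, b.ε z n w = 1) ∧
      ∀ N₀ : Finset (Y × Y), (∀ m ∈ N₀, Sm D.M m.1 ∧ Sm D.M m.2 ∧ (m.1 ∈ C ↔ m.2 ∈ C)) →
        b.Pr N₀ := by
  classical
  have hxy : x ≠ y := fun e => hx (e ▸ hy)
  obtain ⟨r, hr, nk⟩ := Dg.rg_neck hm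
  have hτ : ∀ᶠ n in U, D.τ x n ≠ 0 := nk.mono fun n a => a.1
  have key : ∀ {z z' : Y}, z ≠ x → z ≠ y → z' ≠ x → z' ≠ y → (z ∈ C ↔ z' ∈ C) → ∀ᶠ n in U,
      (if z ∈ C then D.τ x n else 1) / (if z' ∈ C then D.τ x n else 1) = 1 := by
    intro z z' _ _ _ _ e
    filter_upwards [hτ] with n a
    by_cases h : z ∈ C
    · rw [if_pos h, if_pos (e.1 h), div_self a]
    · rw [if_neg h, if_neg fun h' => h (e.2 h'), div_one]
  have hsm : ∀ z, Sm D.M z → z ≠ x ∧ z ≠ y := fun z hz => by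
    rcases hm with h | h
    exacts [⟨(hz _ h).1.symm, (hz _ h).2.symm⟩, ⟨(hz _ h).2.symm, (hz _ h).1.symm⟩]
  refine ⟨⟨fun z n w => if z = x ∨ z = y then D.E x n w else if z ∈ C then D.τ x n else 1,
    fun z => ?_, fun m hm' => ?_, fun z => ?_⟩, fun z hz hz' n w => ?_, fun N₀ h m hm' => ?_⟩
  · by_cases e : z = x ∨ z = y
    · simp only [if_pos e]
      refine ⟨r, hr, ((D.cmp x).and nk).mono fun n a w hw => ?_⟩
      have hw' : w ∈ D.rg x n r := by
        rcases e with rfl | rfl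
        exacts [hw, (a.2.2.2 r le_rfl).1 ▸ hw]
      exact ⟨LB.sec_one.2 (a.1 w hw'.1).1, ne_of_rg a.2.1 hw'⟩
    · simp only [if_neg e]
      refine ⟨1, one_pos, hτ.mono fun n a w _ => ⟨LB.sec_one.2 (RS.hol_const _), ?_⟩⟩
      split_ifs
      exacts [a, one_ne_zero]
  · refine ⟨1, one_pos, .of_forall fun n w _ => ?_⟩
    by_cases e1 : m = (x, y)
    · simp [e1]
    by_cases e2 : m = (y, x)
    · simp [e2]
    have a1 : ¬(m.1 = x ∨ m.1 = y) := by
      rcases hm with h | h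
      · exact not_or.2 ⟨fun e => e1 (D.nd.inj1 hm' h e), D.nd.ne m hm' _ h⟩
      · exact not_or.2 ⟨D.nd.ne m hm' _ h, fun e => e2 (D.nd.inj1 hm' h e)⟩
    have a2 : ¬(m.2 = x ∨ m.2 = y) := by
      rcases hm with h | h
      · exact not_or.2 ⟨(D.nd.ne _ h m hm').symm, fun e => e1 (D.nd.inj2 hm' h e)⟩
      · exact not_or.2 ⟨fun e => e2 (D.nd.inj2 hm' h e), (D.nd.ne _ h m hm').symm⟩
    simp only [if_neg a1, if_neg a2, sat m hm' e1 e2]
  · by_cases e1 : z = x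
    · subst e1
      filter_upwards [near D z, nhdsWithin_le_nhds (hC.compl.isOpen.mem_nhds hx)]
        with v ⟨a1, a2, a3, a4⟩ a5 p hp
      have a6 : ¬(v = z ∨ v = y) := not_or.2 ⟨a1, fun e => a5 (e ▸ hy)⟩
      have a7 : v ∉ C := a5
      simp only [true_or, if_true, if_neg a6, if_neg a7, div_one, LB.div_φ, Q.pt_φ_ne hxy,
        pt_φ_self a2 a1, one_div, inv_inv]
      exact (a4 p hp).2
    by_cases e2 : z = y
    · subst e2
      have a0 : ∀ᶠ v in 𝓝 z, ‖Q.e z v‖ < r := by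
        have := (Q.tends_e z).norm
        rw [norm_zero] at this
        exact this.eventually_lt_const hr
      filter_upwards [near D z, nhdsWithin_le_nhds (hC.isOpen.mem_nhds hy),
        a0.filter_mono nhdsWithin_le_nhds] with v ⟨a1, a2, a3, a4⟩ a5 a8 p hp
      have a6 : ¬(v = x ∨ v = z) := not_or.2 ⟨fun e => hx (e ▸ a5), a1⟩
      simp only [or_true, if_true, if_neg a6, if_pos a5, div_one, LB.div_φ, Q.pt_φ_ne hxy.symm,
        pt_φ_self a2 a1]
      refine ((a4 p hp).2.inv₀ a3).congr' ?_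
      filter_upwards [ev_rg a3 a8 ((a4 p hp).1.mono fun n a => a.1) (a4 p hp).2, nk,
        (a4 p hp).1] with n b1 b2 b3
      have b4 := b2.2.2 r le_rfl
      have b5 := b4.2 (p n) (b4.1 ▸ b1)
      have b6 : D.E x n (p n) ≠ 0 := left_ne_zero_of_mul (b5 ▸ b2.1)
      rw [← b5]
      field_simp
    · have a0 : ∀ᶠ v in 𝓝 z, z ∈ C ↔ v ∈ C := by
        by_cases h : z ∈ C
        · exact Eventually.mono (hC.isOpen.mem_nhds h) fun v hv => iff_of_true h hv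
        · exact Eventually.mono (hC.compl.isOpen.mem_nhds h) fun v hv => iff_of_false h hv
      filter_upwards [(eventually_ne_nhds e1).filter_mono nhdsWithin_le_nhds,
        (eventually_ne_nhds e2).filter_mono nhdsWithin_le_nhds,
        a0.filter_mono nhdsWithin_le_nhds] with v a1 a2 a3 p _
      simp only [if_neg (not_or.2 ⟨e1, e2⟩), if_neg (not_or.2 ⟨a1, a2⟩), LB.div_φ, Q.pt_φ_ne e1,
        Q.pt_φ_ne e2, div_one]
      exact tendsto_const_nhds.congr' ((key e1 e2 a1 a2 a3).mono fun n a => a.symm)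
  · exact (if_neg (not_or.2 ⟨hz', fun e : z = y => hz (e ▸ hy)⟩)).trans (if_neg hz)
  · obtain ⟨a1, a2, a3⟩ := h m hm'
    have b1 := hsm _ a1
    have b2 := hsm _ a2
    simp only [if_neg (not_or.2 b1), if_neg (not_or.2 b2)]
    exact tendsto_const_nhds.congr' ((key b1.1 b1.2 b2.1 b2.2 a3).mono fun n a => a.symm)

open Classical in
theorem exists_omega (ho : D.Old N pm N₀ p₀ N₁) :
    ∃ b : BL D (fun n => omega (R n) (N n) (Finset.univ.image (pm n)))
      (omega Q N₁ (Finset.univ.image p₀)), b.Pr N₀ ∧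
      (∀ y, Sm N₁ y → (∀ a, p₀ a ≠ y) → ∀ n, b.ε y n = (R n).d (D.E y n)) ∧
      ∀ a, ∀ᶠ n in U, b.ε (p₀ a) n (pm n a) = 1 := by
  have img : ∀ {W : Type} {f : ν → W} {w : W}, w ∉ Finset.univ.image f ↔ ∀ a, f a ≠ w := by
    intro W f w
    simp
  have smP : ∀ {W : Type} {M : Finset (W × W)} {f : ν → W}, (∀ a, Sm M (f a)) →
      ∀ w ∈ Finset.univ.image f, Sm M w := by
    intro W M f h w hw
    obtain ⟨a, -, rfl⟩ := Finset.mem_image.1 hw
    exact h a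
  have sp1 : ∀ m ∈ N₁, ¬(Sm N₁ m.1 ∧ m.1 ∉ Finset.univ.image p₀) := fun m hm h =>
    Xi.not_sm_fst hm h.1
  have sp2 : ∀ m ∈ N₁, ¬(Sm N₁ m.2 ∧ m.2 ∉ Finset.univ.image p₀) := fun m hm h =>
    Xi.not_sm_snd hm h.1
  have sp3 : ∀ a, ¬(Sm N₁ (p₀ a) ∧ p₀ a ∉ Finset.univ.image p₀) := fun a h =>
    img.1 h.2 a rfl
  refine ⟨⟨fun y n => if Sm N₁ y ∧ y ∉ Finset.univ.image p₀ then (R n).d (D.E y n) else
    lf (R n) (D.E y n) (Xi.sg N₁ y), fun y => ?_, fun m hm => ?_, fun y => ?_⟩,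
    fun m hm => ?_, fun y h1 h2 n => if_pos ⟨h1, img.2 h2⟩, fun a => ?_⟩
  · by_cases h : Sm N₁ y ∧ y ∉ Finset.univ.image p₀
    · simp only [if_pos h]
      obtain ⟨δ, h0, a⟩ := ho.good h.1 (img.1 h.2)
      refine ⟨δ, h0, ?_⟩
      filter_upwards [a, ho.ev, D.cmp y] with n a1 a2 a3 w hw
      exact ⟨sec_omega_good a2.1 (smP a2.2.1) ⟨(a1 w hw).1, img.2 (a1 w hw).2⟩
        (a3 w hw.1).1.sec_d, (a3 w hw.1).2⟩
    · simp only [if_neg h]
      obtain ⟨δ, h0, a⟩ := ho.near y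
      have ctr : ∀ᶠ n in U, D.τ y n = 0 → ¬(Sm (N n) (D.c y n) ∧
          D.c y n ∉ Finset.univ.image (pm n)) ∧ Xi.sg N₁ y = Xi.sg (N n) (D.c y n) := by
        by_cases h1 : Sm D.M y
        swap
        · exact (Dg.τ_ne h1).mono fun n b e => absurd e b
        by_cases h2 : Sm N₁ y
        · obtain ⟨k, -, rfl⟩ := Finset.mem_image.1 (not_not.1 fun b => h ⟨h2, b⟩)
          filter_upwards [ho.mark, ho.ev] with n b1 b2 _
          rw [← b1 k, Xi.sg_sm h2, Xi.sg_sm (b2.2.1 k)]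
          exact ⟨fun b => img.1 b.2 k rfl, rfl⟩
        · simp only [Sm, not_forall, not_and_or, not_not] at h2
          obtain ⟨m, hm, h3⟩ := h2
          have h4 : m ∈ N₀ := ((ho.mem m).1 hm).resolve_right fun b =>
            h3.elim (h1 m b).1 (h1 m b).2
          filter_upwards [ho.node, ho.ev] with n b1 b2 _
          have b3 := (b1 _).2 ⟨m, h4, rfl⟩
          rcases h3 with rfl | rfl
          · exact ⟨fun b => Xi.not_sm_fst b3 b.1,
              (Xi.sg_fst ho.nd hm).trans (Xi.sg_fst b2.1 b3).symm⟩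
          · exact ⟨fun b => Xi.not_sm_snd b3 b.1, (Xi.sg_snd hm).trans (Xi.sg_snd b3).symm⟩
      refine ⟨δ, h0, ?_⟩
      filter_upwards [a, ho.ev, D.cmp y, ctr] with n a1 a2 a3 a4 w hw
      refine ⟨?_, lf_ne a3 hw.1 (Xi.sg_ne y)⟩
      by_cases e : D.E y n w = 0
      · have b1 : D.τ y n = 0 := by
          by_contra b
          exact ne_of_rg b hw e
        have b2 : D.c y n = w := by
          rw [Dg.c, ← e]
          exact (D.E y n).left_inv hw.1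
        obtain ⟨b3, b4⟩ := a4 b1
        rw [b2] at b3 b4
        rw [b4]
        exact sec_lf_ctr a2.1 (smP a2.2.1) b3 a3 hw.1 e
      · exact sec_omega_good a2.1 (smP a2.2.1) ⟨(a1 w hw e).1, img.2 (a1 w hw e).2⟩
          (sec_lf_off a3 hw.1 e _)
  · have hm' := (ho.mem m).2 (Or.inr hm)
    obtain ⟨r, hr, a⟩ := Dg.rg_neck (D := D) (y := m.1) (y' := m.2) (Or.inl hm)
    refine ⟨r, hr, ?_⟩
    filter_upwards [a, D.cmp m.1] with n a1 a2 w hw
    simp only [if_neg (sp1 m hm'), if_neg (sp2 m hm'), Xi.sg_fst ho.nd hm', Xi.sg_snd hm']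
    exact lf_neck a2 hw.1 a1.1
      (Eventually.mono (Dg.isOpen_rg.mem_nhds hw) (a1.2.2 r le_rfl).2)
  · filter_upwards [near D y, D.tendsto_d y, Xi.ev_sm N₁ (Finset.univ.image p₀) y,
      AlgP.omega_φ (S := Q) ho.nd (smP ho.sm) y] with z ⟨a1, a2, a3, a4⟩ a5 a6 a7 p hp
    simp only [if_pos a6]
    by_cases h : Sm N₁ y ∧ y ∉ Finset.univ.image p₀
    · rw [Xi.lg, if_pos h, mul_one] at a7
      simp only [if_pos h, a7]
      exact a5 p hp
    · rw [Xi.lg, if_neg h] at a7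
      have b1 : (omega Q N₁ (Finset.univ.image p₀)).φ y z =
          Xi.sg N₁ y * Q.d (Q.e y) z / Q.e y z := by
        rw [← a7, eq_div_iff a3]
        linear_combination (-(omega Q N₁ (Finset.univ.image p₀)).φ y z * Q.e y z) *
          Xi.sg_sq (N := N₁) y
      simp only [if_neg h, b1]
      refine ((((a5 p hp).const_mul (Xi.sg N₁ y))).div (a4 p hp).2 a3).congr' ?_
      filter_upwards [(a4 p hp).1] with n b2
      simp only [lf, if_neg b2.2, Pi.div_apply]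
      ring
  · have hm' := (ho.mem m).2 (Or.inl hm)
    simp only [if_neg (sp1 m hm'), if_neg (sp2 m hm')]
    refine tendsto_const_nhds.congr' ?_
    filter_upwards [Dg.ev_c (ho.sm_fst hm).1, Dg.ev_c (ho.sm_fst hm).2] with n a1 a2
    simp only [lf, if_pos a1.2, if_pos a2.2, div_one]
  · simp only [if_neg (sp3 a)]
    filter_upwards [Dg.ev_c (ho.sm_mark a), ho.mark] with n a1 a2
    simp only [lf, a2 a, if_pos a1.2]

end Vale.Agent.P269.Cpt
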