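import Vale.Agent.P269.Cpt.Defs

/-!
# A Riemann surface from local parametrisations; open sub-surfaces with the same charts
-/

set_option linter.unusedSectionVars false

namespace Vale.Agent.P269.Cpt

open Set Function Topology Filter Metric Module Vale.Agent.P269.Cv

namespace AsmP

theorem exists_chart {W : Type} [TopologicalSpace W] {f : ℂ → W}
    (h1 : ∀ᶠ t in 𝓝 0, 𝓝 (f t) = map f (𝓝 t)) (h2 : ∃ U ∈ 𝓝 (0 : ℂ), InjOn f U) :
    ∃ e : OpenPartialHomeomorph ℂ W, (e : ℂ → W) = f ∧ 0 ∈ e.source := by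
  obtain ⟨U, hU, h2⟩ := h2
  obtain ⟨D, h3, h4, h5⟩ := _root_.mem_nhds_iff.1 (inter_mem hU h1)
  refine ⟨OpenPartialHomeomorph.ofContinuousOpenRestrict
    ((h2.mono (h3.trans inter_subset_left)).toPartialEquiv f D)
    (fun t ht => ContinuousAt.continuousWithinAt (h3 ht).2.ge) ?_ h4, rfl, h5⟩
  refine isOpenMap_iff_nhds_le.2 fun t => ?_
  change 𝓝 (f t) ≤ map (f ∘ Subtype.val) (𝓝 t)
  rw [← map_map, map_nhds_subtype_val]
  exact (h3 t.2).2.le.trans (map_mono (nhdsWithin_eq_nhds.2 (h4.mem_nhds t.2)).ge)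

theorem map_nhds {ψ : ℂ → ℂ} (h : AnalyticAt ℂ ψ 0) (h' : deriv ψ 0 ≠ 0) :
    map ψ (𝓝 0) = 𝓝 (ψ 0) := h.hasStrictDerivAt.map_nhds_eq h'

end AsmP

theorem exists_rs {W : Type} (g : W → ℂ → W) (h0 : ∀ w, g w 0 = w)
    (inj : ∀ w, ∃ V ∈ 𝓝 (0 : ℂ), InjOn (g w) V)
    (tr : ∀ w, ∀ᶠ t₀ in 𝓝 (0 : ℂ), ∃ ψ : ℂ → ℂ, AnalyticAt ℂ ψ 0 ∧ ψ 0 = t₀ ∧ deriv ψ 0 ≠ 0 ∧
      ∀ᶠ t in 𝓝 (0 : ℂ), g (g w t₀) t = g w (ψ t)) :
    ∃ (_ : TopologicalSpace W) (S : RS W), (∀ w, 𝓝 w = map (g w) (𝓝 0)) ∧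
      ∀ w, ∀ᶠ t in 𝓝 (0 : ℂ), S.i w t = g w t ∧ S.e w (g w t) = t := by
  have key : ∀ w, ∀ᶠ t in 𝓝 (0 : ℂ), map (g (g w t)) (𝓝 0) = map (g w) (𝓝 t) := fun w =>
    (tr w).mono fun t ⟨ψ, a, b, c, d⟩ => by
      rw [← b, ← AsmP.map_nhds a c, map_map, b]
      exact map_congr d
  let _ : TopologicalSpace W := TopologicalSpace.mkOfNhds fun w => map (g w) (𝓝 0)
  have hn : ∀ w, 𝓝 w = map (g w) (𝓝 0) := fun w =>
    TopologicalSpace.nhds_mkOfNhds (fun w => map (g w) (𝓝 0)) w (fun w => by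
      conv_lhs => rw [← h0 w]
      exact map_mono (m := g w) (pure_le_nhds 0)) fun a s hs => by
        rw [eventually_map]
        filter_upwards [key a, eventually_mem_nhds_iff.2 hs] with t h1 h2
        rw [h1]
        exact h2
  choose e he h1 using fun w => AsmP.exists_chart (f := g w)
    ((key w).mono fun t h => (hn _).trans h) (inj w)
  have h2 : ∀ w t, t ∈ (e w).source → (e w).symm (g w t) = t := fun w t h => by
    rw [← he w]
    exact (e w).left_inv h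
  refine ⟨inferInstance, RS.of (fun w => (e w).symm) (fun w => ?_) (fun w => ?_) fun w => ?_, hn,
    fun w => ?_⟩
  · have := (e w).map_source (h1 w)
    rwa [he, h0] at this
  · have := h2 w 0 (h1 w)
    rwa [h0] at this
  · rw [hn w, eventually_map]
    filter_upwards [tr w, (e w).open_source.mem_nhds (h1 w)] with t ⟨ψ, a, b, c, d⟩ h
    have h3 : ψ =ᶠ[𝓝 0] fun u => (e w).symm ((e (g w t)).symm.symm u) := by
      filter_upwards [d, a.continuousAt.eventually ((e w).open_source.mem_nhds (b ▸ h))]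
        with u h4 h5
      rw [OpenPartialHomeomorph.symm_symm, he, h4, h2 w _ h5]
    exact ⟨a.congr h3, h3.deriv_eq ▸ c⟩
  · filter_upwards [(e w).open_source.mem_nhds (h1 w)] with t h
    exact ⟨congrFun (he w) t, h2 w t h⟩

theorem exists_comap' {W W' : Type} [TopologicalSpace W] [TopologicalSpace W'] (S : RS W)
    {f : W' → W} (hf : IsOpenEmbedding f) : ∃ S' : RS W', LIso S' S f ∧
      (∀ w v, S'.e w v = S.e (f w) (f v)) ∧ (∀ w, ∀ᶠ t in 𝓝 (0 : ℂ), f (S'.i w t) = S.i (f w) t) ∧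
      ∀ w, S'.d (fun v => S.e (f w) (f v)) w = 1 := by
  let e : W' → OpenPartialHomeomorph W' ℂ := fun x =>
    (@IsOpenEmbedding.toOpenPartialHomeomorph _ _ _ _ f hf ⟨x⟩).trans (S.e (f x))
  have k : ∀ y, ∀ᶠ t in 𝓝 (0 : ℂ), f ((e y).symm t) = S.i (f y) t := fun y =>
    Eventually.mono (S.tends_i (f y) (hf.isOpen_range.mem_nhds ⟨y, rfl⟩)) fun t ht =>
      @IsOpenEmbedding.toOpenPartialHomeomorph_right_inv _ _ _ _ f hf ⟨y⟩ _ ht
  let S' : RS W' := ⟨e, fun x => ⟨mem_univ x, S.mem _⟩, fun x => S.zero _, fun x y hy => by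
    have a : (fun t => S.e (f x) (S.i (f y) t)) =ᶠ[𝓝 0] fun t => e x ((e y).symm t) :=
      (k y).mono fun t ht => congrArg (S.e (f x)) ht.symm
    exact ⟨(S.hol _ _ hy.2).1.congr a, a.deriv_eq ▸ (S.hol _ _ hy.2).2⟩⟩
  exact ⟨S', ⟨hf.continuous, fun x => RS.hol_e (S'.mem x), fun x => RS.d_e_ne (S'.mem x)⟩,
    fun _ _ => rfl, k, fun w => RS.d_e_self (R := S') w⟩

end Vale.Agent.P269.Cpt
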