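import Vale.Agent.P269.Cpt.Defs

/-!
# Basic properties of degenerations, first part
-/

set_option linter.unusedSectionVars false

namespace Vale.Agent.P269.Cpt

open Set Function Topology Filter Metric Module Vale.Agent.P269.Cv

variable {X : ℕ → Type} [∀ n, TopologicalSpace (X n)] [∀ n, T2Space (X n)]
  [∀ n, CompactSpace (X n)] [∀ n, Nonempty (X n)] {Y : Type} [TopologicalSpace Y] [T2Space Y]
  [CompactSpace Y] {U : Ultrafilter ℕ} {R : ∀ n, RS (X n)} {Q : RS Y} {D : Dg U R Q}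
  {B B' : ∀ n, LB (R n)} {L L' : LB Q} {p q : ∀ n, X n} {x y y' z : Y} {s s' : ∀ n, X n → ℂ}
  {σ σ' : Y → ℂ} {Z : ∀ n, Set (X n)} {ν : Type} [Fintype ν] {N : ∀ n, Finset (X n × X n)}
  {pm : ∀ n, ν → X n} {N₀ N₁ : Finset (Y × Y)} {p₀ : ν → Y}

theorem ann_mono {τ : ℂ} {r r' : ℝ} (h : r ≤ r') : ann τ r ⊆ ann τ r' := fun _ hz =>
  ⟨hz.1.trans_le h, hz.2.imp_right fun e =>
    e.trans_le (mul_le_mul_of_nonneg_right h (norm_nonneg _))⟩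

theorem isOpen_ann {τ : ℂ} {r : ℝ} : IsOpen (ann τ r) :=
  (isOpen_lt continuous_norm continuous_const).inter
    (isOpen_const.union (isOpen_lt continuous_const (continuous_const.mul continuous_norm)))

theorem ann_zero {r : ℝ} : ann 0 r = ball 0 r := by
  ext z
  simp [ann]

theorem isPreconnected_ann {τ : ℂ} {r : ℝ} : IsPreconnected (ann τ r \ {0}) := by
  have h1 : OrdConnected {ρ : ℝ | 0 < ρ ∧ ρ < r ∧ (τ = 0 ∨ ‖τ‖ < r * ρ)} :=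
    ⟨fun a ha b hb c hc => ⟨ha.1.trans_le hc.1, hc.2.trans_lt hb.2.1, ha.2.2.imp_right fun e =>
      e.trans_le (mul_le_mul_of_nonneg_left hc.1 (ha.1.trans ha.2.1).le)⟩⟩
  have h2 := (h1.isPreconnected.prod (isPreconnected_univ (α := ℝ))).image
    (fun p : ℝ × ℝ => (p.1 : ℂ) * Complex.exp (p.2 * Complex.I)) (by fun_prop)
  convert h2 using 1
  refine subset_antisymm (fun z hz => ⟨(‖z‖, z.arg), ⟨⟨norm_pos_iff.2 hz.2, hz.1⟩, trivial⟩,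
    Complex.norm_mul_exp_arg_mul_I z⟩) ?_
  rintro _ ⟨p, ⟨h3, -⟩, rfl⟩
  have e : ‖(p.1 : ℂ) * Complex.exp (p.2 * Complex.I)‖ = p.1 := by simp [abs_of_pos h3.1]
  exact ⟨by rw [ann, mem_ofPred_eq, e]; exact h3.2, norm_pos_iff.1 (e.symm ▸ h3.1)⟩

theorem tendstoUniformlyOn_of {F : ℕ → ℂ → ℂ} {f : ℂ → ℂ} {K : Set ℂ} (hK : IsCompact K)
    (hf : ContinuousOn f K) (h : ∀ t ∈ K, ∀ t' : ℕ → ℂ, Tendsto t' U (𝓝 t) →
      Tendsto (fun n => F n (t' n)) U (𝓝 (f t))) : TendstoUniformlyOn F f U K := by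
  refine Metric.tendstoUniformlyOn_iff.2 fun ε hε => by_contra fun hn => ?_
  obtain ⟨u, hu⟩ := ((Ultrafilter.eventually_not.2 hn).mono fun n hn =>
    show ∃ x, x ∈ K ∧ ε ≤ dist (f x) (F n x) by simpa using hn).choice
  obtain ⟨t, h1, h2⟩ := hK.ultrafilter_le_nhds' (U.map u) (hu.mono fun n hn => hn.1)
  have h3 := ((hf t h1).tendsto.comp (tendsto_nhdsWithin_iff.2
    ⟨h2, hu.mono fun n hn => hn.1⟩)).dist (h t h1 u h2)
  rw [dist_self] at h3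
  exact (ge_of_tendsto h3 (hu.mono fun n hn => hn.2)).not_gt hε

namespace BasP

theorem mem_ann {τ a : ℂ} {r : ℝ} : a ∈ ann τ r ↔ (τ = 0 ∨ a ≠ 0) ∧ ‖a‖ < r ∧ ‖τ / a‖ < r := by
  refine ⟨fun h => ?_, fun h => ⟨h.2.1, h.1.imp_right fun e => ?_⟩⟩
  · rcases h.2 with e | e
    · exact ⟨.inl e, h.1, by simpa [e] using (norm_nonneg _).trans_lt h.1⟩
    · have : a ≠ 0 := fun h0 => by simpa [h0] using (norm_nonneg _).trans_lt e
      exact ⟨.inr this, h.1, by rwa [norm_div, div_lt_iff₀ (norm_pos_iff.2 this)]⟩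
  · simpa only [norm_div, div_lt_iff₀ (norm_pos_iff.2 e)] using h.2.2

theorem ann_swap {τ a b : ℂ} {r : ℝ} (e : a * b = τ) (h0 : τ ≠ 0) (h : a ∈ ann τ r) :
    b ∈ ann τ r := by
  subst e
  rw [mem_ann] at h ⊢
  rw [mul_div_cancel_left₀ _ (left_ne_zero_of_mul h0)] at h
  rw [mul_div_cancel_right₀ _ (right_ne_zero_of_mul h0)]
  exact ⟨.inr (right_ne_zero_of_mul h0), h.2.2, h.2.1⟩

theorem ev_ann {τ u : ℕ → ℂ} {t : ℂ} {r : ℝ} (hτ : Tendsto τ U (𝓝 0)) (hu : Tendsto u U (𝓝 t))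
    (h0 : t ≠ 0) (h1 : ‖t‖ < r) : ∀ᶠ n in U, u n ∈ ann (τ n) r := by
  filter_upwards [hu.norm.eventually_lt_const h1, hτ.norm.eventually_lt (hu.norm.const_mul r)
    (by rw [norm_zero]; exact mul_pos ((norm_nonneg _).trans_lt h1) (norm_pos_iff.2 h0))] with n a b
  exact ⟨a, .inr b⟩

theorem choice {P : ∀ n, X n → Prop} (h : ∀ᶠ n in U, ∃ w, P n w) :
    ∃ p : ∀ n, X n, ∀ᶠ n in U, P n (p n) :=
  ⟨fun n => Classical.epsilon (P n), h.mono fun _ => Classical.epsilon_spec⟩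

end BasP

open BasP

namespace Dg

theorem rg_mono {n : ℕ} {δ δ' : ℝ} (h : δ ≤ δ') : D.rg y n δ ⊆ D.rg y n δ' :=
  fun _ hw => ⟨hw.1, ann_mono h hw.2⟩

theorem isOpen_rg {n : ℕ} {δ : ℝ} : IsOpen (D.rg y n δ) :=
  (D.E y n).isOpen_inter_preimage isOpen_ann

theorem To.congr (h : D.To p y) (e : ∀ᶠ n in U, p n = q n) : D.To q y := fun δ hδ => by
  filter_upwards [h δ hδ, e] with n a b using b ▸ a

theorem to_iff : D.To p y ↔ (∀ᶠ n in U, p n ∈ (D.E y n).source ∧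
    (D.τ y n = 0 ∨ D.E y n (p n) ≠ 0)) ∧ Tendsto (fun n => D.E y n (p n)) U (𝓝 0) ∧
      Tendsto (fun n => D.τ y n / D.E y n (p n)) U (𝓝 0) := by
  simp only [NormedAddGroup.tendsto_nhds_zero]
  refine ⟨fun h => ⟨(h 1 one_pos).mono fun n a => ⟨a.1, (mem_ann.1 a.2).1⟩,
    fun δ hδ => (h δ hδ).mono fun n a => a.2.1,
    fun δ hδ => (h δ hδ).mono fun n a => (mem_ann.1 a.2).2.2⟩, fun h δ hδ => ?_⟩
  filter_upwards [h.1, h.2.1 δ hδ, h.2.2 δ hδ] with n a b c using ⟨a.1, mem_ann.2 ⟨a.2, b, c⟩⟩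

theorem to_sm (hy : Sm D.M y) : D.To p y ↔ (∀ᶠ n in U, p n ∈ (D.E y n).source) ∧
    Tendsto (fun n => D.E y n (p n)) U (𝓝 0) := by
  simp [to_iff, D.sm y hy]

theorem ev_c (hy : Sm D.M y) :
    ∀ᶠ n in U, D.c y n ∈ (D.E y n).source ∧ D.E y n (D.c y n) = 0 := by
  obtain ⟨r, hr, h⟩ := D.tgt y
  refine h.mono fun n a => ?_
  have : (0 : ℂ) ∈ (D.E y n).target := a ⟨by simpa using hr, .inl (D.sm y hy n)⟩
  exact ⟨(D.E y n).map_target this, (D.E y n).right_inv this⟩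

theorem to_c (hy : Sm D.M y) : D.To (D.c y) y :=
  (to_sm hy).2 ⟨(ev_c hy).mono fun _ a => a.1,
    tendsto_const_nhds.congr' ((ev_c hy).mono fun _ a => a.2.symm)⟩

theorem τ_ne (hy : ¬Sm D.M y) : ∀ᶠ n in U, D.τ y n ≠ 0 := by
  obtain ⟨m, hm, h⟩ := not_sm.1 hy
  obtain ⟨r, -, h1⟩ := D.neck m hm
  rcases h with rfl | rfl
  · exact h1.mono fun n a => a.1
  · exact h1.mono fun n a => a.2.1 ▸ a.1

theorem rg_neck (h : (y, y') ∈ D.M ∨ (y', y) ∈ D.M) : ∃ r > 0, ∀ᶠ n in U, D.τ y n ≠ 0 ∧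
    D.τ y' n = D.τ y n ∧ ∀ δ ≤ r, D.rg y' n δ = D.rg y n δ ∧
      ∀ w ∈ D.rg y n δ, D.E y n w * D.E y' n w = D.τ y n := by
  obtain ⟨r, hr, h1⟩ : ∃ r > 0, ∀ᶠ n in U, D.τ y n ≠ 0 ∧ D.τ y' n = D.τ y n ∧
      D.rg y' n r = D.rg y n r ∧ ∀ w ∈ D.rg y n r, D.E y n w * D.E y' n w = D.τ y n := by
    rcases h with h | h
    · exact D.neck _ h
    · obtain ⟨r, hr, h1⟩ := D.neck _ h
      exact ⟨r, hr, h1.mono fun n a => ⟨a.2.1 ▸ a.1, a.2.1.symm, a.2.2.1.symm, fun w hw =>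
        (mul_comm _ _).trans ((a.2.2.2 w (a.2.2.1 ▸ hw)).trans a.2.1.symm)⟩⟩
  refine ⟨r, hr, h1.mono fun n ⟨a, b, c, d⟩ => ⟨a, b, fun δ hδ =>
    ⟨subset_antisymm (fun w hw => ?_) fun w hw => ?_, fun w hw => d w (rg_mono hδ hw)⟩⟩⟩
  · have e := c ▸ rg_mono hδ hw
    exact ⟨e.1, ann_swap ((mul_comm _ _).trans (d w e)) a (b ▸ hw.2)⟩
  · exact ⟨(c.ge (rg_mono hδ hw)).1, b.symm ▸ ann_swap (d w (rg_mono hδ hw)) a hw.2⟩

theorem to_neck (h : (y, y') ∈ D.M ∨ (y', y) ∈ D.M) : D.To p y ↔ D.To p y' := by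
  obtain ⟨r, hr, h1⟩ := rg_neck h
  refine ⟨fun h2 δ hδ => ?_, fun h2 δ hδ => ?_⟩ <;>
    filter_upwards [h1, h2 _ (lt_min hδ hr)] with n a b
  · exact rg_mono (min_le_left _ _) ((a.2.2 _ (min_le_right _ _)).1.ge b)
  · exact rg_mono (min_le_left _ _) ((a.2.2 _ (min_le_right _ _)).1.le b)

theorem To.eq (h : D.To p y) (h' : D.To p y') (hy : Sm D.M y) : y' = y := by
  rcases D.sep p y y' h h' with e | e | e
  exacts [e.symm, absurd rfl (hy _ e).1, absurd rfl (hy _ e).2]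

theorem exists_to (D : Dg U R Q) (y : Y) : ∃ p, D.To p y := by
  choose u hu using fun n => IsAlgClosed.exists_pow_nat_eq (D.τ y n) two_pos
  have h1 : ∀ δ > 0, ∀ᶠ n in U, u n ∈ ann (D.τ y n) δ := fun δ hδ =>
    (NormedAddGroup.tendsto_nhds_zero.1 (D.tend y) _ (pow_pos hδ 2)).mono fun n a => by
      rw [← hu, norm_pow] at a
      have b := lt_of_pow_lt_pow_left₀ 2 hδ.le a
      refine ⟨b, (eq_or_ne (u n) 0).imp (fun e => by simp [← hu, e]) fun e => ?_⟩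
      rw [← hu, norm_pow, sq]
      exact mul_lt_mul_of_pos_right b (norm_pos_iff.2 e)
  obtain ⟨r, hr, h⟩ := D.tgt y
  refine ⟨fun n => (D.E y n).symm (u n), fun δ hδ => ?_⟩
  filter_upwards [h, h1 r hr, h1 δ hδ] with n a b c
  exact ⟨(D.E y n).map_target (a b), by rwa [mem_preimage, (D.E y n).right_inv (a b)]⟩

theorem not_to (h : ¬D.To p y) : ∃ δ > 0, ∀ᶠ n in U, p n ∉ D.rg y n δ := by
  simpa only [To, not_forall, exists_prop, ← Ultrafilter.eventually_not] using h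

theorem ev_sm (D : Dg U R Q) (y : Y) : ∀ᶠ z in 𝓝[≠] y, Sm D.M z :=
  nhdsNE_le_cofinite y ((eventually_all_finset _).2 fun m _ =>
    ((eventually_cofinite_ne m.1).and (eventually_cofinite_ne m.2)).mono fun _ a =>
      ⟨a.1.symm, a.2.symm⟩)

theorem near_i (D : Dg U R Q) (y : Y) : ∀ᶠ t in 𝓝[≠] (0 : ℂ), ∀ p, D.To p (Q.i y t) ↔
    (∀ᶠ n in U, p n ∈ (D.E y n).source) ∧ Tendsto (fun n => D.E y n (p n)) U (𝓝 t) := by
  filter_upwards [Q.ev_ne_iff.1 (D.near y), nhdsWithin_le_nhds (Q.tgt_nhds y)] with t a b p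
  exact (a p).trans (by rw [Q.e_i b])

theorem to_symm (D : Dg U R Q) (y : Y) : ∀ᶠ t in 𝓝[≠] (0 : ℂ), ∀ t' : ℕ → ℂ,
    Tendsto t' U (𝓝 t) → D.To (fun n => (D.E y n).symm (t' n)) (Q.i y t) := by
  obtain ⟨r, hr, h⟩ := D.tgt y
  filter_upwards [D.near_i y, nhdsWithin_le_nhds (ball_mem_nhds 0 hr), self_mem_nhdsWithin]
    with t a b c t' ht
  have h1 : ∀ᶠ n in U, t' n ∈ (D.E y n).target :=
    (h.and (ev_ann (D.tend y) ht c (mem_ball_zero_iff.1 b))).mono fun n e => e.1 e.2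
  exact (a _).2 ⟨h1.mono fun n e => (D.E y n).map_target e,
    ht.congr' (h1.mono fun n e => ((D.E y n).right_inv e).symm)⟩

theorem dich (D : Dg U R Q) (y : Y) : ∀ᶠ r in 𝓝[>] (0 : ℝ), ∀ p, (∀ᶠ n in U, p n ∈ D.rg y n r) →
    Tendsto (fun n => D.E y n (p n)) U (𝓝 0) ∨
      ∃ t ≠ 0, ‖t‖ ≤ r ∧ D.To p (Q.i y t) ∧ Tendsto (fun n => D.E y n (p n)) U (𝓝 t) := by
  obtain ⟨ε, hε, h⟩ := Metric.eventually_nhds_iff_ball.1 (eventually_nhdsWithin_iff.1 (D.near_i y))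
  filter_upwards [nhdsWithin_le_nhds (Iio_mem_nhds hε)] with r hr p hp
  obtain ⟨t, h1, h2⟩ := (isCompact_closedBall (0 : ℂ) r).ultrafilter_le_nhds'
    (U.map fun n => D.E y n (p n)) (hp.mono fun n a => mem_closedBall_zero_iff.2 a.2.1.le)
  rw [mem_closedBall_zero_iff] at h1
  refine (eq_or_ne t 0).imp (fun e : t = 0 => e ▸ h2) fun e => ⟨t, e, h1,
    (h t (mem_ball_zero_iff.2 (h1.trans_lt hr)) e p).2 ⟨hp.mono fun n a => a.1, h2⟩, h2⟩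

theorem trich (D : Dg U R Q) (y : Y) : ∀ᶠ r in 𝓝[>] (0 : ℝ), ∀ p, (∀ᶠ n in U, p n ∈ D.rg y n r) →
    D.To p y ∨ ∃ y', (y' = y ∨ (y, y') ∈ D.M ∨ (y', y) ∈ D.M) ∧ (∀ᶠ n in U, p n ∈ D.rg y' n r) ∧
      ∃ t ≠ 0, ‖t‖ ≤ r ∧ D.To p (Q.i y' t) ∧ Tendsto (fun n => D.E y' n (p n)) U (𝓝 t) := by
  by_cases hy : Sm D.M y
  · filter_upwards [D.dich y] with r a p hp
    exact (a p hp).imp (fun e => (to_sm hy).2 ⟨hp.mono fun n b => b.1, e⟩)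
      fun e => ⟨y, .inl rfl, hp, e⟩
  obtain ⟨y', h⟩ : ∃ y', (y, y') ∈ D.M ∨ (y', y) ∈ D.M := by
    obtain ⟨m, hm, rfl | rfl⟩ := not_sm.1 hy
    exacts [⟨m.2, .inl hm⟩, ⟨m.1, .inr hm⟩]
  obtain ⟨ε, hε, h1⟩ := rg_neck h
  filter_upwards [D.dich y, D.dich y', nhdsWithin_le_nhds (Iic_mem_nhds hε)] with r a b c p hp
  have hp' : ∀ᶠ n in U, p n ∈ D.rg y' n r := (h1.and hp).mono fun n e => (e.1.2.2 r c).1.ge e.2
  rcases a p hp with e | e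
  · refine (b p hp').imp (fun e' => to_iff.2 ⟨hp.mono fun n a => ⟨a.1, (mem_ann.1 a.2).1⟩, e,
      e'.congr' ((h1.and hp).mono fun n a => ?_)⟩) fun e' => ⟨y', .inr h, hp', e'⟩
    have e1 := (a.1.2.2 r c).2 _ a.2
    exact eq_div_of_mul_eq (left_ne_zero_of_mul (e1 ▸ a.1.1)) ((mul_comm _ _).trans e1)
  · exact .inr ⟨y, .inl rfl, hp, e⟩

theorem ev_rg (D : Dg U R Q) (y : Y) {δ : ℝ} (hδ : 0 < δ) :
    ∀ᶠ z in 𝓝 y, ∀ p, D.To p z → ∀ᶠ n in U, p n ∈ D.rg y n δ := by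
  rw [← nhdsNE_sup_pure, eventually_sup, eventually_pure]
  refine ⟨Q.ev_ne_iff.2 ?_, fun p hp => hp δ hδ⟩
  filter_upwards [D.near_i y, nhdsWithin_le_nhds (ball_mem_nhds 0 hδ), self_mem_nhdsWithin]
    with t a b c p hp
  exact ((a p).1 hp).1.and (ev_ann (D.tend y) ((a p).1 hp).2 c (mem_ball_zero_iff.1 b))

theorem fin_cover (D : Dg U R Q) {δ : Y → ℝ} (hδ : ∀ y, 0 < δ y) :
    ∃ T : Finset Y, ∀ᶠ n in U, ∀ w, ∃ y ∈ T, w ∈ D.rg y n (δ y) := by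
  obtain ⟨T, hT⟩ := CompactSpace.elim_nhds_subcover _ fun y => D.ev_rg y (hδ y)
  refine ⟨T, by_contra fun hn => ?_⟩
  obtain ⟨p, hp⟩ := choice ((Ultrafilter.eventually_not.2 hn).mono fun n => not_forall.1)
  obtain ⟨z, hz⟩ := D.cover p
  obtain ⟨y, h1, h2⟩ := mem_iUnion₂.1 (hT.ge (mem_univ z))
  obtain ⟨n, a, b⟩ := (hp.and (h2 p hz)).exists
  exact a ⟨y, h1, b⟩

theorem unif {P : ℕ → ∀ n, X n → Prop} (mono : ∀ k k', k ≤ k' → ∀ n w, P k n w → P k' n w)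
    (h : ∀ p, D.To p y → ∃ k, ∀ᶠ n in U, P k n (p n)) :
    ∃ δ > 0, ∃ k, ∀ᶠ n in U, ∀ w ∈ D.rg y n δ, P k n w := by
  classical
  by_contra hn
  let A : ℕ → ℕ → Prop := fun n k => ∃ w, w ∈ D.rg y n (1 / (k + 1 : ℝ)) ∧ ¬P k n w
  have h1 : ∀ k, ∀ᶠ n in U, k ≤ Nat.findGreatest (A n) n ∧ A n (Nat.findGreatest (A n) n) := by
    intro k
    filter_upwards [D.le (eventually_ge_atTop k), Ultrafilter.eventually_not.2
      fun e => hn ⟨_, Nat.one_div_pos_of_nat (n := k), k, e⟩] with n a b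
    have c : A n k := by simpa only [not_forall, exists_prop] using b
    exact ⟨Nat.le_findGreatest a c, Nat.findGreatest_spec a c⟩
  obtain ⟨p, hp⟩ := choice ((h1 0).mono fun n a => a.2)
  obtain ⟨k, hk⟩ := h p fun δ hδ => by
    obtain ⟨k, hk⟩ := exists_nat_one_div_lt hδ
    filter_upwards [hp, h1 k] with n a b
    exact rg_mono ((Nat.one_div_le_one_div b.1).trans hk.le) a.1
  obtain ⟨n, a, b, c⟩ := (hp.and (hk.and (h1 k))).exists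
  exact a.2 (mono _ _ c.1 n _ b)

end Dg

end Vale.Agent.P269.Cpt
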