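import Vale.Agent.P269.Cpt.Bas

/-!
# Degenerations: centres, transition maps, old nodes and marked points
-/

set_option linter.unusedSectionVars false

namespace Vale.Agent.P269.Cpt

open Set Function Topology Filter Metric Module Vale.Agent.P269.Cv

variable {X : ℕ → Type} [∀ n, TopologicalSpace (X n)] [∀ n, T2Space (X n)]
  [∀ n, CompactSpace (X n)] [∀ n, Nonempty (X n)] {Y : Type} [TopologicalSpace Y] [T2Space Y]
  [CompactSpace Y] {U : Ultrafilter ℕ} {R : ∀ n, RS (X n)} {Q : RS Y} {D : Dg U R Q}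
  {B B' : ∀ n, LB (R n)} {L L' : LB Q} {p q : ∀ n, X n} {x y y' z : Y} {s s' : ∀ n, X n → ℂ}
  {σ σ' : Y → ℂ} {Z : ∀ n, Set (X n)} {ν : Type} [Fintype ν] {N : ∀ n, Finset (X n × X n)}
  {pm : ∀ n, ν → X n} {N₀ N₁ : Finset (Y × Y)} {p₀ : ν → Y}

namespace Bas2P

theorem exists_pos_all {κ : Type} [Finite κ] {P : κ → ℝ → Prop}
    (mono : ∀ a δ δ', δ ≤ δ' → P a δ' → P a δ) (h : ∀ a, ∃ δ > 0, P a δ) :
    ∃ δ > 0, ∀ a, P a δ := by
  have : ∀ᶠ δ in 𝓝[>] (0 : ℝ), ∀ a, P a δ := eventually_all.2 fun a => by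
    obtain ⟨δ, h0, h1⟩ := h a
    exact (eventually_le_nhds h0).filter_mono nhdsWithin_le_nhds |>.mono fun δ' e => mono a _ _ e h1
  obtain ⟨δ, h1, h2⟩ := (this.and self_mem_nhdsWithin).exists
  exact ⟨δ, h2, h1⟩

/-- the special points of the limit -/
def sp (N₀ : Finset (Y × Y)) (p₀ : ν → Y) : Set Y :=
  Prod.fst '' (N₀ : Set (Y × Y)) ∪ Prod.snd '' (N₀ : Set (Y × Y)) ∪ range p₀

theorem finite_sp : (sp N₀ p₀).Finite :=
  ((N₀.finite_toSet.image _).union (N₀.finite_toSet.image _)).union (finite_range _)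

theorem fst_mem {m : Y × Y} (h : m ∈ N₀) : m.1 ∈ sp N₀ p₀ := .inl (.inl ⟨m, h, rfl⟩)

theorem snd_mem {m : Y × Y} (h : m ∈ N₀) : m.2 ∈ sp N₀ p₀ := .inl (.inr ⟨m, h, rfl⟩)

theorem mark_mem (a : ν) : p₀ a ∈ sp N₀ p₀ := .inr ⟨a, rfl⟩

end Bas2P

namespace Dg

open Bas2P

theorem c_ne (hy : Sm D.M y) (hy' : Sm D.M y') (h : y ≠ y') :
    ∀ᶠ n in U, D.c y n ≠ D.c y' n :=
  Ultrafilter.eventually_not.2 fun e => h (((to_c hy').eq ((to_c hy).congr e) hy'))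

theorem injOn_c {T : Set Y} (hT : T.Finite) (hs : ∀ y ∈ T, Sm D.M y) :
    ∀ᶠ n in U, InjOn (D.c · n) T :=
  ((eventually_all_finite hT).2 fun y hy => (eventually_all_finite hT).2 fun y' hy' => by
    by_cases e : y = y'
    · exact .of_forall fun _ _ => e
    · exact (c_ne (hs y hy) (hs y' hy') e).mono fun n h h' => absurd h' h :
    ∀ᶠ n in U, ∀ y ∈ T, ∀ y' ∈ T, D.c y n = D.c y' n → y = y').mono fun _ h y a y' b => h y a y' b

theorem av_of_ctr {κ : Type} [Finite κ] (q : κ → ∀ n, X n) (hq : ∀ a, D.Ctr (q a))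
    (hZ : ∀ᶠ n in U, Z n ⊆ range (q · n)) : D.Av Z := fun y => by
  obtain ⟨δ, h0, h1⟩ := exists_pos_all
    (P := fun a δ => ∀ᶠ n in U, q a n ∈ D.rg y n δ → D.E y n (q a n) = 0)
    (fun a δ δ' e h => h.mono fun n h1 h2 => h1 (rg_mono e h2)) fun a => by
      obtain ⟨y', h1, h2⟩ := hq a
      by_cases h : D.To (q a) y
      · obtain rfl := ((to_c h1).congr (h2.mono fun _ e => e.symm)).eq h h1
        exact ⟨1, one_pos, (h2.and (ev_c h1)).mono fun n e _ => e.1 ▸ e.2.2⟩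
      · obtain ⟨δ, h3, h4⟩ := not_to h
        exact ⟨δ, h3, h4.mono fun n e e' => absurd e' e⟩
  refine ⟨δ, h0, (hZ.and (eventually_all.2 h1)).mono fun n h w hw => ?_⟩
  obtain ⟨a, rfl⟩ := h.1 hw
  exact h.2 a

theorem Av.ctr (h : D.Av Z) (hp : ∀ᶠ n in U, p n ∈ Z n) : D.Ctr p := by
  obtain ⟨y, hy⟩ := D.cover p
  obtain ⟨δ, h0, h1⟩ := h y
  have h2 : ∀ᶠ n in U, p n ∈ D.rg y n δ ∧ D.E y n (p n) = 0 :=
    (((hy δ h0).and hp).and h1).mono fun n e => ⟨e.1.1, e.2 _ e.1.2 e.1.1⟩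
  refine ⟨y, by_contra fun hs => ?_, h2.mono fun n e => ?_⟩
  · obtain ⟨n, e, e'⟩ := (h2.and (τ_ne hs)).exists
    have h3 : D.E y n (p n) ∈ ann (D.τ y n) δ := e.1.2
    rw [e.2] at h3
    simpa [e', (norm_nonneg _).not_gt] using h3.2
  · rw [c, ← e.2, (D.E y n).left_inv e.1.1]

theorem Av.mono {Z' : ∀ n, Set (X n)} (h : D.Av Z) (e : ∀ᶠ n in U, Z' n ⊆ Z n) : D.Av Z' :=
  fun y => (h y).imp fun _ a => ⟨a.1, (a.2.and e).mono fun _ b w hw => b.1 w (b.2 hw)⟩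

theorem trans (D : Dg U R Q) (y : Y) : ∀ᶠ z in 𝓝[≠] y, ∃ δ > 0,
    (∀ᶠ n in U, ∀ t ∈ ball (0 : ℂ) δ, t ∈ (D.E z n).target ∧
      (D.E z n).symm t ∈ (D.E y n).source) ∧
    (∀ t ∈ ball (0 : ℂ) δ, t ∈ (Q.e z).target ∧ Q.i z t ∈ (Q.e y).source) ∧
    TendstoUniformlyOn (fun n t => D.E y n ((D.E z n).symm t)) (fun t => Q.e y (Q.i z t)) U
      (ball 0 δ) := by
  filter_upwards [eventually_eventually_nhdsWithin.2 (D.near y), D.ev_sm y, self_mem_nhdsWithin,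
    (Q.src_nhds y).filter_mono nhdsWithin_le_nhds] with z h1 hs hz h2
  rw [isOpen_compl_singleton.nhdsWithin_eq hz] at h1
  obtain ⟨δ1, a1, -, b1⟩ := unif (D := D) (y := z) (P := fun _ n w => w ∈ (D.E y n).source)
    (fun _ _ _ _ _ h => h) fun p hp => ⟨0, ((h1.self_of_nhds p).1 hp).1⟩
  obtain ⟨r, a2, b2⟩ := D.tgt z
  simp only [D.sm z hs, ann_zero] at b2
  have h3 : ∀ᶠ t in 𝓝 (0 : ℂ), ∀ t' : ℕ → ℂ,
      Tendsto t' U (𝓝 t) → D.To (fun n => (D.E z n).symm (t' n)) (Q.i z t) := by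
    rw [← nhdsNE_sup_pure, eventually_sup, eventually_pure]
    refine ⟨D.to_symm z, fun t' ht => ?_⟩
    have h4 : ∀ᶠ n in U, t' n ∈ (D.E z n).target :=
      (b2.and (ht.eventually (ball_mem_nhds 0 a2))).mono fun n e => e.1 e.2
    rw [Q.i_zero, to_sm hs]
    exact ⟨h4.mono fun n e => (D.E z n).map_target e,
      ht.congr' (h4.mono fun n e => ((D.E z n).right_inv e).symm)⟩
  obtain ⟨δ, a3, b3⟩ := nhds_basis_closedBall.eventually_iff.1 (((h3.and (Q.ev_iff.1 h1)).and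
    ((Q.tgt_nhds z).and (Q.ev_iff.1 (Q.src_nhds' h2)))).and
      (show ∀ᶠ t in 𝓝 (0 : ℂ), t ∈ ball 0 δ1 ∧ t ∈ ball 0 r from
        inter_mem (ball_mem_nhds 0 a1) (ball_mem_nhds 0 a2)))
  refine ⟨δ, a3, (b1.and b2).mono fun n e t ht => ?_, fun t ht => (b3 (ball_subset_closedBall ht)).1.2,
    (tendstoUniformlyOn_of (isCompact_closedBall 0 δ) (fun t ht => ?_) fun t ht t' h' => ?_).mono
      ball_subset_closedBall⟩
  · have h4 := (b3 (ball_subset_closedBall ht)).2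
    have h5 := e.2 h4.2
    refine ⟨h5, e.1 _ ⟨(D.E z n).map_target h5, ?_⟩⟩
    rw [mem_preimage, (D.E z n).right_inv h5, D.sm z hs, ann_zero]
    exact h4.1
  · exact ((Q.contAt_e (b3 ht).1.2.2).comp (Q.contAt_i (b3 ht).1.2.1)).continuousWithinAt
  · exact (((b3 ht).1.1.2 _).1 ((b3 ht).1.1.1 t' h')).2

theorem tendsto_d (D : Dg U R Q) (y : Y) : ∀ᶠ z in 𝓝[≠] y, ∀ p, D.To p z →
    Tendsto (fun n => (R n).d (D.E y n) (p n) / (R n).d (D.E z n) (p n)) U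
      (𝓝 (Q.d (Q.e y) z)) := by
  filter_upwards [D.trans y, D.ev_sm y, (Q.src_nhds y).filter_mono nhdsWithin_le_nhds]
    with z ⟨δ, h0, h1, _, h3⟩ hs h2 p hp
  obtain ⟨h4, h5⟩ := (to_sm hs).1 hp
  have h6 := h3.tendstoLocallyUniformlyOn.deriv (((h1.and (D.cmp y)).and (D.cmp z)).mono
    fun n e t ht => ((e.2.hol_iff' (e.1.1 t ht).1).1
      (e.1.2 _ (e.1.1 t ht).2).1).differentiableAt.differentiableWithinAt) isOpen_ball
  have h7 : ∀ᶠ n in U, D.E z n (p n) ∈ ball (0 : ℂ) δ := h5.eventually (ball_mem_nhds 0 h0)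
  refine (h6.tendsto_comp (AnalyticAt.deriv (RS.hol_e h2)).continuousAt.continuousWithinAt
    (mem_ball_self h0) (tendsto_nhdsWithin_iff.2 ⟨h5, h7⟩)).congr' ?_
  filter_upwards [h1, D.cmp y, D.cmp z, h4, h7] with n a b c d e
  have h8 := (a _ e).2
  rw [(D.E z n).left_inv d] at h8
  rw [c.d_eq d (b _ h8).1, mul_div_cancel_right₀ _ (c _ d).2]
  rfl

theorem Av.exists_old (h : D.Av Z) {m : ℕ} (hN : ∀ᶠ n in U, Nd (N n) ∧ (N n).card ≤ m ∧
    (∀ a, Sm (N n) (pm n a)) ∧ Injective (pm n) ∧ (∀ e ∈ N n, e.1 ∈ Z n ∧ e.2 ∈ Z n) ∧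
      ∀ a, pm n a ∈ Z n) : ∃ N₀ p₀ N₁, D.Old N pm N₀ p₀ N₁ := by
  classical
  obtain ⟨k, -, hk⟩ := (Ultrafilter.eventually_exists_mem_iff (f := U) (finite_Iic m)
    (P := fun k n => (N n).card = k)).1 (hN.mono fun n e => ⟨_, e.2.1, rfl⟩)
  have he : ∀ n, ∃ e : Fin k → X n × X n, (N n).card = k →
      Injective e ∧ ∀ w, w ∈ N n ↔ ∃ i, w = e i := fun n => by
    by_cases hc : (N n).card = k
    · exact ⟨fun i => ((N n).equivFinOfCardEq hc).symm i, fun _ =>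
        ⟨Subtype.val_injective.comp (Equiv.injective _), fun w =>
          ⟨fun hw => ⟨(N n).equivFinOfCardEq hc ⟨w, hw⟩, by simp⟩, fun ⟨i, hi⟩ =>
            hi ▸ (((N n).equivFinOfCardEq hc).symm i).2⟩⟩⟩
    · exact ⟨fun _ => Classical.arbitrary _, fun a => absurd a hc⟩
  choose e he using he
  have hm : ∀ i, ∀ᶠ n in U, (e n i).1 ∈ Z n ∧ (e n i).2 ∈ Z n := fun i =>
    (hN.and hk).mono fun n a => a.1.2.2.2.2.1 _ (((he n a.2).2 _).2 ⟨i, rfl⟩)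
  choose y1 s1 c1 using fun i => h.ctr (p := fun n => (e n i).1) ((hm i).mono fun _ a => a.1)
  choose y2 s2 c2 using fun i => h.ctr (p := fun n => (e n i).2) ((hm i).mono fun _ a => a.2)
  choose y3 s3 c3 using fun a => h.ctr (p := fun n => pm n a) (hN.mono fun _ b => b.2.2.2.2.2 a)
  obtain ⟨n, ⟨⟨⟨⟨nd, -, sm, inj, -⟩, a⟩, d1⟩, d2⟩, d3⟩ := ((((hN.and hk).and
    (eventually_all.2 c1)).and (eventually_all.2 c2)).and (eventually_all.2 c3)).exists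
  beta_reduce at d1 d2 d3
  have mem : ∀ i, e n i ∈ N n := fun i => ((he n a).2 _).2 ⟨i, rfl⟩
  have cas : ∀ {m}, m ∈ Finset.univ.image (fun i => (y1 i, y2 i)) ∪ D.M →
      (∃ i, (y1 i, y2 i) = m) ∨ m ∈ D.M := fun hm => by simpa using hm
  refine ⟨Finset.univ.image fun i => (y1 i, y2 i), y3, _ ∪ D.M, fun _ => Finset.mem_union,
    ⟨fun u hu v hv => ?_, fun u hu v hv => ?_, fun u hu v hv => ?_⟩, ?_, fun b u hu => ?_,
    fun b b' hb => inj (by rw [d3, d3, hb]), ?_, eventually_all.2 c3⟩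
  · rcases cas hu with ⟨i, rfl⟩ | hu <;> rcases cas hv with ⟨j, rfl⟩ | hv
    · exact fun hb => nd.ne _ (mem i) _ (mem j) (by rw [d1, d2]; exact congrArg (D.c · n) hb)
    · exact (s1 i v hv).2.symm
    · exact (s2 j u hu).1
    · exact D.nd.ne u hu v hv
  · rcases cas hu with ⟨i, rfl⟩ | hu <;> rcases cas hv with ⟨j, rfl⟩ | hv
    · intro hb
      rw [(he n a).1 (nd.inj1 (mem i) (mem j) (by rw [d1, d1]; exact congrArg (D.c · n) hb))]
    · exact fun hb => absurd hb (s1 i v hv).1.symm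
    · exact fun hb => absurd hb (s1 j u hu).1
    · exact D.nd.inj1 hu hv
  · rcases cas hu with ⟨i, rfl⟩ | hu <;> rcases cas hv with ⟨j, rfl⟩ | hv
    · intro hb
      rw [(he n a).1 (nd.inj2 (mem i) (mem j) (by rw [d2, d2]; exact congrArg (D.c · n) hb))]
    · exact fun hb => absurd hb (s2 i v hv).2.symm
    · exact fun hb => absurd hb (s2 j u hu).2
    · exact D.nd.inj2 hu hv
  · refine Finset.disjoint_left.2 fun u hu hv => ?_
    obtain ⟨i, -, rfl⟩ := Finset.mem_image.1 hu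
    exact (s1 i _ hv).1 rfl
  · rcases cas hu with ⟨i, rfl⟩ | hu
    · exact ⟨fun hb => (sm b _ (mem i)).1 (by rw [d1, d3]; exact congrArg (D.c · n) hb),
        fun hb => (sm b _ (mem i)).2 (by rw [d2, d3]; exact congrArg (D.c · n) hb)⟩
    · exact s3 b u hu
  · filter_upwards [hk, eventually_all.2 c1, eventually_all.2 c2] with n a d1 d2 w
    rw [(he n a).2]
    constructor
    · rintro ⟨i, rfl⟩
      exact ⟨_, Finset.mem_image_of_mem _ (Finset.mem_univ i), Prod.ext (d1 i) (d2 i)⟩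
    · rintro ⟨u, hu, rfl⟩
      obtain ⟨i, -, rfl⟩ := Finset.mem_image.1 hu
      exact ⟨i, (Prod.ext (d1 i) (d2 i)).symm⟩

theorem Old.sm_fst (h : D.Old N pm N₀ p₀ N₁) {m : Y × Y} (hm : m ∈ N₀) :
    Sm D.M m.1 ∧ Sm D.M m.2 := by
  have a := (h.mem m).2 (.inl hm)
  have b : ∀ u ∈ D.M, u ≠ m := fun u hu e => Finset.disjoint_left.1 h.disj hm (e ▸ hu)
  exact ⟨fun u hu => ⟨fun e => b u hu (h.nd.inj1 ((h.mem u).2 (.inr hu)) a e),
      (h.nd.ne m a u ((h.mem u).2 (.inr hu))).symm⟩,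
    fun u hu => ⟨h.nd.ne u ((h.mem u).2 (.inr hu)) m a,
      fun e => b u hu (h.nd.inj2 ((h.mem u).2 (.inr hu)) a e)⟩⟩

theorem Old.sm_mark (h : D.Old N pm N₀ p₀ N₁) (a : ν) : Sm D.M (p₀ a) :=
  fun u hu => h.sm a u ((h.mem u).2 (.inr hu))

theorem Old.sm_sp (h : D.Old N pm N₀ p₀ N₁) : ∀ y ∈ sp N₀ p₀, Sm D.M y := by
  rintro y ((⟨m, hm, rfl⟩ | ⟨m, hm, rfl⟩) | ⟨a, rfl⟩)
  exacts [(h.sm_fst hm).1, (h.sm_fst hm).2, h.sm_mark a]

theorem Old.card (h : D.Old N pm N₀ p₀ N₁) :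
    N₁.card = N₀.card + D.M.card ∧ ∀ᶠ n in U, (N n).card = N₀.card := by
  classical
  refine ⟨?_, (h.node.and (injOn_c finite_sp h.sm_sp)).mono fun n e => ?_⟩
  · rw [← Finset.card_union_of_disjoint h.disj]
    congr 1
    ext m
    rw [h.mem, Finset.mem_union]
  · rw [← Finset.card_image_of_injOn (f := fun m => (D.c m.1 n, D.c m.2 n)) fun u hu v hv a =>
      Prod.ext (e.2 (fst_mem hu) (fst_mem hv) (congrArg Prod.fst a))
        (e.2 (snd_mem hu) (snd_mem hv) (congrArg Prod.snd a))]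
    congr 1
    ext w
    simp only [e.1, Finset.mem_image, eq_comm]

theorem Old.ev (h : D.Old N pm N₀ p₀ N₁) :
    ∀ᶠ n in U, Nd (N n) ∧ (∀ a, Sm (N n) (pm n a)) ∧ Injective (pm n) := by
  filter_upwards [h.node, h.mark, injOn_c finite_sp h.sm_sp] with n a b c
  have d : ∀ {m}, m ∈ N₀ → m ∈ N₁ := fun hm => (h.mem _).2 (.inl hm)
  refine ⟨⟨fun u hu v hv => ?_, fun u hu v hv => ?_, fun u hu v hv => ?_⟩, fun i u hu => ?_,
    fun i j e => h.inj (c (mark_mem i) (mark_mem j) (by rwa [b, b] at e))⟩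
  · obtain ⟨u', hu', rfl⟩ := (a u).1 hu
    obtain ⟨v', hv', rfl⟩ := (a v).1 hv
    exact fun e => h.nd.ne u' (d hu') v' (d hv') (c (fst_mem hu') (snd_mem hv') e)
  · obtain ⟨u', hu', rfl⟩ := (a u).1 hu
    obtain ⟨v', hv', rfl⟩ := (a v).1 hv
    intro e
    rw [h.nd.inj1 (d hu') (d hv') (c (fst_mem hu') (fst_mem hv') e)]
  · obtain ⟨u', hu', rfl⟩ := (a u).1 hu
    obtain ⟨v', hv', rfl⟩ := (a v).1 hv
    intro e
    rw [h.nd.inj2 (d hu') (d hv') (c (snd_mem hu') (snd_mem hv') e)]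
  · obtain ⟨u', hu', rfl⟩ := (a u).1 hu
    rw [b]
    exact ⟨fun e => (h.sm i u' (d hu')).1 (c (fst_mem hu') (mark_mem i) e),
      fun e => (h.sm i u' (d hu')).2 (c (snd_mem hu') (mark_mem i) e)⟩

theorem Old.sub (h : D.Old N pm N₀ p₀ N₁) : ∀ᶠ n in U,
    {w | ¬(Sm (N n) w ∧ ∀ a, pm n a ≠ w)} ⊆ range fun t : sp N₀ p₀ => D.c t n := by
  filter_upwards [h.node, h.mark] with n a b w hw
  by_contra hc
  refine hw ⟨fun u hu => ?_, fun i e => hc ⟨⟨_, mark_mem i⟩, (b i).symm.trans e⟩⟩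
  obtain ⟨u', hu', rfl⟩ := (a u).1 hu
  exact ⟨fun e => hc ⟨⟨_, fst_mem hu'⟩, e⟩, fun e => hc ⟨⟨_, snd_mem hu'⟩, e⟩⟩

theorem Old.near (h : D.Old N pm N₀ p₀ N₁) (y : Y) : ∃ δ > 0, ∀ᶠ n in U, ∀ w ∈ D.rg y n δ,
    D.E y n w ≠ 0 → Sm (N n) w ∧ ∀ a, pm n a ≠ w := by
  have := (finite_sp (N₀ := N₀) (p₀ := p₀)).to_subtype
  obtain ⟨δ, h0, h1⟩ := av_of_ctr (D := D) (fun t : sp N₀ p₀ => D.c t)
    (fun t => ⟨t.1, h.sm_sp _ t.2, .of_forall fun _ => rfl⟩) h.sub y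
  exact ⟨δ, h0, h1.mono fun n a w hw e => by_contra fun hc => e (a w hc hw)⟩

theorem Old.good (h : D.Old N pm N₀ p₀ N₁) (hy : Sm N₁ y) (hp : ∀ a, p₀ a ≠ y) :
    ∃ δ > 0, ∀ᶠ n in U, ∀ w ∈ D.rg y n δ, Sm (N n) w ∧ ∀ a, pm n a ≠ w := by
  obtain ⟨δ, h0, h1⟩ := h.near y
  refine ⟨δ, h0, ?_⟩
  filter_upwards [h1, h.sub, injOn_c (finite_sp.insert y) (forall_mem_insert.2
    ⟨fun u hu => hy u ((h.mem u).2 (.inr hu)), h.sm_sp⟩)] with n a b c w hw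
  by_contra hc
  obtain ⟨⟨t, ht⟩, e⟩ := b hc
  have e' : D.c y n = w := by
    rw [Dg.c, ← by_contra fun e : ¬D.E y n w = 0 => hc (a w hw e), (D.E y n).left_inv hw.1]
  obtain rfl := c (mem_insert_of_mem _ ht) (mem_insert _ _) (e.trans e'.symm)
  rcases ht with (⟨m, hm, rfl⟩ | ⟨m, hm, rfl⟩) | ⟨i, rfl⟩
  exacts [(hy m ((h.mem m).2 (.inl hm))).1 rfl, (hy m ((h.mem m).2 (.inl hm))).2 rfl, hp i rfl]

theorem old_empty (D : Dg U R Q) :
    D.Old (ν := Empty) (fun _ => ∅) (fun _ => Empty.elim) ∅ Empty.elim D.M :=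
  ⟨by simp, D.nd, Finset.disjoint_empty_left _, fun a => a.elim, fun a => a.elim,
    .of_forall fun _ => by simp, .of_forall fun _ a => a.elim⟩

end Dg

end Vale.Agent.P269.Cpt
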