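import Vale.Agent.P269.Cpt.Defs
import Vale.Agent.P269.Cv.CtrA
import Vale.Agent.P269.Cv.CtrB

/-!
# Contraction of bridges and of marked bubbles
-/

set_option linter.unusedSectionVars false

namespace Vale.Agent.P269.Cpt

open Set Function Topology Filter Metric Module Vale.Agent.P269.Cv

variable {X : ℕ → Type} [∀ n, TopologicalSpace (X n)] [∀ n, T2Space (X n)]
  [∀ n, CompactSpace (X n)] [∀ n, Nonempty (X n)] {Y : Type} [TopologicalSpace Y] [T2Space Y]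
  [CompactSpace Y] {U : Ultrafilter ℕ} {R : ∀ n, RS (X n)} {Q : RS Y} {D : Dg U R Q}
  {B B' : ∀ n, LB (R n)} {L L' : LB Q} {p q : ∀ n, X n} {x y y' z : Y} {s s' : ∀ n, X n → ℂ}
  {σ σ' : Y → ℂ} {Z : ∀ n, Set (X n)} {ν : Type} [Fintype ν] {N : ∀ n, Finset (X n × X n)}
  {pm : ∀ n, ν → X n} {N₀ N₁ : Finset (Y × Y)} {p₀ : ν → Y}

namespace BridP

open Classical

theorem omega_frame {P : Finset Y} (hN : Nd N₀) (hP : ∀ p ∈ P, Sm N₀ p) (y z : Y) :
    (omega Q N₀ P).φ y z = Q.K.φ y z * (if Sm N₀ y ∧ y ∉ P then 1 else (Q.pt y).φ y z) *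
      (Xi.sg N₀ z / Xi.sg N₀ y) := by
  rw [← Xi.prod_pt hN hP, omega, mul_assoc Q.K]
  rfl

theorem sec_ratio {P P₁ : Finset Y} (hN : Nd N₀) (hP : ∀ p ∈ P, Sm N₀ p) (hN₁ : Nd N₁)
    (hP₁ : ∀ p ∈ P₁, Sm N₁ p) (h : (Sm N₁ y ∧ y ∉ P₁) ↔ Sm N₀ y ∧ y ∉ P) :
    (omega Q N₁ P₁ / omega Q N₀ P).Sec (Xi.sg N₁ * Xi.sg N₀) y := by
  refine LB.sec_iff.2 ((RS.hol_const (Xi.sg N₁ y / Xi.sg N₀ y)).congr (.of_forall fun z => ?_))
  have a : (if Sm N₀ y ∧ y ∉ P then 1 else (Q.pt y).φ y z) ≠ 0 := by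
    split_ifs
    exacts [one_ne_zero, (Q.pt y).ne _ _]
  have := Q.K.ne y z
  have := Xi.sg_ne (N := N₀) y
  have := Xi.sg_ne (N := N₁) y
  have := Xi.sg_ne (N := N₀) z
  have := Xi.sg_ne (N := N₁) z
  have b := Xi.sg_sq (N := N₀) z
  simp only [LB.div_φ, omega_frame hN hP, omega_frame hN₁ hP₁, Pi.mul_apply, if_congr h rfl rfl]
  field_simp
  linear_combination -b

theorem degOn_eq_zero {T C : Set Y} (hT : IsClopen T) (hc : IsPreconnected T) (hC : IsClopen C)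
    (h : degOn L T = 0) (h' : degOn L (C \ T) = 0) : degOn L C = 0 := by
  rw [← degOn_inter_add_diff hC hT, h', add_zero]
  rcases (T ∩ C).eq_empty_or_nonempty with a | a
  · rw [inter_comm, a, degOn_empty]
  · rwa [inter_eq_right.2 (hc.subset_isClopen hC a)]

variable {ρ : Type} [Fintype ρ] {A : ρ → LB Q} {θ : ρ → ℤ} {W : LB Q} {S T : Set Y}
  {N' : Finset (Y × Y)} {p' : ν → Y} {u : Y → ℂ} {γ : Y → ρ → ℂ}

/-- the new nodes -/
theorem exists_nodes (hN : Nd N') (hy : y ∈ T) (hy' : y' ∈ T) (ne : y ≠ y') (j : Jn N' y x) :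
    ∃ M : Finset (Y × Y), Nd M ∧ ∀ a b, Jn M a b ↔
      (Jn N' a b ∧ a ∉ T ∧ b ∉ T) ∨ ∃ x', Jn N' y' x' ∧ s(a, b) = s(x, x') := by
  have n := hN.mono (Finset.filter_subset (fun m => m.1 ∉ T ∧ m.2 ∉ T) N')
  have k : ∀ a b, Jn (N'.filter fun m => m.1 ∉ T ∧ m.2 ∉ T) a b ↔ Jn N' a b ∧ a ∉ T ∧ b ∉ T :=
    fun a b => by
      simp only [Jn, Finset.mem_filter]
      tauto
  have sm : ∀ a ∈ T, ∀ b, Jn N' a b → Sm (N'.filter fun m => m.1 ∉ T ∧ m.2 ∉ T) b :=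
    fun a ha b e => sm_iff.2 fun c f => ((k _ _).1 f).2.2 (e.symm.unique hN ((k _ _).1 f).1 ▸ ha)
  by_cases hb : ∃ x', Jn N' y' x'
  · obtain ⟨x', e⟩ := hb
    obtain ⟨M, m1, m2⟩ := CtrB.exists_ins n (sm y hy x j) (sm y' hy' x' e)
      fun f => ne (j.symm.unique hN (f ▸ e.symm))
    exact ⟨M, m1, fun a b => (m2 a b).trans (or_congr (k a b)
      ⟨fun f => ⟨x', e, f⟩, fun ⟨_, e', f⟩ => e'.unique hN e ▸ f⟩)⟩
  · exact ⟨_, n, fun a b => (k a b).trans (or_iff_left fun ⟨x', e, _⟩ => hb ⟨x', e⟩).symm⟩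

/-- contraction of one component -/
theorem step (h : St N₁ p₀ A θ W S N' p' u γ) (rat : IsRat Q T) (hTS : T ⊆ S) (hW : degOn W T = 0)
    (hA : ∀ i, degOn (A i) T = 0) (hy : y ∈ T) (hy' : y' ∈ T) (hx : x ∉ T) (ne : y ≠ y')
    (j : Jn N' y x) (sp : ∀ z ∈ T, ¬(Sm N' z ∧ z ∉ Finset.univ.image p') ↔ z = y ∨ z = y') :
    ∃ N'' p'' u' γ', St N₁ p₀ A θ W (S \ T) N'' p'' u' γ' := by
  have hP := CtrB.sm_img h.sm
  have mi : ∀ (f : ν → Y) k, f k ∈ Finset.univ.image f := fun f k =>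
    Finset.mem_image_of_mem f (Finset.mem_univ k)
  have jT : ∀ a ∈ T, ∀ b, Jn N' a b → a = y ∧ b = x ∨ a = y' := fun a ha b e =>
    ((sp a ha).1 (CtrB.sp_jn e)).imp_left fun f => ⟨f, (f ▸ e).unique h.nd j⟩
  have out : ∀ b, Jn N' y' b → b ∉ T ∧ b ≠ x := fun b e =>
    ⟨fun hb => (jT b hb _ e.symm).elim (fun f => hx (f.2 ▸ hy')) (e.ne h.nd).symm,
      fun f => ne (j.symm.unique h.nd (f ▸ e.symm))⟩
  have jS : ∀ a b, Jn N' a b → a ∈ S := fun a b e =>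
    e.elim (fun m => (h.sub _ m).1) fun m => (h.sub _ m).2
  have px : ∀ k, p' k ≠ x := fun k e => j.symm.not_sm (e ▸ h.sm k)
  have mT : ∀ k, p' k ∈ T → p' k = y' := fun k hk =>
    ((sp _ hk).1 fun a => a.2 (mi p' k)).resolve_left fun e => j.not_sm (e ▸ h.sm k)
  obtain ⟨M, hM, jM⟩ := exists_nodes h.nd hy hy' ne j
  have jM' : ∀ a b, Jn M a b → a ∉ T ∧ ∃ b', Jn N' a b' := fun a b e => by
    rcases (jM a b).1 e with f | ⟨x', f, g⟩
    · exact ⟨f.2.1, b, f.1⟩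
    · rcases Sym2.eq_iff.1 g with ⟨rfl, -⟩ | ⟨rfl, -⟩
      exacts [⟨hx, y, j.symm⟩, ⟨(out _ f).1, y', f.symm⟩]
  have jM2 : ∀ a b, Jn M a b → a ∈ S \ T := fun a b e =>
    let ⟨f, _, g⟩ := jM' a b e
    ⟨jS _ _ g, f⟩
  let q : ν → Y := fun k => if p' k = y' then x else p' k
  have q1 : ∀ k, p' k = y' → q k = x := fun k a => if_pos a
  have q2 : ∀ k, p' k ≠ y' → q k = p' k := fun k a => if_neg a
  have smq : ∀ k, Sm M (q k) := fun k => sm_iff.2 fun b e => by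
    by_cases a : p' k = y'
    · rw [q1 k a] at e
      rcases (jM _ _).1 e with f | ⟨x', f, -⟩
      exacts [f.2.2 (j.symm.unique h.nd f.1 ▸ hy), f.not_sm (a ▸ h.sm k)]
    · obtain ⟨-, _, f⟩ := jM' _ _ e
      exact f.not_sm (q2 k a ▸ h.sm k)
  have spM : ∀ z ∉ T, (Sm M z ∧ z ∉ Finset.univ.image q) ↔ Sm N' z ∧ z ∉ Finset.univ.image p' :=
    fun z hz => by
      refine ⟨fun a => ⟨sm_iff.2 fun b e => ?_, fun e => ?_⟩,
        fun a => ⟨sm_iff.2 fun b e => ?_, fun e => ?_⟩⟩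
      · by_cases hb : b ∈ T
        · rcases jT b hb z e.symm with ⟨-, rfl⟩ | rfl
          · refine (sp y' hy').2 (.inr rfl) ⟨sm_iff.2 fun c f => ?_, fun f => ?_⟩
            · exact ((jM _ _).2 (.inr ⟨c, f, rfl⟩)).not_sm a.1
            · obtain ⟨k, -, f⟩ := Finset.mem_image.1 f
              exact a.2 (q1 k f ▸ mi q k)
          · exact ((jM x z).2 (.inr ⟨z, e.symm, rfl⟩)).symm.not_sm a.1
        · exact ((jM _ _).2 (.inl ⟨e, hz, hb⟩)).not_sm a.1
      · obtain ⟨k, -, rfl⟩ := Finset.mem_image.1 e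
        exact a.2 (q2 k (fun f => hz (f ▸ hy')) ▸ mi q k)
      · obtain ⟨-, _, f⟩ := jM' _ _ e
        exact f.not_sm a.1
      · obtain ⟨k, -, rfl⟩ := Finset.mem_image.1 e
        by_cases f : p' k = y'
        · exact j.symm.not_sm (q1 k f ▸ a.1)
        · exact a.2 (q2 k f ▸ mi p' k)
  obtain ⟨l, l1, l2, l3, l4⟩ := rat.exists_log (S := N'.image Prod.fst ∪ N'.image Prod.snd ∪
    Finset.univ.image p') ne (fun z hz => (mem_special _ _ z).trans (sp z hz)) hy hy'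
  have l5 : l * Xi.sg N' ∈ (omega Q N' (Finset.univ.image p')).Γ := by
    rw [omega_eq h.nd hP]
    exact LB.mul_mem l1 (LB.cst_mem _)
  have l6 : ∀ z ∈ T, (l * Xi.sg N') z ≠ 0 := fun z hz => mul_ne_zero (l2 z hz) (Xi.sg_ne z)
  choose τ τ1 τ2 τ3 using fun i => rat.exists_triv (hA i)
  have τ4 : ∀ (a : ℤ) (χ : ρ → ℤ), ∀ z ∈ T, ((l * Xi.sg N') ^ a * ∏ i, τ i ^ χ i) z ≠ 0 :=
    fun a χ z hz => by
      rw [Pi.mul_apply, Finset.prod_apply]
      exact mul_ne_zero (zpow_ne_zero a (l6 z hz))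
        (Finset.prod_ne_zero_iff.2 fun i _ => zpow_ne_zero _ (τ2 i z hz))
  have cst : ∀ (a : ℤ) χ, ∀ t ∈ H0 N₁ (W ^ a * bz A χ), ∃ c : ℂ, ∀ z ∈ T,
      (t * u ^ a) z = c * ((l * Xi.sg N') ^ a * ∏ i, τ i ^ χ i) z := fun a χ t ht =>
    Cv.exists_const (L := omega Q N' (Finset.univ.image p') ^ a * bz A χ) rat.clopen rat.conn
      (fun z hz => ((l5 z).zpow (l6 z hz) a).mul
        (LB.Sec.prod fun i _ => (τ1 i z).zpow (τ2 i z hz) _)) (fun z hz => by
          have := (ht.1 z).mul ((h.usec z (hTS hz)).zpow (h.une z) a)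
          rwa [mul_right_comm, ← mul_zpow, mul_div_cancel] at this) (τ4 a χ)
  have nJ : ∀ (a : ℤ) χ, ∀ t ∈ H0 N₁ (W ^ a * bz A χ), ∀ z w, Jn N' z w →
      t z * mu u γ a χ z = t w * mu u γ a χ w := fun a χ t ht z w e =>
    e.elim (h.node a χ t ht _) fun f => (h.node a χ t ht _ f).symm
  have mu0 : ∀ (a : ℤ) χ z, mu u γ a χ z ≠ 0 := fun a χ z => mul_ne_zero (zpow_ne_zero a (h.une z))
    (Finset.prod_ne_zero_iff.2 fun i _ => zpow_ne_zero _ (h.γne z i))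
  let γ' := update γ x fun i => γ x i * (τ i y' * γ y' i / (τ i y * γ y i))
  let u' := u * (Xi.sg M * Xi.sg N')
  have m1 : ∀ (a : ℤ) χ, ∀ z ≠ x, mu u' γ' a χ z = mu u γ a χ z * (Xi.sg M z * Xi.sg N' z) ^ a :=
    fun a χ z hz => by
      simp only [mu, u', γ', update_of_ne hz, Pi.mul_apply, mul_zpow]
      ring
  have m2 : ∀ (a : ℤ) χ, ∀ t ∈ H0 N₁ (W ^ a * bz A χ),
      t x * mu u' γ' a χ x = t y' * mu u γ a χ y' * (Xi.sg M x * Xi.sg N' y') ^ a :=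
    fun a χ t ht => by
      obtain ⟨c, hc⟩ := cst a χ t ht
      have e1 := hc y hy
      have e2 := hc y' hy'
      have e3 := nJ a χ t ht _ _ j
      have e4 : Xi.sg N' y ^ a * Xi.sg N' x ^ a =
          (-1) ^ a * (Xi.sg N' y' ^ a * Xi.sg N' y' ^ a) := by
        rw [← mul_zpow, ← mul_zpow, Xi.sg_sq, j.sg_eq h.nd, mul_neg, Xi.sg_sq, one_zpow, mul_one]
      have n1 : ∏ i, τ i y ^ χ i ≠ 0 :=
        Finset.prod_ne_zero_iff.2 fun i _ => zpow_ne_zero _ (τ2 i y hy)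
      have n2 : ∏ i, γ y i ^ χ i ≠ 0 :=
        Finset.prod_ne_zero_iff.2 fun i _ => zpow_ne_zero _ (h.γne y i)
      simp only [mu, u', γ', update_self, Pi.mul_apply, Pi.pow_apply, Finset.prod_apply, mul_zpow,
        div_zpow, Finset.prod_mul_distrib, Finset.prod_div_distrib, l3, l4, one_zpow] at e1 e2 e3 ⊢
      field_simp
      linear_combination
        (Xi.sg M x ^ a * Xi.sg N' x ^ a * (∏ i, τ i y' ^ χ i) * ∏ i, γ y' i ^ χ i) * (-e3 +
          (∏ i, γ y i ^ χ i) * e1) + Xi.sg M x ^ a * (∏ i, γ y' i ^ χ i) * (∏ i, τ i y ^ χ i) *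
          (∏ i, γ y i ^ χ i) * (c * (∏ i, τ i y' ^ χ i) * e4 - Xi.sg N' y' ^ a * e2)
  have nM : ∀ (a : ℤ) χ, ∀ t ∈ H0 N₁ (W ^ a * bz A χ), ∀ z w, Jn M z w →
      t z * mu u' γ' a χ z = t w * mu u' γ' a χ w := fun a χ t ht z w e => by
    have k : ∀ x', Jn N' y' x' → t x * mu u' γ' a χ x = t x' * mu u' γ' a χ x' := fun x' f => by
      rw [m2 a χ t ht, m1 a χ x' (out _ f).2, ← mul_assoc, nJ a χ t ht _ _ f, f.sg_eq h.nd,
        ((jM x x').2 (.inr ⟨x', f, rfl⟩)).sg_eq hM, neg_mul_neg]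
    rcases (jM z w).1 e with f | ⟨x', f, g⟩
    · rw [m1 a χ z fun g => f.2.2 (j.symm.unique h.nd (g ▸ f.1) ▸ hy),
        m1 a χ w fun g => f.2.1 (j.symm.unique h.nd (g ▸ f.1.symm) ▸ hy), ← mul_assoc, ← mul_assoc,
        nJ a χ t ht _ _ f.1, f.1.sg_eq h.nd, e.sg_eq hM, neg_mul_neg]
    · rcases Sym2.eq_iff.1 g with ⟨rfl, rfl⟩ | ⟨rfl, rfl⟩
      exacts [k _ f, (k _ f).symm]
  have dj : ∀ C, Disjoint C (S \ T) → Disjoint (C \ T) S := fun C d =>
    disjoint_left.2 fun z a b => disjoint_left.1 d a.1 ⟨b, a.2⟩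
  refine ⟨M, q, u', γ', h.clopen.diff rat.clopen, hM, fun m hm => ⟨jM2 _ _ (.inl hm),
    jM2 _ _ (.inr hm)⟩, fun k => ?_, smq, fun k k' e => ?_, ?_,
    fun z => mul_ne_zero (h.une z) (mul_ne_zero (Xi.sg_ne z) (Xi.sg_ne z)), fun z i => ?_,
    fun z hz => ?_, fun a χ t ht m hm => nM a χ t ht _ _ (.inl hm), fun a χ t ht k => ?_,
    fun a χ t ht h0 => h.zero a χ t ht fun z hz => ?_,
    fun C c d => degOn_eq_zero rat.clopen rat.conn.isPreconnected c hW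
      (h.degW _ (c.diff rat.clopen) (dj C d)),
    fun C c d i => degOn_eq_zero rat.clopen rat.conn.isPreconnected c (hA i)
      (h.degL _ (c.diff rat.clopen) (dj C d) i), fun C c d e f => ?_⟩
  · by_cases a : p' k = y'
    · exact q1 k a ▸ ⟨jS _ _ j.symm, hx⟩
    · exact q2 k a ▸ ⟨h.mem k, fun b => a (mT k b)⟩
  · by_cases a : p' k = y' <;> by_cases b : p' k' = y'
    · exact h.inj (a.trans b.symm)
    · exact (px k' ((q2 k' b).symm.trans (e.symm.trans (q1 k a)))).elim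
    · exact (px k ((q2 k a).symm.trans (e.trans (q1 k' b)))).elim
    · exact h.inj ((q2 k a).symm.trans (e.trans (q2 k' b)))
  · refine (((h.fin.union (M.finite_toSet.image Prod.snd)).union
      (N'.finite_toSet.image Prod.snd)).insert x).subset fun z hz => by_contra fun a => ?_
    simp only [mem_insert_iff, mem_union, mem_ofPred_eq, not_or, not_not] at a
    have a1 : Xi.sg M z = 1 := if_neg a.2.1.2
    have a2 : Xi.sg N' z = 1 := if_neg a.2.2
    simp [u', γ', update_of_ne a.1, a.2.1.1.1, a.2.1.1.2, a1, a2] at hz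
  · by_cases a : z = x
    · simp only [γ', a, update_self]
      exact mul_ne_zero (h.γne _ _) (div_ne_zero (mul_ne_zero (τ2 i _ hy') (h.γne _ _))
        (mul_ne_zero (τ2 i _ hy) (h.γne _ _)))
    · simp only [γ', update_of_ne a]
      exact h.γne z i
  · have := (h.usec z hz.1).mul (sec_ratio h.nd hP hM (CtrB.sm_img smq) (spM z hz.2))
    rwa [mul_comm, div_mul_div_cancel] at this
  · by_cases b : p' k = y'
    · rw [← h.mark a χ t ht k, q1 k b, m2 a χ t ht, Xi.sg_sm (q1 k b ▸ smq k),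
        Xi.sg_sm (b ▸ h.sm k), mul_one, one_zpow, mul_one, b]
    · rw [← h.mark a χ t ht k, q2 k b, m1 a χ _ (px k), Xi.sg_sm (q2 k b ▸ smq k),
        Xi.sg_sm (h.sm k), mul_one, one_zpow, mul_one]
  · by_cases b : z ∈ T
    · obtain ⟨c, hc⟩ := cst a χ t ht
      have e1 := nJ a χ t ht _ _ j
      rw [h0 x ⟨jS _ _ j.symm, hx⟩, zero_mul, mul_eq_zero, or_iff_left (mu0 a χ y)] at e1
      have e2 := hc y hy
      rw [Pi.mul_apply, e1, zero_mul, zero_eq_mul, or_iff_left (τ4 a χ y hy)] at e2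
      have e3 := hc z b
      rwa [e2, zero_mul, Pi.mul_apply, mul_eq_zero,
        or_iff_left (show (u ^ a) z ≠ 0 from zpow_ne_zero a (h.une z))] at e3
    · exact h0 z ⟨hz, b⟩
  · have sat : ∀ a b, Jn M a b → (a ∈ C ↔ b ∈ C) := fun a b g =>
      g.elim (f _) fun g => (f _ g).symm
    have nT : ∀ a ∈ T, a ∉ C := fun a ha b => (d b).2 ha
    have k : ∀ a ∈ T, ∀ b, Jn N' a b → b ∉ T ∧ (x ∈ C ↔ b ∈ C) := fun a ha b g => by
      rcases jT a ha b g with ⟨-, rfl⟩ | rfl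
      exacts [⟨hx, Iff.rfl⟩, ⟨(out b g).1, sat _ _ ((jM _ _).2 (.inr ⟨b, g, rfl⟩))⟩]
    have k' : ∀ a b, Jn N' a b → (a ∈ C ∨ a ∈ T ∧ x ∈ C → b ∈ C ∨ b ∈ T ∧ x ∈ C) :=
      fun a b g g' => by
        by_cases ha : a ∈ T
        · exact .inl ((k a ha b g).2.1 (g'.resolve_left (nT a ha)).2)
        have ha' := g'.resolve_right fun g => ha g.1
        by_cases hb : b ∈ T
        · exact .inr ⟨hb, (k b hb a g.symm).2.2 ha'⟩
        · exact .inl ((sat a b ((jM _ _).2 (.inl ⟨g, ha, hb⟩))).1 ha')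
    by_cases a : x ∈ C
    · have := h.pos (C ∪ T) (c.union rat.clopen) (union_subset (d.trans sdiff_subset) hTS)
        e.inl fun m hm => by
          simpa only [a, and_true, mem_union] using
            Iff.intro (k' _ _ (.inl hm)) (k' _ _ (.inr hm))
      rwa [degOn_union c rat.clopen (disjoint_right.2 nT), degOn_mul W _ T, hW, degOn_bz,
        Finset.sum_eq_zero fun i _ => by rw [hA i, mul_zero], add_zero, add_zero] at this
    · exact h.pos C c (d.trans sdiff_subset) e fun m hm => by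
        simpa only [a, and_false, or_false] using Iff.intro (k' _ _ (.inl hm)) (k' _ _ (.inr hm))

/-- an unstable component is a bridge or a marked bubble -/
theorem step' (h : St N₁ p₀ A θ W S N' p' u γ) (amp : Amp A θ) (hz : z ∈ S)
    (h0 : degOn (W * bz A θ) (connectedComponent z) = 0) :
    ∃ N'' p'' u' γ', St N₁ p₀ A θ W (S \ connectedComponent z) N'' p'' u' γ' := by
  have hT := (exists_comp (R := Q) z).1
  have hTS := h.clopen.connectedComponent_subset hz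
  obtain ⟨F, hF, e⟩ := CtrB.degOn_card (R := Q) h.nd (CtrB.sm_img h.sm) hT
  obtain ⟨k1, k, k2⟩ := degOn_K_ge (R := Q) hT isConnected_connectedComponent
  have e1 := degOn_of_ne (fun y hy => h.usec y (hTS hy)) fun y _ => h.une y
  obtain ⟨y, hy, x, hx, j⟩ : ∃ y ∈ connectedComponent z, ∃ x ∉ connectedComponent z, Jn N' y x := by
    by_contra! a
    have := h.pos _ hT hTS ⟨z, mem_connectedComponent⟩ fun m hm =>
      ⟨fun b => by_contra fun c => a _ b _ c (.inl hm),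
        fun b => by_contra fun c => a _ b _ c (.inr hm)⟩
    omega
  rw [degOn_div] at e1
  rw [degOn_mul] at h0
  have hA := (amp z).resolve_left (by omega)
  rw [degOn_bz, Finset.sum_eq_zero fun i _ => by rw [hA i, mul_zero], add_zero] at h0
  have m : y ∈ F := (hF y).2 ⟨hy, CtrB.sp_jn j⟩
  have c1 := Finset.card_erase_add_one m
  obtain ⟨y', e'⟩ := Finset.card_eq_one.1 (by omega : (F.erase y).card = 1)
  have m' : ∀ w, w = y' ↔ w ≠ y ∧ w ∈ F := fun w => by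
    rw [← Finset.mem_erase, e', Finset.mem_singleton]
  refine step h ⟨hT, isConnected_connectedComponent, by omega⟩ hTS h0 hA hy
    ((hF y').1 ((m' y').1 rfl).2).1 hx ((m' y').1 rfl).1.symm j fun w hw => ?_
  rw [m', ← and_iff_right hw (b := ¬_), ← hF]
  exact ⟨fun a => (Classical.em (w = y)).imp_right fun b => ⟨b, a⟩,
    fun a => a.elim (fun b => b ▸ m) And.right⟩

end BridP

theorem St.exists_stable {ρ : Type} [Fintype ρ] {A : ρ → LB Q} {θ : ρ → ℤ} {W : LB Q} {S : Set Y}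
    {N' : Finset (Y × Y)} {p' : ν → Y} {u : Y → ℂ} {γ : Y → ρ → ℂ}
    (h : St N₁ p₀ A θ W S N' p' u γ) (amp : Amp A θ)
    (h0 : ∀ C, IsClopen C → C ⊆ S → 0 ≤ degOn (W * bz A θ) C) :
    ∃ S' ⊆ S, ∃ N'' p'' u' γ', St N₁ p₀ A θ W S' N'' p'' u' γ' ∧
      ∀ C, IsClopen C → C ⊆ S' → C.Nonempty → 1 ≤ degOn (W * bz A θ) C := by
  obtain ⟨F, hF, meet⟩ := exists_finite_meets Q
  induction hn : (F ∩ S).ncard using Nat.strong_induction_on generalizing S N' p' u γ with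
  | _ n ih =>
    by_cases a : ∃ z ∈ S, degOn (W * bz A θ) (connectedComponent z) = 0
    · obtain ⟨z, hz, a⟩ := a
      obtain ⟨_, _, _, _, h'⟩ := BridP.step' h amp hz a
      obtain ⟨w, b, c⟩ := meet _ (exists_comp (R := Q) z).1 ⟨z, mem_connectedComponent⟩
      obtain ⟨S', d, e⟩ := ih _ (hn ▸ ncard_lt_ncard ⟨inter_subset_inter_right F sdiff_subset,
        fun d => (d ⟨b, h.clopen.connectedComponent_subset hz c⟩).2.2 c⟩ (hF.inter_of_left S))
        h' (fun C c d => h0 C c (d.trans sdiff_subset)) rfl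
      exact ⟨S', d.trans sdiff_subset, e⟩
    · refine ⟨S, Subset.rfl, _, _, _, _, h, fun C c d ⟨z, hz⟩ => ?_⟩
      have k := (exists_comp (R := Q) z).1
      have e1 := degOn_inter_add_diff (L := W * bz A θ) c k
      have e2 := h0 _ (c.diff k) (sdiff_subset.trans d)
      have e3 := h0 _ k (h.clopen.connectedComponent_subset (d hz))
      have e4 : degOn (W * bz A θ) (connectedComponent z) ≠ 0 := fun e => a ⟨z, d hz, e⟩
      rw [inter_eq_right.2 (c.connectedComponent_subset hz)] at e1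
      omega

end Vale.Agent.P269.Cpt
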