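import Vale.Agent.P269.Cpt.BubA
import Vale.Agent.P269.Cpt.Bas2
import Vale.Agent.P269.Cv.Rat

/-!
# Making finitely many sequences centres
-/

set_option linter.unusedSectionVars false

namespace Vale.Agent.P269.Cpt

open Set Function Topology Filter Metric Module Vale.Agent.P269.Cv

variable {X : ℕ → Type} [∀ n, TopologicalSpace (X n)] [∀ n, T2Space (X n)]
  [∀ n, CompactSpace (X n)] [∀ n, Nonempty (X n)] {Y : Type} [TopologicalSpace Y] [T2Space Y]
  [CompactSpace Y] {U : Ultrafilter ℕ} {R : ∀ n, RS (X n)} {Q : RS Y} {Z : ∀ n, Set (X n)}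

theorem Dg.exists_av (D : Dg U R Q) {m : ℕ} (hZ : ∀ n, (Z n).encard ≤ m) :
    ∃ (Y' : Type) (_ : TopologicalSpace Y') (_ : T2Space Y') (_ : CompactSpace Y') (Q' : RS Y')
      (D' : Dg U R Q'), D'.Av Z := by
  choose f hf using fun n => BubP.exists_enum (hZ n)
  obtain ⟨Y', _, _, _, Q', D', h⟩ := D.exists_ctr fun a n => f n a
  exact ⟨Y', _, inferInstance, inferInstance, Q', D',
    Dg.av_of_ctr (fun a n => f n a) h (.of_forall hf)⟩

end Vale.Agent.P269.Cpt
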