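import Vale.Agent.P269.Cpt.Defs
import Vale.Agent.P269.Cv.P1

/-!
# The constant degeneration and bubbling
-/

set_option linter.unusedSectionVars false

namespace Vale.Agent.P269.Cpt

open Set Function Topology Filter Metric Module Vale.Agent.P269.Cv

namespace BubP

theorem ann_le {τ τ' : ℂ} {r r' : ℝ} (h : ‖τ‖ ≤ ‖τ'‖) (hr : r' ≤ r) : ann τ' r' ⊆ ann τ r := by
  rintro z ⟨h1, h2⟩
  refine ⟨h1.trans_le hr, h2.imp (fun e => ?_) fun e => ?_⟩
  · rw [e, norm_zero] at h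
    exact norm_le_zero_iff.1 h
  · exact h.trans_lt (e.trans_le (mul_le_mul_of_nonneg_right hr (norm_nonneg _)))

theorem reg_le {W : Type} [TopologicalSpace W] {E : OpenPartialHomeomorph W ℂ} {τ τ' : ℂ}
    {r r' : ℝ} (h : ‖τ‖ ≤ ‖τ'‖) (hr : r' ≤ r) : reg E τ' r' ⊆ reg E τ r :=
  fun _ a => ⟨a.1, ann_le h hr a.2⟩

theorem tends_iff {α W : Type} [TopologicalSpace W] (E : OpenPartialHomeomorph W ℂ) {F : Filter α}
    {x : α → W} {z : W} (hz : z ∈ E.source) :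
    Tendsto x F (𝓝 z) ↔ (∀ᶠ n in F, x n ∈ E.source) ∧ Tendsto (fun n => E (x n)) F (𝓝 (E z)) := by
  refine ⟨fun h => ⟨h (E.open_source.mem_nhds hz), (E.continuousAt hz).tendsto.comp h⟩, fun h => ?_⟩
  have := (E.continuousAt_symm (E.map_source hz)).tendsto.comp h.2
  rw [E.left_inv hz] at this
  exact this.congr' (h.1.mono fun n hn => E.left_inv hn)

theorem fin_avoid {W : Type} [TopologicalSpace W] [T2Space W] {S : Set W} (hS : S.Finite) (x : W) :
    ∀ᶠ z in 𝓝[≠] x, z ∉ S := by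
  have : ∀ᶠ z in 𝓝 x, z ∉ S \ {x} :=
    (hS.subset sdiff_subset).isClosed.isOpen_compl.mem_nhds fun h => h.2 rfl
  exact eventually_nhdsWithin_iff.2 (this.mono fun z h e a => h ⟨a, e⟩)

theorem ev_map {W W' : Type} [TopologicalSpace W] [TopologicalSpace W'] {f : W → W'}
    (hf : IsOpenEmbedding f) {x : W} {P : W' → Prop} (h : ∀ᶠ z in 𝓝[≠] x, P (f z)) :
    ∀ᶠ z in 𝓝[≠] (f x), P z := by
  rw [eventually_nhdsWithin_iff] at h ⊢
  rw [← hf.map_nhds_eq, eventually_map]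
  exact h.mono fun z a e => a fun b => e (congrArg f b)

/-- the two points are glued -/
def Pt {W : Type} (M : Finset (W × W)) (y z : W) : Prop := (y, z) ∈ M ∨ (z, y) ∈ M

theorem Pt.uniq {W : Type} {M : Finset (W × W)} (hM : Nd M) {y z z' : W} (h : Pt M y z)
    (h' : Pt M y z') : z = z' := by
  rcases h with h | h <;> rcases h' with h' | h'
  · exact congrArg Prod.snd (hM.inj1 h h' rfl)
  · exact (hM.ne _ h _ h' rfl).elim
  · exact (hM.ne _ h' _ h rfl).elim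
  · exact congrArg Prod.fst (hM.inj2 h h' rfl)

theorem Pt.ne {W : Type} {M : Finset (W × W)} (hM : Nd M) {y z : W} (h : Pt M y z) : z ≠ y := by
  rintro rfl
  exact h.elim (fun a => hM.ne _ a _ a rfl) fun a => hM.ne _ a _ a rfl

theorem rel_of {W : Type} {M : Finset (W × W)} (hM : Nd M) {a a' c : W} (h : a = c ∨ Pt M c a)
    (h' : a' = c ∨ Pt M c a') : a = a' ∨ (a, a') ∈ M ∨ (a', a) ∈ M := by
  rcases h with rfl | h
  · exact h'.imp Eq.symm id
  · rcases h' with rfl | h'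
    · exact Or.inr h.symm
    · exact Or.inl (h.uniq hM h')

/-- the disjoint union of two surfaces -/
noncomputable def sumRS {W W' : Type} [TopologicalSpace W] [TopologicalSpace W'] (S : RS W)
    (S' : RS W') : RS (W ⊕ W') where
  e := Sum.elim (fun x => (S.e x).lift_openEmbedding .inl) fun x => (S'.e x).lift_openEmbedding .inr
  mem := by
    rintro (x | x)
    exacts [⟨x, S.mem x, rfl⟩, ⟨x, S'.mem x, rfl⟩]
  zero := by
    rintro (x | x)
    exacts [((S.e x).lift_openEmbedding_apply .inl).trans (S.zero x),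
      ((S'.e x).lift_openEmbedding_apply .inr).trans (S'.zero x)]
  hol := by
    rintro (x | x) _ ⟨y, hy, rfl⟩
    exacts [lift_hol S .inl hy, lift_hol S' .inr hy]

/-- division by `c` -/
noncomputable def scal (c : ℂ) (hc : c ≠ 0) : OpenPartialHomeomorph ℂ (OnePoint ℂ) where
  toFun t := (t / c : ℂ)
  invFun x := zc x * c
  source := univ
  target := {OnePoint.infty}ᶜ
  map_source' _ _ := OnePoint.coe_ne_infty _
  map_target' _ _ := mem_univ _
  left_inv' t _ := by simp [hc]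
  right_inv' x hx := by
    lift x to ℂ using hx
    simp [hc]
  open_source := isOpen_univ
  open_target := isOpen_compl_singleton
  continuousOn_toFun := (OnePoint.continuous_coe.comp (continuous_id.div_const c)).continuousOn
  continuousOn_invFun x hx := by
    lift x to ℂ using hx
    exact ((contAt_zc x).mul continuousAt_const).continuousWithinAt

theorem cmp_of {W : Type} [TopologicalSpace W] {S : RS W} {E : OpenPartialHomeomorph W ℂ}
    (h : S.Cmp E) {φ : ℂ → ℂ} {w : W} (hw : w ∈ E.source) (a : AnalyticAt ℂ φ (E w))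
    (b : deriv φ (E w) ≠ 0) : S.Hol (fun v => φ (E v)) w ∧ S.d (fun v => φ (E v)) w ≠ 0 :=
  ⟨RS.Hol.comp a (h w hw).1, by
    rw [RS.d_comp a (h w hw).1]; exact mul_ne_zero b (h w hw).2⟩

theorem reg_neck {W : Type} [TopologicalSpace W] {E E' : OpenPartialHomeomorph W ℂ} {τ : ℂ}
    {r δ : ℝ} (hτ : τ ≠ 0) (h : reg E τ r ⊆ reg E' τ r) (hp : ∀ w ∈ reg E τ r, E w * E' w = τ)
    (hδ : δ ≤ r) : reg E τ δ ⊆ reg E' τ δ := by
  intro w hw
  have h1 := reg_le le_rfl hδ hw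
  have e := hp w h1
  have n : ‖E w‖ * ‖E' w‖ = ‖τ‖ := by rw [← norm_mul, e]
  have p1 : 0 < ‖E w‖ := norm_pos_iff.2 (left_ne_zero_of_mul (e ▸ hτ))
  have p2 : 0 < ‖E' w‖ := norm_pos_iff.2 (right_ne_zero_of_mul (e ▸ hτ))
  have a1 : ‖E w‖ < δ := hw.2.1
  have a2 : ‖τ‖ < δ * ‖E w‖ := hw.2.2.resolve_left hτ
  refine ⟨(h h1).1, ?_, Or.inr ?_⟩
  · show ‖E' w‖ < δ
    nlinarith
  · show ‖τ‖ < δ * ‖E' w‖
    nlinarith

variable {X : ℕ → Type} [∀ n, TopologicalSpace (X n)] {U : Ultrafilter ℕ}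
  {E E' : ∀ n, OpenPartialHomeomorph (X n) ℂ} {τ τ' : ℕ → ℂ} {p q : ∀ n, X n}

theorem to_iff : To₀ U E τ p ↔ (∀ᶠ n in U, p n ∈ (E n).source ∧ (τ n = 0 ∨ E n (p n) ≠ 0)) ∧
    Tendsto (fun n => E n (p n)) U (𝓝 0) ∧ Tendsto (fun n => τ n / E n (p n)) U (𝓝 0) := by
  have key : ∀ {δ : ℝ} {a z : ℂ}, 0 < δ → ((a = 0 ∨ ‖a‖ < δ * ‖z‖) ↔
      (a = 0 ∨ z ≠ 0) ∧ ‖a / z‖ < δ) := by
    intro δ a z hδ
    by_cases ha : a = 0
    · simp [ha, hδ]
    by_cases hz : z = 0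
    · simp [ha, hz]
    · simp [ha, hz, div_lt_iff₀ (norm_pos_iff.2 hz)]
  simp only [NormedAddGroup.tendsto_nhds_zero]
  refine ⟨fun h => ⟨(h 1 one_pos).mono fun n a => ⟨a.1, ((key one_pos).1 a.2.2).1⟩,
    fun δ hδ => (h δ hδ).mono fun n a => a.2.1,
    fun δ hδ => (h δ hδ).mono fun n a => ((key hδ).1 a.2.2).2⟩, fun h δ hδ => ?_⟩
  filter_upwards [h.1, h.2.1 δ hδ, h.2.2 δ hδ] with n a b c
  exact ⟨a.1, b, (key hδ).2 ⟨a.2, c⟩⟩

theorem to_zero : To₀ U E (fun _ => 0) p ↔ (∀ᶠ n in U, p n ∈ (E n).source) ∧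
    Tendsto (fun n => E n (p n)) U (𝓝 0) := by
  simp [to_iff]

/-- the two charts describe a neck -/
def Nk (U : Ultrafilter ℕ) (E : ∀ n, OpenPartialHomeomorph (X n) ℂ) (τ : ℕ → ℂ)
    (E' : ∀ n, OpenPartialHomeomorph (X n) ℂ) (τ' : ℕ → ℂ) : Prop :=
  ∃ r > 0, ∀ᶠ n in U, τ n ≠ 0 ∧ τ' n = τ n ∧ reg (E' n) (τ' n) r = reg (E n) (τ n) r ∧
    ∀ w ∈ reg (E n) (τ n) r, E n w * E' n w = τ n

theorem Nk.symm (h : Nk U E τ E' τ') : Nk U E' τ' E τ := by
  obtain ⟨r, hr, h⟩ := h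
  refine ⟨r, hr, h.mono fun n a => ⟨a.2.1 ▸ a.1, a.2.1.symm, a.2.2.1.symm, fun w hw => ?_⟩⟩
  rw [mul_comm, a.2.1]
  exact a.2.2.2 w (a.2.2.1 ▸ hw)

theorem Nk.to (h : Nk U E τ E' τ') (hp : To₀ U E τ p) : To₀ U E' τ' p := by
  obtain ⟨r, hr, h⟩ := h
  intro δ hδ
  filter_upwards [h, hp (min δ r) (lt_min hδ hr)] with n a b
  obtain ⟨a1, a2, a3, a4⟩ := a
  rw [a2] at a3 ⊢
  exact reg_le le_rfl (min_le_left _ _) (reg_neck a1 a3.ge a4 (min_le_right _ _) b)

theorem Nk.iff (h : Nk U E τ E' τ') : To₀ U E τ p ↔ To₀ U E' τ' p := ⟨h.to, h.symm.to⟩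

variable {Y : Type} [TopologicalSpace Y] [T2Space Y] {R : ∀ n, RS (X n)} {Q : RS Y}

theorem nk_of (D : Dg U R Q) {y z : Y} (h : Pt D.M y z) : Nk U (D.E y) (D.τ y) (D.E z) (D.τ z) :=
  h.elim (fun a => D.neck _ a) fun a => Nk.symm (D.neck _ a)

theorem pt_of {M : Finset (Y × Y)} {y : Y} (h : ¬Sm M y) : ∃ z, Pt M y z := by
  by_contra a
  refine h fun m hm => ⟨?_, ?_⟩ <;> rintro rfl
  exacts [a ⟨m.2, Or.inl hm⟩, a ⟨m.1, Or.inr hm⟩]

theorem Pt.not_sm {M : Finset (Y × Y)} {y z : Y} (h : Pt M y z) : ¬Sm M z :=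
  fun a => h.elim (fun b => (a _ b).2 rfl) fun b => (a _ b).1 rfl

theorem ev_sm (M : Finset (Y × Y)) (y : Y) : ∀ᶠ z in 𝓝[≠] y, Sm M z :=
  (fin_avoid ((M.finite_toSet.image Prod.fst).union (M.finite_toSet.image Prod.snd)) y).mono
    fun _ h m hm => ⟨fun e => h (Or.inl ⟨m, hm, e⟩), fun e => h (Or.inr ⟨m, hm, e⟩)⟩

open Classical in
/-- the point `y` is moved to the origin of the bubble -/
noncomputable def rho (y z : Y) : Y ⊕ OnePoint ℂ := if z = y then .inr (0 : ℂ) else .inl z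

theorem rho_self (y : Y) : rho y y = .inr (0 : ℂ) := if_pos rfl

theorem rho_ne {y z : Y} (h : z ≠ y) : rho y z = .inl z := if_neg h

theorem rho_inj (y : Y) : Injective (rho y) := by
  intro a b h
  by_cases ha : a = y <;> by_cases hb : b = y
  · rw [ha, hb]
  · rw [ha, rho_self, rho_ne hb] at h; cases h
  · rw [hb, rho_self, rho_ne ha] at h; cases h
  · rw [rho_ne ha, rho_ne hb] at h; exact Sum.inl_injective h

theorem rho_ne_inl (y z : Y) : rho y z ≠ .inl y := by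
  by_cases h : z = y
  · rw [h, rho_self]; exact Sum.inr_ne_inl
  · rw [rho_ne h]; exact fun e => h (Sum.inl_injective e)

theorem rho_ne_inr (y z : Y) {b : OnePoint ℂ} (hb : b ≠ (0 : ℂ)) : rho y z ≠ .inr b := by
  by_cases h : z = y
  · rw [h, rho_self]; exact fun e => hb (Sum.inr_injective e).symm
  · rw [rho_ne h]; exact Sum.inl_ne_inr

theorem infty_ne : (OnePoint.infty : OnePoint ℂ) ≠ (0 : ℂ) := OnePoint.infty_ne_coe _

open Classical in
/-- the new nodes -/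
noncomputable def bM (M : Finset (Y × Y)) (y : Y) :
    Finset ((Y ⊕ OnePoint ℂ) × (Y ⊕ OnePoint ℂ)) :=
  insert (.inl y, .inr OnePoint.infty) (M.image (Prod.map (rho y) (rho y)))

theorem mem_bM {M : Finset (Y × Y)} {y : Y} {m : (Y ⊕ OnePoint ℂ) × (Y ⊕ OnePoint ℂ)} :
    m ∈ bM M y ↔ m = (.inl y, .inr OnePoint.infty) ∨ ∃ a ∈ M, (rho y a.1, rho y a.2) = m := by
  simp only [bM, Finset.mem_insert, Finset.mem_image, Prod.map]

theorem nd_bM {M : Finset (Y × Y)} (hM : Nd M) (y : Y) : Nd (bM M y) := by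
  refine ⟨fun m hm m' hm' => ?_, fun m hm m' hm' e => ?_, fun m hm m' hm' e => ?_⟩ <;>
    rcases mem_bM.1 hm with rfl | ⟨a, ha, rfl⟩ <;> rcases mem_bM.1 hm' with rfl | ⟨a', ha', rfl⟩
  · exact Sum.inl_ne_inr
  · exact (rho_ne_inl y _).symm
  · exact rho_ne_inr y _ infty_ne
  · exact fun e => hM.ne a ha a' ha' (rho_inj y e)
  · rfl
  · exact (rho_ne_inl y _ e.symm).elim
  · exact (rho_ne_inl y _ e).elim
  · rw [hM.inj1 ha ha' (rho_inj y e)]
  · rfl
  · exact (rho_ne_inr y _ infty_ne e.symm).elim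
  · exact (rho_ne_inr y _ infty_ne e).elim
  · rw [hM.inj2 ha ha' (rho_inj y e)]

theorem sm_rho {M : Finset (Y × Y)} {y z : Y} : Sm (bM M y) (rho y z) ↔ Sm M z := by
  refine ⟨fun h m hm => ?_, fun h m hm => ?_⟩
  · have := h _ (mem_bM.2 (Or.inr ⟨m, hm, rfl⟩))
    exact ⟨fun e => this.1 (congrArg (rho y) e), fun e => this.2 (congrArg (rho y) e)⟩
  · rcases mem_bM.1 hm with rfl | ⟨a, ha, rfl⟩
    · exact ⟨(rho_ne_inl y z).symm, (rho_ne_inr y z infty_ne).symm⟩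
    · exact ⟨fun e => (h a ha).1 (rho_inj y e), fun e => (h a ha).2 (rho_inj y e)⟩

theorem pt_rho {M : Finset (Y × Y)} {y z z' : Y} (h : Pt M z z') :
    Pt (bM M y) (rho y z) (rho y z') :=
  h.imp (fun a => mem_bM.2 (Or.inr ⟨_, a, rfl⟩)) fun a => mem_bM.2 (Or.inr ⟨_, a, rfl⟩)

/-- the scale of the bubble -/
structure Sc (D : Dg U R Q) (y : Y) (u : ℕ → ℂ) : Prop where
  ne : ∀ n, u n ≠ 0
  h0 : Tendsto u U (𝓝 0)
  h1 : Tendsto (fun n => D.τ y n / u n) U (𝓝 0)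

namespace Sc

variable {D : Dg U R Q} {y : Y} {u : ℕ → ℂ} (h : Sc D y u)

/-- the new charts -/
noncomputable def bE : Y ⊕ OnePoint ℂ → ∀ n, OpenPartialHomeomorph (X n) ℂ :=
  Sum.elim D.E fun b n => ((D.E y n).trans (scal (u n) (h.ne n))).trans (P1.e b)

open Classical in
/-- the new neck parameters -/
noncomputable def bτ (_ : Sc D y u) : Y ⊕ OnePoint ℂ → ℕ → ℂ :=
  Sum.elim (fun z => if z = y then u else if Pt D.M y z then fun n => D.τ z n / u n else D.τ z)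
    fun b => b.elim u fun a => if a = 0 then fun n => D.τ y n / u n else fun _ => 0

theorem τ_self : h.bτ (.inl y) = u := if_pos rfl

theorem τ_pt {z : Y} (a : Pt D.M y z) : h.bτ (.inl z) = fun n => D.τ z n / u n :=
  (if_neg (a.ne D.nd)).trans (if_pos a)

theorem τ_far {z : Y} (a : z ≠ y) (b : ¬Pt D.M y z) : h.bτ (.inl z) = D.τ z :=
  (if_neg a).trans (if_neg b)

theorem τ_infty : h.bτ (.inr OnePoint.infty) = u := rfl

theorem τ_zero : h.bτ (.inr (0 : ℂ)) = fun n => D.τ y n / u n := if_pos rfl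

theorem τ_coe {a : ℂ} (ha : a ≠ 0) : h.bτ (.inr a) = fun _ => 0 := if_neg ha

theorem src {b : OnePoint ℂ} {n : ℕ} {w : X n} : w ∈ (h.bE (.inr b) n).source ↔
    w ∈ (D.E y n).source ∧ ((D.E y n w / u n : ℂ) : OnePoint ℂ) ∈ (P1.e b).source :=
  ⟨fun a => ⟨a.1.1, a.2⟩, fun a => ⟨⟨a.1, mem_univ _⟩, a.2⟩⟩

theorem src_coe {a : ℂ} {n : ℕ} {w : X n} : w ∈ (h.bE (.inr a) n).source ↔ w ∈ (D.E y n).source :=
  h.src.trans (and_iff_left (OnePoint.coe_ne_infty _))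

theorem src_infty {n : ℕ} {w : X n} : w ∈ (h.bE (.inr OnePoint.infty) n).source ↔
    w ∈ (D.E y n).source ∧ D.E y n w ≠ 0 := by
  rw [h.src, P1_src_infty]
  simp [h.ne n]

theorem val (b : OnePoint ℂ) (n : ℕ) (w : X n) :
    h.bE (.inr b) n w = P1.e b (D.E y n w / u n : ℂ) := rfl

theorem val_coe (a : ℂ) (n : ℕ) (w : X n) : h.bE (.inr a) n w = D.E y n w / u n - a := rfl

theorem val_infty (n : ℕ) (w : X n) : h.bE (.inr OnePoint.infty) n w = (D.E y n w / u n)⁻¹ := rfl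

theorem tgt_coe {a t : ℂ} {n : ℕ} (ht : (t + a) * u n ∈ (D.E y n).target) :
    t ∈ (h.bE (.inr a) n).target := ⟨mem_univ _, OnePoint.coe_ne_infty _, ht⟩

theorem tgt_infty {t : ℂ} {n : ℕ} (h0 : t ≠ 0) (ht : t⁻¹ * u n ∈ (D.E y n).target) :
    t ∈ (h.bE (.inr OnePoint.infty) n).target := by
  refine ⟨mem_univ _, ?_, ?_⟩
  · show iv t ≠ OnePoint.infty
    rw [iv_ne h0]; exact OnePoint.coe_ne_infty _
  · show zc (iv t) * u n ∈ (D.E y n).target
    rwa [zc_iv]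

theorem symm_coe (a t : ℂ) (n : ℕ) :
    (h.bE (.inr a) n).symm t = (D.E y n).symm ((t + a) * u n) := rfl

include h

theorem ev_u {r : ℝ} (hr : 0 < r) : ∀ᶠ n in U, ‖u n‖ < r :=
  NormedAddGroup.tendsto_nhds_zero.1 h.h0 r hr

theorem ev_τ {r : ℝ} (hr : 0 < r) : ∀ᶠ n in U, ‖D.τ y n‖ < r * ‖u n‖ :=
  (NormedAddGroup.tendsto_nhds_zero.1 h.h1 r hr).mono fun n a => by
    rwa [norm_div, div_lt_iff₀ (norm_pos_iff.2 (h.ne n))] at a

theorem le_div {n : ℕ} (a : ‖u n‖ < 1) (c : ℂ) : ‖c‖ ≤ ‖c / u n‖ := by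
  rw [norm_div]
  exact le_div_self (norm_nonneg _) (norm_pos_iff.2 (h.ne n)) a.le

theorem cmp (a : Y ⊕ OnePoint ℂ) : ∀ᶠ n in U, (R n).Cmp (h.bE a n) := by
  rcases a with z | b
  · exact D.cmp z
  refine (D.cmp y).mono fun n hn w hw => ?_
  have hu := h.ne n
  induction b using OnePoint.rec with
  | infty =>
    obtain ⟨a, b⟩ := h.src_infty.1 hw
    refine cmp_of hn (φ := fun t => (t / u n)⁻¹) a
      ((analyticAt_id.div analyticAt_const hu).inv (div_ne_zero b hu)) ?_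
    have : (fun t : ℂ => (t / u n)⁻¹) = fun t => u n * t⁻¹ := by
      funext t; rw [inv_div, div_eq_mul_inv]
    rw [this, deriv_const_mul_field, deriv_inv]
    simp [hu, b]
  | coe a =>
    refine cmp_of hn (φ := fun t => t / u n - a) (h.src_coe.1 hw)
      ((analyticAt_id.div analyticAt_const hu).sub analyticAt_const) ?_
    simp [hu]

theorem tend (a : Y ⊕ OnePoint ℂ) : Tendsto (h.bτ a) U (𝓝 0) := by
  rcases a with z | b
  · by_cases a : z = y
    · rw [a, h.τ_self]; exact h.h0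
    by_cases b : Pt D.M y z
    · rw [h.τ_pt b]
      obtain ⟨r, -, c⟩ := nk_of D b
      exact h.h1.congr' (c.mono fun n e => by simp only [e.2.1])
    · rw [h.τ_far a b]; exact D.tend z
  induction b using OnePoint.rec with
  | infty => exact h.h0
  | coe a =>
    by_cases e : a = 0
    · rw [e, h.τ_zero]; exact h.h1
    · rw [h.τ_coe e]; exact tendsto_const_nhds

theorem sm (a : Y ⊕ OnePoint ℂ) (ha : Sm (bM D.M y) a) (n : ℕ) : h.bτ a n = 0 := by
  have h0 := ha _ (mem_bM.2 (Or.inl rfl))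
  rcases a with z | b
  · have a : z ≠ y := fun e => h0.1 (congrArg _ e.symm)
    rw [← rho_ne a, sm_rho] at ha
    rw [h.τ_far a fun b => b.not_sm ha]
    exact D.sm z ha n
  induction b using OnePoint.rec with
  | infty => exact (h0.2 rfl).elim
  | coe a =>
    by_cases e : a = 0
    · rw [e, ← rho_self y, sm_rho] at ha
      rw [e, h.τ_zero]
      simp only [D.sm y ha n, zero_div]
    · rw [h.τ_coe e]

theorem tgt (a : Y ⊕ OnePoint ℂ) : ∃ r > 0, ∀ᶠ n in U, ann (h.bτ a n) r ⊆ (h.bE a n).target := by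
  rcases a with z | b
  · obtain ⟨r, hr, c⟩ := D.tgt z
    refine ⟨r, hr, ?_⟩
    by_cases a : z = y
    · subst a
      rw [h.τ_self]
      filter_upwards [c, h.ev_τ one_pos] with n c d
      exact (ann_le (by linarith) le_rfl).trans c
    by_cases b : Pt D.M y z
    · rw [h.τ_pt b]
      filter_upwards [c, h.ev_u one_pos] with n c d
      exact (ann_le (h.le_div d _) le_rfl).trans c
    · rw [h.τ_far a b]; exact c
  obtain ⟨r, hr, c⟩ := D.tgt y
  induction b using OnePoint.rec with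
  | infty =>
    refine ⟨min r 1, lt_min hr one_pos, ?_⟩
    filter_upwards [c, h.ev_τ hr] with n c d t ht
    have h1 : ‖t‖ < 1 := ht.1.trans_le (min_le_right _ _)
    have h2 : ‖u n‖ < min r 1 * ‖t‖ := ht.2.resolve_left (h.ne n)
    have h3 : ‖u n‖ < r * ‖t‖ :=
      h2.trans_le (mul_le_mul_of_nonneg_right (min_le_left _ _) (norm_nonneg _))
    have h0 : t ≠ 0 := by
      rintro rfl
      rw [norm_zero, mul_zero] at h3
      exact h3.not_ge (norm_nonneg _)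
    have hp := norm_pos_iff.2 h0
    refine h.tgt_infty h0 (c ⟨?_, Or.inr (d.trans_le ?_)⟩)
    · rw [norm_mul, norm_inv, inv_mul_lt_iff₀ hp, mul_comm]; exact h3
    · rw [norm_mul, norm_inv]
      exact mul_le_mul_of_nonneg_left (le_mul_of_one_le_left (norm_nonneg _)
        ((one_le_inv₀ hp).2 h1.le)) hr.le
  | coe a =>
    by_cases e : a = 0
    · subst e
      refine ⟨r, hr, ?_⟩
      rw [h.τ_zero]
      filter_upwards [c, h.ev_u one_pos] with n c d t ht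
      refine h.tgt_coe (c ⟨?_, ht.2.imp (fun e => ?_) fun e => ?_⟩)
      · rw [add_zero, norm_mul]
        exact (mul_le_of_le_one_right (norm_nonneg _) d.le).trans_lt ht.1
      · exact (div_eq_zero_iff.1 e).resolve_right (h.ne n)
      · rwa [norm_div, div_lt_iff₀ (norm_pos_iff.2 (h.ne n)), mul_assoc, ← norm_mul,
          ← add_zero t] at e
    · have hp := norm_pos_iff.2 e
      refine ⟨‖a‖ / 2, by positivity, ?_⟩
      rw [h.τ_coe e]
      filter_upwards [c, h.ev_u (r := r / (2 * ‖a‖)) (by positivity),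
        h.ev_τ (r := r * (‖a‖ / 2)) (by positivity)] with n c d d' t ht
      have h1 : ‖t‖ < ‖a‖ / 2 := ht.1
      have h2 : ‖t + a‖ ≤ 2 * ‖a‖ := (norm_add_le _ _).trans (by linarith)
      have h3 : ‖a‖ / 2 ≤ ‖t + a‖ := by
        have := norm_sub_le (t + a) t
        rw [add_sub_cancel_left] at this
        linarith
      rw [lt_div_iff₀ (by positivity)] at d
      refine h.tgt_coe (c ⟨?_, Or.inr (d'.trans_le ?_)⟩)
      · rw [norm_mul]
        exact (mul_le_mul_of_nonneg_right h2 (norm_nonneg _)).trans_lt (by rwa [mul_comm])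
      · rw [norm_mul, mul_assoc]
        exact mul_le_mul_of_nonneg_left (mul_le_mul_of_nonneg_right h3 (norm_nonneg _)) hr.le

theorem nk_infty : Nk U (h.bE (.inl y)) (h.bτ (.inl y)) (h.bE (.inr OnePoint.infty))
    (h.bτ (.inr OnePoint.infty)) := by
  rw [h.τ_self, h.τ_infty]
  refine ⟨1, one_pos, .of_forall fun n => ?_⟩
  have hu := h.ne n
  have hp : ∀ w ∈ reg (D.E y n) (u n) 1, D.E y n w ≠ 0 := fun w hw e => by
    have := hw.2.2.resolve_left hu
    rw [e, norm_zero, mul_zero] at this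
    exact this.not_ge (norm_nonneg _)
  have e : ∀ w, D.E y n w ≠ 0 → D.E y n w * h.bE (.inr OnePoint.infty) n w = u n := fun w a => by
    rw [h.val_infty]; field_simp
  have k : ∀ a b : ℂ, a * b = u n → a ∈ ann (u n) 1 → b ∈ ann (u n) 1 := fun a b c d => by
    have n1 : ‖a‖ * ‖b‖ = ‖u n‖ := by rw [← norm_mul, c]
    have p1 : 0 < ‖a‖ := norm_pos_iff.2 (left_ne_zero_of_mul (c ▸ hu))
    have p2 : 0 < ‖b‖ := norm_pos_iff.2 (right_ne_zero_of_mul (c ▸ hu))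
    have a1 : ‖a‖ < 1 := d.1
    have a2 : ‖u n‖ < 1 * ‖a‖ := d.2.resolve_left hu
    exact ⟨by nlinarith, Or.inr (by nlinarith)⟩
  refine ⟨hu, rfl, Subset.antisymm (fun w hw => ?_) fun w hw => ?_, fun w hw => e w (hp w hw)⟩
  · obtain ⟨a, b⟩ := h.src_infty.1 hw.1
    exact ⟨a, k _ _ ((mul_comm _ _).trans (e w b)) hw.2⟩
  · exact ⟨h.src_infty.2 ⟨hw.1, hp w hw⟩, k _ _ (e w (hp w hw)) hw.2⟩

theorem nk_zero {z : Y} (a : Pt D.M y z) :
    Nk U (h.bE (.inr (0 : ℂ))) (h.bτ (.inr (0 : ℂ))) (h.bE (.inl z)) (h.bτ (.inl z)) := by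
  rw [h.τ_zero, h.τ_pt a]
  obtain ⟨r, hr, c⟩ := nk_of D a
  refine ⟨r, hr, ?_⟩
  filter_upwards [c, h.ev_u one_pos] with n c d
  obtain ⟨c1, c2, c3, c4⟩ := c
  have hu := h.ne n
  have hp := norm_pos_iff.2 hu
  have hτ := div_ne_zero c1 hu
  rw [c2] at c3 ⊢
  have s1 : reg (h.bE (.inr (0 : ℂ)) n) (D.τ y n / u n) r ⊆ reg (D.E y n) (D.τ y n) r := by
    intro w hw
    have a1 : ‖D.E y n w / u n - 0‖ < r := hw.2.1
    have a2 : ‖D.τ y n / u n‖ < r * ‖D.E y n w / u n - 0‖ := hw.2.2.resolve_left hτ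
    rw [sub_zero] at a1 a2
    refine ⟨h.src_coe.1 hw.1, (h.le_div d _).trans_lt a1, Or.inr ?_⟩
    rwa [norm_div, norm_div, ← mul_div_assoc, div_lt_div_iff_of_pos_right hp] at a2
  have e : ∀ w ∈ reg (D.E y n) (D.τ y n) r,
      h.bE (.inr (0 : ℂ)) n w * D.E z n w = D.τ y n / u n := fun w hw => by
    rw [h.val_coe, sub_zero, ← c4 w hw]; ring
  have k : ∀ a b : ℂ, a * b = D.τ y n / u n → a ∈ ann (D.τ y n / u n) r →
      b ∈ ann (D.τ y n / u n) r := fun a b c d => by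
    have n1 : ‖a‖ * ‖b‖ = ‖D.τ y n / u n‖ := by rw [← norm_mul, c]
    have p1 : 0 < ‖a‖ := norm_pos_iff.2 (left_ne_zero_of_mul (c ▸ hτ))
    have p2 : 0 < ‖b‖ := norm_pos_iff.2 (right_ne_zero_of_mul (c ▸ hτ))
    have a1 : ‖a‖ < r := d.1
    have a2 : ‖D.τ y n / u n‖ < r * ‖a‖ := d.2.resolve_left hτ
    exact ⟨by nlinarith, Or.inr (by nlinarith)⟩
  refine ⟨hτ, rfl, Subset.antisymm (fun w hw => ?_) fun w hw => ?_, fun w hw => e w (s1 hw)⟩
  · have b : w ∈ reg (D.E y n) (D.τ y n) r := c3 ▸ reg_le (h.le_div d _) le_rfl hw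
    exact ⟨h.src_coe.2 b.1, k _ _ ((mul_comm _ _).trans (e w b)) hw.2⟩
  · have b : w ∈ reg (D.E z n) (D.τ y n) r := c3 ▸ s1 hw
    exact ⟨b.1, k _ _ (e w (s1 hw)) hw.2⟩

theorem neck (m : (Y ⊕ OnePoint ℂ) × (Y ⊕ OnePoint ℂ)) (hm : m ∈ bM D.M y) :
    Nk U (h.bE m.1) (h.bτ m.1) (h.bE m.2) (h.bτ m.2) := by
  rcases mem_bM.1 hm with rfl | ⟨⟨a, b⟩, c, rfl⟩
  · exact h.nk_infty
  have hab : Pt D.M a b := Or.inl c
  by_cases ha : a = y
  · subst ha
    simp only [rho_self, rho_ne (hab.ne D.nd)]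
    exact h.nk_zero hab
  by_cases hb : b = y
  · subst hb
    simp only [rho_self, rho_ne ha]
    exact (h.nk_zero hab.symm).symm
  simp only [rho_ne ha, rho_ne hb]
  rw [h.τ_far ha fun e => hb (Pt.uniq D.nd hab e.symm),
    h.τ_far hb fun e => ha (Pt.uniq D.nd hab.symm e.symm)]
  exact D.neck _ c

theorem to_of {a : ℂ} (ha : a ≠ 0) (h1 : ∀ᶠ n in U, q n ∈ (D.E y n).source)
    (h2 : Tendsto (fun n => D.E y n (q n) / u n) U (𝓝 a)) : To₀ U (D.E y) (D.τ y) q := by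
  have h3 := h2.eventually_ne ha
  refine to_iff.2 ⟨(h1.and h3).mono fun n b => ⟨b.1, Or.inr (div_ne_zero_iff.1 b.2).1⟩, ?_, ?_⟩
  · have := h2.mul h.h0
    rw [mul_zero] at this
    exact this.congr fun n => div_mul_cancel₀ _ (h.ne n)
  · have := h.h1.div h2 ha
    rw [zero_div] at this
    exact this.congr fun n => div_div_div_cancel_right₀ (h.ne n) _ _

theorem to_inr (b : OnePoint ℂ) : To₀ U (h.bE (.inr b)) (h.bτ (.inr b)) q ↔
    To₀ U (D.E y) (D.τ y) q ∧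
      Tendsto (fun n => ((D.E y n (q n) / u n : ℂ) : OnePoint ℂ)) U (𝓝 b) := by
  rw [tends_iff (P1.e b) (P1.mem b), P1.zero]
  induction b using OnePoint.rec with
  | infty =>
    have e : ∀ n, u n / (D.E y n (q n) / u n)⁻¹ = D.E y n (q n) := fun n => by
      rw [div_inv_eq_mul, mul_div_cancel₀ _ (h.ne n)]
    have s : ∀ n, ((D.E y n (q n) / u n : ℂ) : OnePoint ℂ) ∈ (P1.e OnePoint.infty).source ↔
        D.E y n (q n) ≠ 0 := fun n => by
      rw [P1_src_infty]; simp [h.ne n]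
    rw [h.τ_infty, to_iff, to_iff]
    simp only [h.src_infty, h.val_infty, e, s, P1_e_infty, zc_coe]
    refine ⟨fun a => ⟨⟨a.1.mono fun n b => ⟨b.1.1, Or.inr b.1.2⟩, a.2.2, ?_⟩,
      a.1.mono fun n b => b.1.2, a.2.1⟩, fun a => ⟨(a.1.1.and a.2.1).mono fun n b =>
        ⟨⟨b.1.1, b.2⟩, Or.inr (inv_ne_zero (div_ne_zero b.2 (h.ne n)))⟩, a.2.2, a.1.2.1⟩⟩
    have := h.h1.mul a.2.1
    rw [mul_zero] at this
    refine this.congr fun n => ?_
    have := h.ne n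
    field_simp
  | coe a =>
    have s : ∀ n, ((D.E y n (q n) / u n : ℂ) : OnePoint ℂ) ∈ (P1.e a).source := fun n =>
      OnePoint.coe_ne_infty _
    simp only [s, eventually_true, true_and, P1_e_coe]
    by_cases e : a = 0
    · subst e
      rw [h.τ_zero, to_iff, to_iff]
      simp only [h.src_coe, h.val_coe, sub_zero, div_div_div_cancel_right₀ (h.ne _),
        div_eq_zero_iff, h.ne, or_false, ne_eq]
      refine ⟨fun a => ⟨⟨a.1, ?_, a.2.2⟩, a.2.1⟩, fun a => ⟨a.1.1, a.2, a.1.2.2⟩⟩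
      have := a.2.1.mul h.h0
      rw [mul_zero] at this
      exact this.congr fun n => div_mul_cancel₀ _ (h.ne n)
    · rw [h.τ_coe e, to_zero]
      simp only [h.src_coe, h.val_coe]
      exact ⟨fun b => ⟨h.to_of e b.1 (tendsto_sub_nhds_zero_iff.1 b.2), b.2⟩,
        fun b => ⟨(to_iff.1 b.1).1.mono fun n c => c.1, b.2⟩⟩

theorem tri (a : Y ⊕ OnePoint ℂ) : (∃ z, a = .inl z ∧ z ≠ y ∧ ¬Pt D.M y z) ∨
    ∃ b, (a = .inr b ∨ Pt (bM D.M y) (.inr b) a) ∧
      (To₀ U (h.bE a) (h.bτ a) q → To₀ U (h.bE (.inr b)) (h.bτ (.inr b)) q) := by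
  rcases a with z | b
  · by_cases a : z = y
    · subst a
      exact Or.inr ⟨_, Or.inr (Or.inr (mem_bM.2 (Or.inl rfl))), h.nk_infty.to⟩
    by_cases b : Pt D.M y z
    · refine Or.inr ⟨(0 : ℂ), Or.inr ?_, (h.nk_zero b).symm.to⟩
      rw [← rho_self y, ← rho_ne a]
      exact pt_rho b
    · exact Or.inl ⟨z, rfl, a, b⟩
  · exact Or.inr ⟨b, Or.inl rfl, id⟩

theorem sep (q : ∀ n, X n) (a a' : Y ⊕ OnePoint ℂ) (t : To₀ U (h.bE a) (h.bτ a) q)
    (t' : To₀ U (h.bE a') (h.bτ a') q) : a = a' ∨ (a, a') ∈ bM D.M y ∨ (a', a) ∈ bM D.M y := by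
  rcases h.tri (q := q) a with ⟨z, rfl, z1, z2⟩ | ⟨b, b1, b2⟩ <;>
    rcases h.tri (q := q) a' with ⟨z', rfl, z1', z2'⟩ | ⟨b', b1', b2'⟩
  · rw [h.τ_far z1 z2] at t
    rw [h.τ_far z1' z2'] at t'
    refine (D.sep q z z' t t').imp (congrArg _) fun c => ?_
    rw [← rho_ne z1, ← rho_ne z1']
    exact pt_rho c
  · rw [h.τ_far z1 z2] at t
    exact ((D.sep q y z ((h.to_inr b').1 (b2' t')).1 t).elim z1.symm z2).elim
  · rw [h.τ_far z1' z2'] at t'
    exact ((D.sep q y z' ((h.to_inr b).1 (b2 t)).1 t').elim z1'.symm z2').elim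
  · obtain rfl : b = b' :=
      tendsto_nhds_unique ((h.to_inr b).1 (b2 t)).2 ((h.to_inr b').1 (b2' t')).2
    exact rel_of (nd_bM D.nd y) b1 b1'

theorem cover (q : ∀ n, X n) : ∃ a, To₀ U (h.bE a) (h.bτ a) q := by
  obtain ⟨z, hz⟩ := D.cover q
  have k : To₀ U (D.E y) (D.τ y) q → ∃ a, To₀ U (h.bE a) (h.bτ a) q := fun t => by
    obtain ⟨b, -, hb⟩ := isCompact_univ.ultrafilter_le_nhds
      (U.map fun n => ((D.E y n (q n) / u n : ℂ) : OnePoint ℂ)) (by simp)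
    exact ⟨.inr b, (h.to_inr b).2 ⟨t, hb⟩⟩
  by_cases a : z = y
  · exact k (a ▸ hz)
  by_cases b : Pt D.M y z
  · exact k ((nk_of D b).symm.to hz)
  · exact ⟨.inl z, by rw [h.τ_far a b]; exact hz⟩

theorem near (a : Y ⊕ OnePoint ℂ) : ∀ᶠ z in 𝓝[≠] a, ∀ q, To₀ U (h.bE z) (h.bτ z) q ↔
    (∀ᶠ n in U, q n ∈ (h.bE a n).source) ∧
      Tendsto (fun n => h.bE a n (q n)) U (𝓝 ((sumRS Q P1).e a z)) := by
  rcases a with x | b
  · refine ev_map .inl ?_
    filter_upwards [D.near x, ev_sm D.M x, fin_avoid (finite_singleton y) x] with z z1 z2 z3 q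
    have e : (sumRS Q P1).e (.inl x) (.inl z) = Q.e x z := (Q.e x).lift_openEmbedding_apply .inl
    rw [h.τ_far z3 fun c => c.not_sm z2, e]
    exact z1 q
  · refine ev_map .inr ?_
    filter_upwards [mem_nhdsWithin_of_mem_nhds (P1.src_nhds b),
      fin_avoid (toFinite {OnePoint.infty, ((0 : ℂ) : OnePoint ℂ)}) b] with z z1 z2 q
    have e : (sumRS Q P1).e (.inr b) (.inr z) = P1.e b z := (P1.e b).lift_openEmbedding_apply .inr
    rw [h.to_inr, e]
    simp only [h.src, h.val, eventually_and]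
    rw [and_assoc, ← tends_iff (P1.e b) z1]
    refine and_congr_left fun t => ⟨fun c => (to_iff.1 c).1.mono fun n d => d.1, fun c => ?_⟩
    lift z to ℂ using fun e => z2 (Or.inl e)
    refine h.to_of (a := z) (fun e => z2 (Or.inr (by rw [e]; rfl))) c ?_
    exact (contAt_zc z).tendsto.comp t

/-- the degeneration with the new bubble -/
noncomputable def dg : Dg U R (sumRS Q P1) where
  E := h.bE
  τ := h.bτ
  M := bM D.M y
  le := D.le
  nd := nd_bM D.nd y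
  cmp := h.cmp
  tgt := h.tgt
  tend := h.tend
  sm := h.sm
  neck := h.neck
  cover := h.cover
  sep := h.sep
  near := h.near

theorem ctr (hq : D.Ctr q) : h.dg.Ctr q := by
  obtain ⟨z, z1, z2⟩ := hq
  refine ⟨rho y z, sm_rho.2 z1, z2.mono fun n e => e.trans ?_⟩
  by_cases a : z = y
  · subst a
    rw [rho_self]
    show (D.E z n).symm 0 = (h.bE (.inr (0 : ℂ)) n).symm 0
    rw [h.symm_coe, add_zero, zero_mul]
  · rw [rho_ne a]
    rfl

theorem ctr_one (hp : ∀ᶠ n in U, p n ∈ (D.E y n).source ∧ u n = D.E y n (p n)) : h.dg.Ctr p := by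
  have o : ((1 : ℂ) : OnePoint ℂ) ≠ (0 : ℂ) := fun e => one_ne_zero (OnePoint.coe_injective e)
  refine ⟨.inr (1 : ℂ), fun m hm => ?_, hp.mono fun n e => ?_⟩
  · rcases mem_bM.1 hm with rfl | ⟨a, -, rfl⟩
    · exact ⟨Sum.inl_ne_inr, fun e => OnePoint.infty_ne_coe _ (Sum.inr_injective e)⟩
    · exact ⟨rho_ne_inr y _ o, rho_ne_inr y _ o⟩
  · show p n = (h.bE (.inr (1 : ℂ)) n).symm 0
    rw [h.symm_coe, zero_add, one_mul, e.2, (D.E y n).left_inv e.1]

end Sc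

end BubP

open BubP

variable {X : ℕ → Type} [∀ n, TopologicalSpace (X n)] [∀ n, T2Space (X n)]
  [∀ n, CompactSpace (X n)] [∀ n, Nonempty (X n)] {Y : Type} [TopologicalSpace Y] [T2Space Y]
  [CompactSpace Y] {U : Ultrafilter ℕ} {R : ∀ n, RS (X n)} {Q : RS Y}

theorem exists_const {W : Type} [TopologicalSpace W] [T2Space W] [CompactSpace W] (S : RS W)
    (hU : (U : Filter ℕ) ≤ atTop) : Nonempty (Dg U (fun _ => S) S) := by
  have k : ∀ (y : W) (p : ℕ → W), To₀ (X := fun _ => W) U (fun _ => S.e y) (fun _ => 0) p ↔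
      Tendsto p U (𝓝 y) := fun y p => by
    rw [to_zero, tends_iff (S.e y) (S.mem y), S.zero]
  refine ⟨⟨fun y _ => S.e y, fun _ _ => 0, ∅, hU, ⟨by simp, by simp, by simp⟩,
    fun y => .of_forall fun _ => S.cmp_e y, fun y => ?_, fun _ => tendsto_const_nhds,
    fun _ _ _ => rfl, by simp, fun p => ?_,
    fun p y y' a b => Or.inl (tendsto_nhds_unique ((k y p).1 a) ((k y' p).1 b)), fun y => ?_⟩⟩
  · obtain ⟨r, hr, h⟩ := Metric.mem_nhds_iff.1 (S.tgt_nhds y)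
    exact ⟨r, hr, .of_forall fun _ t ht => h (mem_ball_zero_iff.2 ht.1)⟩
  · obtain ⟨y, -, hy⟩ := isCompact_univ.ultrafilter_le_nhds (U.map p) (by simp)
    exact ⟨y, (k y p).2 hy⟩
  · filter_upwards [mem_nhdsWithin_of_mem_nhds (S.src_nhds y)] with z hz p
    rw [k, tends_iff (S.e y) hz]

theorem Dg.bubble (D : Dg U R Q) (p : ∀ n, X n) :
    ∃ (Y' : Type) (_ : TopologicalSpace Y') (_ : T2Space Y') (_ : CompactSpace Y') (Q' : RS Y')
      (D' : Dg U R Q'), D'.Ctr p ∧ ∀ q, D.Ctr q → D'.Ctr q := by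
  classical
  by_cases hc : D.Ctr p
  · exact ⟨Y, _, inferInstance, inferInstance, Q, D, hc, fun _ h => h⟩
  obtain ⟨y, hy⟩ := D.cover p
  obtain ⟨h1, h2, h3⟩ := to_iff.1 hy
  have h0 : ∀ᶠ n in U, D.E y n (p n) ≠ 0 := by
    by_cases hs : Sm D.M y
    · have : ∀ᶠ n in U, ¬p n = D.c y n := Ultrafilter.eventually_not.2 fun e => hc ⟨y, hs, e⟩
      filter_upwards [this, h1] with n a b e
      exact a (by rw [Dg.c, ← e, (D.E y n).left_inv b.1])
    · obtain ⟨z, hz⟩ := pt_of hs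
      obtain ⟨r, -, c⟩ := nk_of D hz
      filter_upwards [c, h1] with n a b
      exact b.2.resolve_left a.1
  let u : ℕ → ℂ := fun n => if D.E y n (p n) = 0 then 1 else D.E y n (p n)
  have e : ∀ᶠ n in U, u n = D.E y n (p n) := h0.mono fun n a => if_neg a
  have h : Sc D y u := ⟨fun n => by
      by_cases a : D.E y n (p n) = 0
      · simp [u, a]
      · simp [u, a],
    h2.congr' (e.mono fun n a => a.symm), h3.congr' (e.mono fun n a => by simp only [a])⟩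
  exact ⟨Y ⊕ OnePoint ℂ, _, inferInstance, inferInstance, _, h.dg,
    h.ctr_one ((h1.and e).mono fun n a => ⟨a.1.1, a.2⟩), fun _ => h.ctr⟩

theorem Dg.exists_ctr (D : Dg U R Q) {m : ℕ} (q : Fin m → ∀ n, X n) :
    ∃ (Y' : Type) (_ : TopologicalSpace Y') (_ : T2Space Y') (_ : CompactSpace Y') (Q' : RS Y')
      (D' : Dg U R Q'), ∀ a, D'.Ctr (q a) := by
  induction m with
  | zero => exact ⟨Y, _, inferInstance, inferInstance, Q, D, fun a => a.elim0⟩
  | succ m ih =>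
    obtain ⟨Y₁, _, _, _, Q₁, D₁, h₁⟩ := ih fun a => q a.succ
    obtain ⟨Y₂, _, _, _, Q₂, D₂, h₂, h₃⟩ := D₁.bubble (q 0)
    exact ⟨Y₂, _, inferInstance, inferInstance, Q₂, D₂, Fin.cases h₂ fun a => h₃ _ (h₁ a)⟩

theorem BubP.exists_enum {W : Type} [Nonempty W] {Z : Set W} {m : ℕ} (h : Z.encard ≤ m) :
    ∃ f : Fin m → W, Z ⊆ range f := by
  have hf := finite_of_encard_le_coe h
  have := hf.fintype
  have hc : Fintype.card Z ≤ Fintype.card (Fin m) := by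
    rw [Fintype.card_fin, ← Nat.card_eq_fintype_card]
    rw [← hf.cast_ncard_eq] at h
    exact_mod_cast h
  obtain ⟨e⟩ := Function.Embedding.nonempty_of_card_le hc
  refine ⟨extend e Subtype.val fun _ => Classical.arbitrary W, fun z hz => ⟨e ⟨z, hz⟩, ?_⟩⟩
  exact e.injective.extend_apply ..

end Vale.Agent.P269.Cpt
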