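import Vale.Agent.P269.Cpt.Bas
import Vale.Agent.P269.Pt.Act

/-!
# Lifting of sections; convergence of the points of the chart after a change of frames
-/

set_option linter.unusedSectionVars false

namespace Vale.Agent.P269.Cpt

open Set Function Topology Filter Metric Module Vale.Agent.P269.Cv

variable {X : ℕ → Type} [∀ n, TopologicalSpace (X n)] [∀ n, T2Space (X n)]
  [∀ n, CompactSpace (X n)] [∀ n, Nonempty (X n)] {Y : Type} [TopologicalSpace Y] [T2Space Y]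
  [CompactSpace Y] {U : Ultrafilter ℕ} {R : ∀ n, RS (X n)} {Q : RS Y} {D : Dg U R Q}
  {B B' : ∀ n, LB (R n)} {L L' : LB Q} {p q : ∀ n, X n} {x y y' z : Y} {s s' : ∀ n, X n → ℂ}
  {σ σ' : Y → ℂ} {Z : ∀ n, Set (X n)} {ν : Type} [Fintype ν] {N : ∀ n, Finset (X n × X n)}
  {pm : ∀ n, ν → X n} {N₀ N₁ : Finset (Y × Y)} {p₀ : ν → Y}

namespace ConvP

open Base

theorem choice {β : ℕ → Type} [∀ n, Nonempty (β n)] {P : ∀ n, β n → Prop}
    (h : ∀ᶠ n in U, ∃ w, P n w) : ∃ p : ∀ n, β n, ∀ᶠ n in U, P n (p n) :=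
  ⟨fun n => Classical.epsilon (P n), h.mono fun _ => Classical.epsilon_spec⟩

/-- reconstruction of a vector from finitely many values -/
theorem pts {E W : Type} [AddCommGroup E] [Module ℂ E] [FiniteDimensional ℂ E]
    (u : W → E →ₗ[ℂ] ℂ) {G : Set W} (h : ∀ e, (∀ y ∈ G, u y e = 0) → e = 0) :
    ∃ (m : ℕ) (y : Fin m → W) (c : Fin m → E), (∀ a, y a ∈ G) ∧ ∀ e, ∑ a, u (y a) e • c a = e := by
  obtain ⟨f, a, b, -⟩ := Submodule.exists_fun_fin_finrank_span_eq ℂ (u '' G)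
  choose y y1 y2 using a
  obtain ⟨g, hg⟩ := (LinearMap.pi f).exists_leftInverse_of_injective
    (LinearMap.ker_eq_bot'.2 fun e he => h e fun z hz => by
      have : Submodule.span ℂ (range f) ≤ LinearMap.ker (Dual.eval ℂ E e) :=
        Submodule.span_le.2 (range_subset_iff.2 fun a => congrFun he a)
      exact this (b.ge (Submodule.subset_span ⟨z, hz, rfl⟩)))
  refine ⟨_, y, fun a => g fun j => if a = j then 1 else 0, y1, fun e => ?_⟩
  simp only [y2]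
  exact (g.pi_apply_eq_sum_univ (LinearMap.pi f e)).symm.trans (LinearMap.congr_fun hg e)

theorem dense {G : Set Y} (hG : Gᶜ.Finite) (hσ : σ ∈ L.Γ) (h : ∀ y ∈ G, σ y = 0) (y : Y) :
    σ y = 0 := eq_zero_of_gen hσ fun a => by
  have := Q.neBot y
  obtain ⟨z, b, c⟩ := ((mem_gen.1 a).and (nhdsNE_le_cofinite y (mem_cofinite.2 hG))).exists
  exact b (h z c)

section

variable {E F : Type} [NormedAddCommGroup E] [NormedSpace ℂ E] [FiniteDimensional ℂ E]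
  [NormedAddCommGroup F] [NormedSpace ℂ F]

theorem tendsto_clm {T : ℕ → E →L[ℂ] F} {T' : E →L[ℂ] F} {l : Filter ℕ}
    (h : ∀ e, Tendsto (fun n => T n e) l (𝓝 (T' e))) : Tendsto T l (𝓝 T') := by
  let e : (E →L[ℂ] F) ≃L[ℂ] Fin (finrank ℂ E) → F :=
    ((ContinuousLinearEquiv.ofFinrankEq (finrank_fin_fun ℂ).symm).arrowCongr
      (1 : F ≃L[ℂ] F)).trans (ContinuousLinearEquiv.piRing _)
  rw [e.toHomeomorph.isInducing.tendsto_nhds_iff]
  exact tendsto_pi_nhds.2 fun i => h _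

theorem ev_unit {T : ℕ → E →L[ℂ] E} (h : ∀ l : E →L[ℂ] ℂ,
    (∀ (x : ℕ → E) e, Tendsto (fun n => T n (x n)) U (𝓝 e) → l e = 0) → l = 0) :
    ∀ᶠ n in U, IsUnit (T n) := by
  by_contra a
  obtain ⟨l, hl⟩ := choice (β := fun _ => E →L[ℂ] ℂ)
    (P := fun n l => l ∈ sphere (0 : E →L[ℂ] ℂ) 1 ∧ l ∘L T n = 0)
    ((Ultrafilter.eventually_not.2 a).mono fun n hn => by
      obtain ⟨l, b, c⟩ : ∃ l : E →L[ℂ] ℂ, l ∘L T n = 0 ∧ l ≠ 0 := by
        by_contra! d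
        exact hn (isUnit_of_dual d)
      refine ⟨(‖l‖⁻¹ : ℂ) • l, ?_, ContinuousLinearMap.ext fun e =>
        (congrArg (_ * ·) (congrArg (· e) b)).trans (mul_zero _)⟩
      simp [norm_smul, c])
  have := FiniteDimensional.proper ℂ (E →L[ℂ] ℂ)
  obtain ⟨l', b, c⟩ := (isCompact_sphere (0 : E →L[ℂ] ℂ) 1).ultrafilter_le_nhds' (U.map l)
    (hl.mono fun n hn => hn.1)
  rw [h l' fun x e he => tendsto_nhds_unique ((isBoundedBilinearMap_apply.continuous.tendsto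
    (l', e)).comp (Tendsto.prodMk_nhds c he)) (tendsto_const_nhds.congr' (hl.mono fun n hn =>
      (congrArg (· (x n)) hn.2).symm))] at b
  simp at b

theorem exists_T {W : Type} {u' : W → E →L[ℂ] ℂ} {G : Set W}
    (h : ∀ e, (∀ y ∈ G, u' y e = 0) → e = 0) (u : W → ℕ → E →L[ℂ] ℂ) :
    ∃ T : ℕ → E →L[ℂ] E, ∀ (e : ℕ → E) e', (∀ y ∈ G, Tendsto (fun n => u y n (e n)) U
      (𝓝 (u' y e'))) → Tendsto (fun n => T n (e n)) U (𝓝 e') := by
  obtain ⟨m, y, c, hy, hc⟩ := pts (fun y => (u' y).toLinearMap) h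
  refine ⟨fun n => ∑ a, (u (y a) n).smulRight (c a), fun e e' a => ?_⟩
  convert tendsto_finsetSum Finset.univ fun k _ => (a _ (hy k)).smul_const (c k) using 2
  · simp
  · exact (hc e').symm

end

variable {ι : Type} {A : ∀ n, ι → LB (R n)} {w : Wk U R Q A} {i : ι}

theorem cv_c (h : w.Cv i L s σ) (hy : y ∈ w.Gd) :
    Tendsto (fun n => s n (w.c y n) / w.ε y n (w.c y n) i) U (𝓝 (σ y)) := by
  have := (h y hy).self_of_nhds (fun _ => 0) tendsto_const_nhds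
  rwa [LB.loc_zero] at this

theorem an_loc {W : Type} [TopologicalSpace W] {S : RS W} {B : LB S} {s ε : W → ℂ}
    {E : OpenPartialHomeomorph W ℂ} (hE : S.Cmp E) {t : ℂ} (ht : t ∈ E.target)
    (hs : B.Sec s (E.symm t)) (hε : B.Sec ε (E.symm t)) (h0 : ε (E.symm t) ≠ 0) :
    AnalyticAt ℂ (fun t => s (E.symm t) / ε (E.symm t)) t :=
  (hE.hol_iff' (f := fun z => s z / ε z) ht).1 (hs.hol_div hε h0)

theorem cv_deriv (h : w.Cv i L s σ) (hy : y ∈ w.Gd) (hσ : L.Sec σ y)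
    (hs : ∀ n, s n ∈ (A n i).Γ) :
    Tendsto (fun n => deriv (fun t => s n ((w.E y n).symm t) / w.ε y n ((w.E y n).symm t) i) 0) U
      (𝓝 (deriv (L.loc σ y) 0)) := by
  obtain ⟨δ, hδ, a⟩ := w.fr y hy
  obtain ⟨r, hr, b⟩ := Metric.nhds_basis_closedBall.eventually_iff.1
    (((h y hy).and hσ.eventually_analyticAt).and (ball_mem_nhds (0 : ℂ) hδ))
  have c := tendstoUniformlyOn_of (U := U)
    (F := fun n t => s n ((w.E y n).symm t) / w.ε y n ((w.E y n).symm t) i)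
    (isCompact_closedBall (0 : ℂ) r) (fun t ht => (b ht).1.2.continuousAt.continuousWithinAt)
    fun t ht => (b ht).1.1
  exact ((c.mono ball_subset_closedBall).tendstoLocallyUniformlyOn.deriv
    (a.mono fun n hn t ht => by
      have d := (b (ball_subset_closedBall ht)).2
      exact (an_loc hn.1 (hn.2.1 d) (hs n _) (hn.2.2 t d i).1
        (hn.2.2 t d i).2).differentiableAt.differentiableWithinAt)
    isOpen_ball).tendsto_at (mem_ball_self hr)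

section

variable {W : Type} [TopologicalSpace W] [T2Space W] [CompactSpace W] {S : RS W} {ι J : Type}
  [Fintype ι] [DecidableEq ι] [Fintype J] {ch : Ch ι J} {A : ι → LB S} {π : W → V ch.M}
  {E : OpenPartialHomeomorph W ℂ} {ε : W → ι → ℂ}

variable (π E ε) in
/-- the branch in the chart `E` and the frames `ε` -/
noncomputable def bc (t : ℂ) : V ch.M := fun i j => π (E.symm t) i j / ε (E.symm t) i

theorem bc_eq {t : ℂ} (h0 : ∀ i, ε (E.symm t) i ≠ 0) :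
    π (E.symm t) = ε (E.symm t) • bc π E ε t :=
  funext₂ fun i _ => (mul_div_cancel₀ _ (h0 i)).symm

variable (hE : S.Cmp E) (ht : 0 ∈ E.target) (hs : ∀ i j, (fun y => π y i j) ∈ (A i).Γ)
  (hε : ∀ i, (A i).Sec (fun q => ε q i) (E.symm 0) ∧ ε (E.symm 0) i ≠ 0)
include hE ht hs hε

theorem an_bc (i : ι) (j : Fin (ch.M i)) : AnalyticAt ℂ (fun t => bc π E ε t i j) 0 :=
  an_loc (s := fun y => π y i j) hE ht (hs i j _) (hε i).1 (hε i).2

theorem deriv_bc : deriv (bc π E ε) 0 = fun i j => deriv (fun t => bc π E ε t i j) 0 := by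
  rw [deriv_pi fun i => (analyticAt_pi_iff.2 (an_bc hE ht hs hε i)).differentiableAt]
  exact funext fun i => deriv_pi fun j => (an_bc hE ht hs hε i j).differentiableAt

theorem wedge_bc (μ : Tn ch.M ch.slot) :
    Ch.wedge μ (π (E.symm 0)) (deriv (br A π (E.symm 0)) 0) =
      chr ch.bω (ε (E.symm 0)) * (ε (E.symm 0) ch.o * (ε (E.symm 0) ch.o * S.d E (E.symm 0))) ^
        ch.k * Ch.wedge μ (bc π E ε 0) (deriv (bc π E ε) 0) := by
  have a := E.map_target ht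
  have w := Xi.wedge_fac μ (γ := br A π (E.symm 0)) (β := bc π E ε)
    (s := fun τ i => (A i).loc (fun q => ε q i) (E.symm 0) τ)
    (φ := fun τ => E (S.i (E.symm 0) τ)) (t := 0)
    ((S.ev_iff.1 ((eventually_all.2 fun i => (hε i).1.ev_ne (hε i).2).and
      (E.open_source.mem_nhds a))).mono fun τ hτ => funext₂ fun i j => by
        simp only [br, bc, LB.loc, Dict.smul_ap, Pi.smul_apply, smul_eq_mul, E.left_inv hτ.2]
        field_simp [hτ.1 i])
    (analyticAt_pi_iff.2 fun i => (hε i).1) (hE _ a).1 (by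
      rw [S.i_zero, E.right_inv ht]
      exact analyticAt_pi_iff.2 fun i => analyticAt_pi_iff.2 (an_bc hE ht hs hε i))
  simp only [S.i_zero, E.right_inv ht, LB.loc_zero, br_zero] at w
  exact w

end

theorem chr_sub {ι : Type} [Fintype ι] {t : ι → ℂ} (ht : ∀ i, t i ≠ 0) (a b : ι → ℕ) :
    chr a t = (∏ i, t i ^ ((a i : ℤ) - b i)) * chr b t := by
  rw [chr, chr, ← Finset.prod_mul_distrib]
  exact Finset.prod_congr rfl fun i _ => by
    rw [← zpow_natCast, ← zpow_natCast, ← zpow_add₀ (ht i), sub_add_cancel]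

section

variable {W : Type} [TopologicalSpace W] [T2Space W] [CompactSpace W] {S : RS W} {ι J : Type}
  [Fintype ι] [DecidableEq ι] [Fintype J] {ch : Ch ι J} {A : ι → LB S} {π : W → V ch.M}
  {E : OpenPartialHomeomorph W ℂ} {ε : W → ι → ℂ} {N : Finset (W × W)} {v : ch.W ν}
  {u : W → ∀ l, ch.E l →L[ℂ] ℂ} {p : ν → W} {ξ : W → ℂ}

theorem val_bc (h0 : ∀ i, ε (E.symm 0) i ≠ 0) (g : ch.A ν) {a : ι → ℕ} (μ : Tens ch.M a) :
    val (Ch.sub g _ μ) (π (E.symm 0)) =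
      chr a (ε (E.symm 0)) * val μ (bc (fun z i => g.1 i (π z i)) E ε 0) := by
  rw [Ch.val_sub, ← Base.val_smul, ← bc_eq h0]

theorem Q_bc (h : Cr N A v π u p ξ) (h0 : ∀ i, ε (E.symm 0) i ≠ 0) (g : ch.A ν) (l : Option J)
    (μ : Tens ch.M (ch.a l)) : val μ (bc (fun z i => g.1 i (π z i)) E ε 0) =
      ((chr (ch.a l) (ε (E.symm 0)))⁻¹ • u (E.symm 0) l) (v.Q l (Ch.sub g _ μ)) := by
  rw [_root_.smul_apply, h.u_Q, val_bc h0, smul_eq_mul,
    inv_mul_cancel_left₀ (chr_ne_zero h0)]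

theorem X_bc (h0 : ∀ i, ε (E.symm 0) i ≠ 0) (g : ch.A ν) {j : J} {f : W → ℂ}
    (hf : ∀ y μ, u y (some j) (v.X j μ) = f y * val μ (π y)) (μ : Tens ch.M (ch.b j)) :
    (f (E.symm 0) / ∏ i, ε (E.symm 0) i ^ ((ch.a (some j) i : ℤ) - ch.b j i)) *
      val μ (bc (fun z i => g.1 i (π z i)) E ε 0) =
      ((chr (ch.a (some j)) (ε (E.symm 0)))⁻¹ • u (E.symm 0) (some j)) (v.X j (Ch.sub g _ μ)) := by
  have := chr_ne_zero (a := ch.b j) h0
  rw [_root_.smul_apply, hf, val_bc h0, smul_eq_mul, chr_sub h0 _ (ch.b j)]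
  field_simp

theorem Xi_bc (h : Cr N A v π u p ξ) (hE : S.Cmp E) (ht : 0 ∈ E.target)
    (hε : ∀ i, (A i).Sec (fun q => ε q i) (E.symm 0) ∧ ε (E.symm 0) i ≠ 0)
    (hx : Sm N (E.symm 0) ∧ ∀ a, p a ≠ E.symm 0) (g : ch.A ν) (μ : Tn ch.M ch.slot) :
    (ξ (E.symm 0) * S.d E (E.symm 0) ^ ch.k / ∏ i, ε (E.symm 0) i ^ ch.χ i) *
      Ch.wedge μ (bc (fun z i => g.1 i (π z i)) E ε 0)
        (deriv (bc (fun z i => g.1 i (π z i)) E ε) 0) =
      ((chr (ch.a none) (ε (E.symm 0)))⁻¹ • u (E.symm 0) none) (v.Ξ (Ch.sub g _ μ)) := by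
  have n1 := fun i => (hε i).2
  have n2 := chr_ne_zero (a := ch.bω) n1
  have n3 := n1 ch.o
  rw [_root_.smul_apply, h.Xi, ← wsec_lin h.par.sec, wsec,
    if_pos ⟨hx.1, by simpa using hx.2⟩, one_pow, one_mul, chr_χ _ n1,
    wedge_bc (π := fun z i => g.1 i (π z i)) hE ht (fun i j =>
      (lin_mem h.par.sec i ((.proj j : (_ → ℂ) →L[ℂ] ℂ) ∘L g.1 i)).1) hε, smul_eq_mul]
  simp only [mul_pow]
  field_simp

theorem t_ne (h : Cr N A v π u p ξ) {a : ν} {t : ι → ℂ} (ht : v.p a = t • π (p a)) (i : ι) :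
    t i ≠ 0 :=
  let ⟨_, b, d⟩ := h.mark a
  Dict.smul_cancel (h.par.ne _) (d.symm.trans ht) ▸ b i

open Classical in
theorem fin_bad (N : Finset (W × W)) (p : ν → W) {G : Set W} (hG : Gᶜ.Finite) :
    {y | y ∈ G ∧ Sm N y ∧ y ∉ Finset.univ.image p}ᶜ.Finite :=
  (hG.union (((N.finite_toSet.image Prod.fst).union (N.finite_toSet.image Prod.snd)).union
    (Finset.univ.image p).finite_toSet)).subset fun y hy => by_contra fun a => by
      simp only [mem_union, not_or, mem_compl_iff, not_not] at a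
      exact hy ⟨a.1, fun n hn => ⟨fun b => a.2.1.1 ⟨n, hn, b⟩, fun b => a.2.1.2 ⟨n, hn, b⟩⟩, a.2.2⟩

end

section

variable {ι J : Type} [Fintype ι] [DecidableEq ι] [Fintype J] {ch : Ch ι J}
  {A : ∀ n, ι → LB (R n)} {A' : ι → LB Q} {π : ∀ n, X n → V ch.M} {π' : Y → V ch.M}
  {w : Wk U R Q A}

theorem fr (hy : y ∈ w.Gd) : ∀ᶠ n in U, (R n).Cmp (w.E y n) ∧ 0 ∈ (w.E y n).target ∧ ∀ i,
    (A n i).Sec (fun q => w.ε y n q i) (w.c y n) ∧ w.ε y n (w.c y n) i ≠ 0 :=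
  let ⟨_, a, b⟩ := w.fr y hy
  b.mono fun _ d => ⟨d.1, d.2.1 (mem_ball_self a), d.2.2 0 (mem_ball_self a)⟩

theorem cv_bc (h : ∀ i j, w.Cv i (A' i) (fun n z => π n z i j) fun z => π' z i j) (hy : y ∈ w.Gd) :
    Tendsto (fun n => bc (π n) (w.E y n) (w.ε y n) 0) U (𝓝 (π' y)) :=
  tendsto_pi_nhds.2 fun i => tendsto_pi_nhds.2 fun j => cv_c (h i j) hy

theorem cv_bc' (h : ∀ i j, w.Cv i (A' i) (fun n z => π n z i j) fun z => π' z i j) (hy : y ∈ w.Gd)
    (hs : ∀ n i j, (fun z => π n z i j) ∈ (A n i).Γ)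
    (hs' : ∀ i j, (fun z => π' z i j) ∈ H0 N₁ (A' i)) :
    Tendsto (fun n => deriv (bc (π n) (w.E y n) (w.ε y n)) 0) U (𝓝 (deriv (br A' π' y) 0)) := by
  rw [show deriv (br A' π' y) 0 = fun i j => deriv (fun t => br A' π' y t i j) 0 from by
    have a := analyticAt_pi_iff.1 (an_br hs' y)
    rw [deriv_pi fun i => (a i).differentiableAt]
    exact funext fun i => deriv_pi fun j => (analyticAt_pi_iff.1 (a i) j).differentiableAt]
  exact (tendsto_pi_nhds.2 fun i => tendsto_pi_nhds.2 fun j => cv_deriv (h i j) hy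
    ((hs' i j).1 y) fun n => hs n i j).congr' ((fr hy).mono fun n a =>
      (deriv_bc a.1 a.2.1 (hs n) a.2.2).symm)

theorem tendsto_W {v : ℕ → ch.W ν} {v' : ch.W ν}
    (h1 : ∀ l μ, Tendsto (fun n => (v n).Q l μ) U (𝓝 (v'.Q l μ)))
    (h2 : ∀ a i j, Tendsto (fun n => (v n).p a i j) U (𝓝 (v'.p a i j)))
    (h3 : ∀ μ, Tendsto (fun n => (v n).Ξ μ) U (𝓝 (v'.Ξ μ)))
    (h4 : ∀ j μ, Tendsto (fun n => (v n).X j μ) U (𝓝 (v'.X j μ))) : Tendsto v U (𝓝 v') :=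
  Tendsto.prodMk_nhds (tendsto_pi_nhds.2 fun l => tendsto_clm (h1 l))
    (Tendsto.prodMk_nhds (tendsto_pi_nhds.2 fun a => tendsto_pi_nhds.2 fun i =>
      tendsto_pi_nhds.2 (h2 a i)) (Tendsto.prodMk_nhds (tendsto_clm h3)
        (tendsto_pi_nhds.2 fun j => tendsto_clm (h4 j))))

end

end ConvP

open ConvP Base

theorem Wk.LS.lift {ι : Type} {A : ∀ n, ι → LB (R n)} {w : Wk U R Q A} {η : ℕ → ν → ι → ℂ}
    {A' : ι → LB Q} (h : w.LS N pm η A' N₁ p₀) {i : ι}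
    (hd : ∀ᶠ n in U, finrank ℂ (H0 (N n) (A n i)) = finrank ℂ (H0 N₁ (A' i)))
    (hσ : σ ∈ H0 N₁ (A' i)) : ∃ s : ∀ n, X n → ℂ, (∀ n, s n ∈ H0 (N n) (A n i)) ∧
      w.Cv i (A' i) s σ ∧ ∀ a, Tendsto (fun n => s n (pm n a) / η n a i) U (𝓝 (σ (p₀ a))) := by
  by_cases h0 : σ = 0
  · subst h0
    exact ⟨0, fun _ => zero_mem _, fun y _ => .of_forall fun t _ _ => by simp [LB.loc],
      fun a => by simp⟩
  obtain ⟨m, y, c, hy, hc⟩ := pts (fun y => LinearMap.proj y ∘ₗ (H0 N₁ (A' i)).subtype)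
    (G := w.Gd) fun e he => Subtype.ext (funext (dense w.fin e.2.1 he))
  let T : ∀ n, H0 (N n) (A n i) →ₗ[ℂ] H0 N₁ (A' i) := fun n => ∑ a,
    ((w.ε (y a) n (w.c (y a) n) i)⁻¹ •
      (LinearMap.proj (w.c (y a) n) ∘ₗ (H0 (N n) (A n i)).subtype)).smulRight (c a)
  have key : ∀ s : ∀ n, H0 (N n) (A n i), (∀ᶠ n in U, s n ≠ 0) → ∃ (l : ℕ → ℂ) (σ' : Y → ℂ),
      σ' ≠ 0 ∧ w.Cv i (A' i) (fun n => l n • (s n).1) σ' ∧
      (∀ a, Tendsto (fun n => l n * (s n).1 (pm n a) / η n a i) U (𝓝 (σ' (p₀ a)))) ∧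
      ∀ z, Tendsto (fun n => l n * (T n (s n)).1 z) U (𝓝 (σ' z)) := fun s hs => by
    obtain ⟨l, σ', a, b, d, e⟩ := h i (fun n => (s n).1)
      (hs.mono fun n hn => ⟨(s n).2, fun f => hn (Subtype.ext f)⟩)
    refine ⟨l, σ', b, d, e, fun z => ?_⟩
    have := tendsto_finsetSum Finset.univ fun a _ => (cv_c d (hy a)).mul_const ((c a).1 z)
    convert this using 2
    · simp [T, Finset.mul_sum, div_eq_mul_inv, mul_comm, mul_left_comm]
    · simpa using (congrFun (congrArg Subtype.val (hc ⟨σ', a⟩)) z).symm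
  have inj : ∀ᶠ n in U, Injective (T n) := by
    by_contra a
    obtain ⟨s, hs⟩ := choice (P := fun n (s : H0 (N n) (A n i)) => T n s = 0 ∧ s ≠ 0)
      ((Ultrafilter.eventually_not.2 a).mono fun n hn => by
        simpa [injective_iff_map_eq_zero] using hn)
    obtain ⟨l, σ', b, -, -, d⟩ := key s (hs.mono fun n hn => hn.2)
    exact b (funext fun z => tendsto_nhds_unique (d z) (tendsto_const_nhds.congr'
      (hs.mono fun n hn => by simp [hn.1])))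
  obtain ⟨s, hs⟩ := choice (P := fun n (s : H0 (N n) (A n i)) => T n s = ⟨σ, hσ⟩)
    ((inj.and hd).mono fun n hn =>
      (LinearMap.injective_iff_surjective_of_finrank_eq_finrank hn.2).1 hn.1 _)
  obtain ⟨l, σ', b, d, e, f⟩ := key s (hs.mono fun n hn a => h0 (by
    rw [a, map_zero] at hn
    exact (congrArg Subtype.val hn).symm))
  obtain ⟨z, hz⟩ := ne_iff.1 h0
  replace f : ∀ z, Tendsto (fun n => l n * σ z) U (𝓝 (σ' z)) := fun z =>
    (f z).congr' (hs.mono fun n hn => by simp only [hn])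
  have l1 : Tendsto l U (𝓝 (σ' z / σ z)) :=
    ((f z).div_const (σ z)).congr fun n => mul_div_cancel_right₀ _ hz
  generalize σ' z / σ z = k at l1
  obtain rfl : σ' = k • σ := funext fun v => tendsto_nhds_unique (f v) (l1.mul_const _)
  have k0 : k ≠ 0 := left_ne_zero_of_smul b
  have k1 : ∀ {F G : ℕ → ℂ} {v : ℂ}, Tendsto (fun n => l n * F n / G n) U (𝓝 (k * v)) →
      Tendsto (fun n => F n / G n) U (𝓝 v) := fun {F G v} a => by
    have := a.div l1 k0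
    rw [mul_div_cancel_left₀ _ k0] at this
    exact this.congr' ((l1.eventually_ne k0).mono fun n hn => by
      simp only [Pi.div_apply]
      rw [mul_div_assoc, mul_div_cancel_left₀ _ hn])
  refine ⟨fun n => (s n).1, fun n => (s n).2, fun y hy => (d y hy).mono fun t a t' ht => k1 ?_,
    fun a => k1 (e a)⟩
  have := a t' ht
  rwa [LB.loc_smul] at this

theorem ConvP.exists_S {ι J : Type} [Fintype ι] [DecidableEq ι] [Fintype J] {ch : Ch ι J}
    (hM : ∀ i, (ch.M i : ℤ) = ch.m i + 1 - ch.g) {v : ℕ → ch.W ν}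
    {v' : ch.W ν} {A : ∀ n, ι → LB (R n)} {A' : ι → LB Q} {π : ∀ n, X n → V ch.M}
    {π' : Y → V ch.M} {u : ∀ n, X n → ∀ l, ch.E l →L[ℂ] ℂ} {u' : Y → ∀ l, ch.E l →L[ℂ] ℂ}
    {ξ : ∀ n, X n → ℂ} {ξ' : Y → ℂ}
    (h : ∀ n, Cr (N n) (A n) (v n) (π n) (u n) (pm n) (ξ n)) (h' : Cr N₁ A' v' π' u' p₀ ξ')
    {w : Wk U R Q A} {η : ℕ → ν → ι → ℂ} (ls : w.LS N pm η A' N₁ p₀) :
    ∃ S : ℕ → ∀ i, (Fin (ch.M i) → ℂ) →L[ℂ] Fin (ch.M i) → ℂ,
      (∀ i j, w.Cv i (A' i) (fun n z => S n i (π n z i) j) fun z => π' z i j) ∧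
      (∀ a i j, Tendsto (fun n => S n i (π n (pm n a) i) j / η n a i) U (𝓝 (π' (p₀ a) i j))) ∧
      ∀ᶠ n in U, ∀ i, IsUnit (S n i) := by
  choose s s1 s2 s3 using fun i j => ls.lift (i := i) (.of_forall fun n => by
    exact_mod_cast ((h n).par.finrank_one (h n).cur i).trans (h'.par.finrank_one h'.cur i).symm)
      (h'.par.sec i j)
  choose S hS using fun n i => exists_lift_vec (v := fun y => π n y i) (w := fun y j => s i j n y)
    fun j => (h n).full.span i _ (s1 i j n)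
  refine ⟨S, by simpa only [hS] using s2, fun a i j => by simpa only [hS] using s3 i j a,
    eventually_all.2 fun i => ev_unit fun l a => h'.full.eq_zero
      (by exact_mod_cast (h'.par.finrank_one h'.cur i).trans (hM i).symm)
        (dense w.fin (lin_mem h'.par.sec i l).1 fun y hy => a
          (fun n => (w.ε y n (w.c y n) i)⁻¹ • π n (w.c y n) i) _ (tendsto_pi_nhds.2 fun j => ?_))⟩
  refine (cv_c (s2 i j) hy).congr fun n => ?_
  rw [map_smul, hS]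
  exact div_eq_inv_mul _ _

set_option linter.unusedVariables false in
theorem conv {ι J : Type} [Fintype ι] [DecidableEq ι] [Fintype J] {ch : Ch ι J}
    (ha : ∀ l, ch.a l ≠ 0) (hM : ∀ i, (ch.M i : ℤ) = ch.m i + 1 - ch.g) {v : ℕ → ch.W ν}
    {v' : ch.W ν} {A : ∀ n, ι → LB (R n)} {A' : ι → LB Q} {π : ∀ n, X n → V ch.M}
    {π' : Y → V ch.M} {u : ∀ n, X n → ∀ l, ch.E l →L[ℂ] ℂ} {u' : Y → ∀ l, ch.E l →L[ℂ] ℂ}
    {ξ : ∀ n, X n → ℂ} {ξ' : Y → ℂ}
    (h : ∀ n, Cr (N n) (A n) (v n) (π n) (u n) (pm n) (ξ n)) (h' : Cr N₁ A' v' π' u' p₀ ξ')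
    (w : Wk U R Q A) {η : ℕ → ν → ι → ℂ} (hη : ∀ n a i, η n a i ≠ 0)
    (ls : w.LS N pm η A' N₁ p₀)
    (hg : ∀ y ∈ w.Gd, ∀ᶠ n in U, Sm (N n) (w.c y n) ∧ ∀ a, pm n a ≠ w.c y n)
    (hξ : ∀ y ∈ w.Gd, Tendsto (fun n => ξ n (w.c y n) * (R n).d (w.E y n) (w.c y n) ^ ch.k /
      ∏ i, w.ε y n (w.c y n) i ^ ch.χ i) U (𝓝 (ξ' y)))
    {f : ∀ n, J → X n → ℂ} {f' : J → Y → ℂ}
    (hf : ∀ n j y μ, u n y (some j) ((v n).X j μ) = f n j y * val μ (π n y))
    (hf' : ∀ j y μ, u' y (some j) (v'.X j μ) = f' j y * val μ (π' y))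
    (cf : ∀ j, ∀ y ∈ w.Gd, Tendsto (fun n => f n j (w.c y n) /
      ∏ i, w.ε y n (w.c y n) i ^ ((ch.a (some j) i : ℤ) - ch.b j i)) U (𝓝 (f' j y)))
    {t : ℕ → ν → ι → ℂ} {t' : ν → ι → ℂ} (ht : ∀ n a, (v n).p a = t n a • π n (pm n a))
    (ht' : ∀ a, v'.p a = t' a • π' (p₀ a)) :
    ∃ g : ℕ → ch.A ν, (∀ n, IsUnit (g n)) ∧
      (∀ n a i, (g n).2.2 a i = t' a i / (t n a i * η n a i)) ∧
      Tendsto (fun n => Ch.act (g n) (v n)) U (𝓝 v') := by
  classical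
  obtain ⟨S, s2, s3, s4⟩ := exists_S hM h h' ls
  choose T key using fun l => exists_T (U := U) (u' := fun y => u' y l) (fun e he =>
    h'.u_inj (dense (fin_bad N₁ p₀ w.fin) (h'.u_mem l e).1 he))
      fun y n => (chr (ch.a l) (w.ε y n (w.c y n)))⁻¹ • u n (w.c y n) l
  obtain ⟨g, g1, g2, g3⟩ : ∃ g : ℕ → ch.A ν, (∀ n, (g n).1 = S n) ∧ (∀ n l, (g n).2.1 l = T l n) ∧
      ∀ n a i, (g n).2.2 a i = t' a i / (t n a i * η n a i) :=
    ⟨fun n => (S n, fun l => T l n, fun a i => t' a i / (t n a i * η n a i)),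
      fun _ => rfl, fun _ _ => rfl, fun _ _ _ => rfl⟩
  simp only [← g1, ← g2] at s2 s3 s4 key
  have b2 := fun y hy (a : ι → ℕ) (μ : Tens ch.M a) =>
    (analyticAt_val μ _).continuousAt.tendsto.comp (cv_bc (π := fun n z i => (g n).1 i (π n z i)) (y := y) s2 hy)
  have cQ : ∀ l μ, Tendsto (fun n => (g n).2.1 l ((v n).Q l (Ch.sub (g n) _ μ))) U
      (𝓝 (v'.Q l μ)) := fun l μ => key l _ _ fun y hy => by
    rw [h'.u_Q]
    exact (b2 y hy.1 _ μ).congr' ((fr hy.1).mono fun n a =>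
      Q_bc (h n) (fun i => (a.2.2 i).2) (g n) l μ)
  have g4 : ∀ n a i, (g n).2.2 a i ≠ 0 := fun n a i => g3 n a i ▸
    div_ne_zero (t_ne h' (ht' a) i) (mul_ne_zero (t_ne (h n) (ht n a) i) (hη n a i))
  have un : ∀ᶠ n in U, IsUnit (g n) :=
    (s4.and (eventually_all.2 fun l => ev_unit (T := fun n => (g n).2.1 l) fun k a =>
      ContinuousLinearMap.ext ((h'.mem.1 l).forall.2 fun μ => a _ _ (cQ l μ)))).mono fun n a =>
        isUnit_iff.2 ⟨a.1, a.2, g4 n⟩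
  refine ⟨fun n => if IsUnit (g n) then g n else (1, 1, (g n).2.2), fun n => ?_, fun n a i => ?_,
    Tendsto.congr' (f₁ := fun n => Ch.act (g n) (v n)) (un.mono fun n a => by simp only [if_pos a])
      (tendsto_W cQ (fun a i j => ?_) (fun μ => key none _ _ fun y hy => ?_)
        fun j μ => key (some j) _ _ fun y hy => ?_)⟩
  · beta_reduce
    split_ifs with a
    exacts [a, isUnit_iff.2 ⟨fun _ => isUnit_one, fun _ => isUnit_one, g4 n⟩]
  · beta_reduce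
    split_ifs <;> exact g3 n a i
  · rw [ht']
    refine ((s3 a i j).const_mul (t' a i)).congr fun n => ?_
    change _ = (g n).2.2 a i * (g n).1 i ((v n).p a i) j
    rw [g3, ht, Dict.smul_ap, map_smul, Pi.smul_apply, smul_eq_mul]
    field_simp [t_ne (h n) (ht n a) i]
  · rw [h'.Xi, wsec, if_pos hy.2, one_pow, one_mul]
    exact ((hξ y hy.1).mul (Ch.tendsto_wedge tendsto_const_nhds
      (cv_bc (π := fun n z i => (g n).1 i (π n z i)) s2 hy.1)
      (cv_bc' (π := fun n z i => (g n).1 i (π n z i)) s2 hy.1 (fun n i j =>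
        (lin_mem (h n).par.sec i ((.proj j : (_ → ℂ) →L[ℂ] ℂ) ∘L (g n).1 i)).1) h'.par.sec))).congr'
      (((hg y hy.1).and (fr hy.1)).mono fun n a => Xi_bc (h n) a.2.1 a.2.2.1 a.2.2.2 a.1 (g n) μ)
  · rw [hf']
    exact ((cf j y hy.1).mul (b2 y hy.1 _ μ)).congr' ((fr hy.1).mono fun n a =>
      X_bc (fun i => (a.2.2 i).2) (g n) (hf n j) μ)

end Vale.Agent.P269.Cpt
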