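import Vale.Agent.P269.Cpt.Defs
import Vale.Agent.P269.Holo.Osg

/-!
# Finite coverings of discs and annuli are cyclic
-/

set_option linter.unusedSectionVars false

namespace Vale.Agent.P269.Cpt

open Set Function Topology Filter Metric Module Vale.Agent.P269.Cv

namespace CovP

open Complex

/-! ### The strip -/

/-- the universal covering of the punctured disc or of the annulus -/
def strip (τ : ℂ) (r : ℝ) : Set ℂ := {s | exp s ∈ ann τ r}

variable {τ : ℂ} {r : ℝ}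

theorem isOpen_ann (τ : ℂ) (r : ℝ) : IsOpen (ann τ r) := by
  refine (isOpen_lt continuous_norm continuous_const).inter (s := {z : ℂ | ‖z‖ < r})
    (t := {z : ℂ | τ = 0 ∨ ‖τ‖ < r * ‖z‖}) ?_
  by_cases h : τ = 0
  · simp [h]
  · simp only [h, false_or]
    exact isOpen_lt continuous_const (continuous_const.mul continuous_norm)

theorem isOpen_strip (τ : ℂ) (r : ℝ) : IsOpen (strip τ r) :=
  (isOpen_ann τ r).preimage continuous_exp

theorem convex_strip (hr : 0 < r) : Convex ℝ (strip τ r) := by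
  have h : OrdConnected {x : ℝ | Real.exp x < r ∧ (τ = 0 ∨ ‖τ‖ < r * Real.exp x)} :=
    ⟨fun x hx y hy z hz => ⟨(Real.exp_le_exp.2 hz.2).trans_lt hy.1, hx.2.imp_right fun a =>
      a.trans_le (mul_le_mul_of_nonneg_left (Real.exp_le_exp.2 hz.1) hr.le)⟩⟩
  have e : strip τ r =
      reLm ⁻¹' {x : ℝ | Real.exp x < r ∧ (τ = 0 ∨ ‖τ‖ < r * Real.exp x)} := by
    ext s
    simp [strip, ann, norm_exp]
  rw [e]
  exact h.convex.linear_preimage reLm

theorem strip_ne (hr : 0 < r) (hτ : ‖τ‖ < r ^ 2) : (strip τ r).Nonempty := by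
  have h1 : ‖τ‖ / r < r := by rwa [div_lt_iff₀ hr, ← sq]
  obtain ⟨ρ, h2, h3⟩ := exists_between h1
  have h4 : 0 < ρ := (div_nonneg (norm_nonneg _) hr.le).trans_lt h2
  refine ⟨(Real.log ρ : ℝ), ?_⟩
  have : ‖exp (Real.log ρ : ℝ)‖ = ρ := by rw [norm_exp, ofReal_re, Real.exp_log h4]
  refine ⟨by rwa [this], Or.inr ?_⟩
  rwa [this, mul_comm, ← div_lt_iff₀ hr]

theorem strip_add {s : ℂ} (h : s ∈ strip τ r) (n : ℤ) : s + n * (2 * Real.pi * I) ∈ strip τ r := by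
  have : exp (s + n * (2 * Real.pi * I)) = exp s := exp_eq_exp_iff_exists_int.2 ⟨n, rfl⟩
  simpa only [strip, mem_ofPred_eq, this] using h

theorem punct_conn {ρ : ℝ} (hρ : 0 < ρ) : IsPreconnected (ball (0 : ℂ) ρ \ {0}) := by
  have e : ball (0 : ℂ) ρ \ {0} = exp '' strip 0 ρ := by
    ext t
    constructor
    · rintro ⟨h1, h2⟩
      refine ⟨log t, ?_, exp_log h2⟩
      rw [strip, mem_ofPred_eq, exp_log h2]
      exact ⟨mem_ball_zero_iff.1 h1, Or.inl rfl⟩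
    · rintro ⟨s, hs, rfl⟩
      exact ⟨mem_ball_zero_iff.2 hs.1, exp_ne_zero s⟩
  rw [e]
  exact (convex_strip hρ).isPreconnected.image _ continuous_exp.continuousOn

/-! ### Local structure of holomorphic functions -/

variable {W : Type} [TopologicalSpace W] {S : RS W} {g : W → ℂ} {w : W}

theorem exists_chart (h : S.Hol g w) (hd : S.d g w ≠ 0) :
    ∃ φ : OpenPartialHomeomorph W ℂ, w ∈ φ.source ∧ EqOn g φ φ.source := by
  have h1 := (AnalyticAt.hasStrictDerivAt h).hasStrictFDerivAt_equiv hd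
  refine ⟨(S.e w).trans (h1.toOpenPartialHomeomorph _), ⟨S.mem w, ?_⟩, fun y hy => ?_⟩
  · have := mem_of_eq_of_mem (S.zero w) h1.mem_toOpenPartialHomeomorph_source
    exact this
  · exact (congrArg g (S.i_e hy.1)).symm

theorem open_at (h : S.Hol g w) (hn : ∀ᶠ y in 𝓝[≠] w, g y ≠ g w) : 𝓝 (g w) ≤ map g (𝓝 w) := by
  have h1 := (AnalyticAt.eventually_constant_or_nhds_le_map_nhds h).resolve_left fun hc => by
    have := S.neBot w
    rw [S.i_zero] at hc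
    obtain ⟨y, a, b⟩ := (hn.and ((S.ev_iff (p := fun y => g y = g w)).2 hc |>.filter_mono
      nhdsWithin_le_nhds)).exists
    exact a b
  rw [S.i_zero] at h1
  rw [← S.map_i w, map_map]
  exact h1

theorem mk_chart [Nonempty W] {U : Set W} (hU : IsOpen U) (h : ∀ w ∈ U, S.Hol g w)
    (hi : InjOn g U) : ∃ E : OpenPartialHomeomorph W ℂ,
      E.source = U ∧ E.target = g '' U ∧ (E : W → ℂ) = g ∧ S.Cmp E := by
  refine ⟨OpenPartialHomeomorph.ofContinuousOpenRestrict (hi.toPartialEquiv g U)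
    (fun w hw => (h w hw).continuousAt.continuousWithinAt)
    (IsOpenMap.of_nhds_le fun x => ?_) hU, rfl, rfl, rfl, fun w hw => ⟨h w hw, ?_⟩⟩
  · have h1 := open_at (h x.1 x.2) (by
      filter_upwards [self_mem_nhdsWithin, mem_nhdsWithin_of_mem_nhds (hU.mem_nhds x.2)]
        with y a b c using a (hi b x.2 c))
    rw [← hU.isOpenEmbedding_subtypeVal.map_nhds_eq x, map_map] at h1
    exact h1
  · refine Holo.Osg.one (h w hw) ⟨_, (S.tgt_nhds w).and (S.tends_i w (hU.mem_nhds hw)),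
      fun a ha b hb e => ?_⟩
    exact (S.e w).symm.injOn ha.1 hb.1 (hi ha.2 hb.2 e)

/-! ### Lifts of the exponential -/

/-- the hypotheses -/
structure Hy (S : RS W) (Ω : Set W) (f : W → ℂ) (τ : ℂ) (r : ℝ) (m : ℕ) : Prop where
  hΩ : IsOpen Ω
  hr : 0 < r
  hτ : ‖τ‖ < r ^ 2
  hol : ∀ w ∈ Ω, S.Hol f w
  maps : ∀ w ∈ Ω, f w ∈ ann τ r
  prop : ∀ K ⊆ ann τ r, IsCompact K → IsCompact (Ω ∩ f ⁻¹' K)
  unr : ∀ w ∈ Ω, f w ≠ 0 → S.d f w ≠ 0
  fib : ∀ v, (Ω ∩ f ⁻¹' {v}).encard ≤ m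

/-- a lift of the exponential -/
structure Lf (Ω : Set W) (f : W → ℂ) (τ : ℂ) (r : ℝ) (F : ℂ → W) : Prop where
  cont : ContinuousOn F (strip τ r)
  mem : ∀ s ∈ strip τ r, F s ∈ Ω
  eq : ∀ s ∈ strip τ r, f (F s) = exp s

variable [T2Space W] {Ω : Set W} {f : W → ℂ} {m : ℕ} {F F' : ℂ → W} {s s' : ℂ}

theorem Lf.shift (h : Lf Ω f τ r F) (n : ℤ) :
    Lf Ω f τ r fun s => F (s + n * (2 * Real.pi * I)) :=
  ⟨h.cont.comp (by fun_prop) fun _ hs => strip_add hs n, fun _ hs => h.mem _ (strip_add hs n),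
    fun _ hs => (h.eq _ (strip_add hs n)).trans (exp_eq_exp_iff_exists_int.2 ⟨n, rfl⟩)⟩

namespace Hy

variable (H : Hy S Ω f τ r m)
include H

theorem fin (v : ℂ) : (Ω ∩ f ⁻¹' {v}).Finite := finite_of_encard_le_coe (H.fib v)

/-- the map of subtypes -/
def p : Ω → ann τ r := fun w => ⟨f w, H.maps w w.2⟩

theorem cont : Continuous H.p :=
  Continuous.subtype_mk (continuousOn_iff_continuous_domRestrict.1 fun w hw =>
    (H.hol w hw).continuousAt.continuousWithinAt) _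

theorem cov : IsCoveringMapOn H.p {v | v.1 ≠ 0} := by
  have := (isOpen_ann τ r).locallyCompactSpace
  have h1 : IsProperMap H.p := isProperMap_iff_isCompact_preimage.2 ⟨H.cont, fun K hK => by
    have h2 := H.prop (Subtype.val '' K) (Subtype.coe_image_subset _ _)
      (hK.image continuous_subtype_val)
    rw [Topology.IsEmbedding.subtypeVal.isCompact_iff]
    convert h2 using 1
    ext w
    constructor
    · rintro ⟨x, hx, rfl⟩
      exact ⟨x.2, _, hx, rfl⟩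
    · rintro ⟨a, v, hv, e⟩
      refine ⟨⟨w, a⟩, ?_, rfl⟩
      have : H.p ⟨w, a⟩ = v := Subtype.ext e.symm
      rwa [mem_preimage, this]⟩
  refine h1.isClosedMap.isCoveringMapOn_of_isLocalHomeomorphOn (fun v _ => ?_) ?_
  · refine Finite.of_finite_image ((H.fin v).subset ?_) Subtype.val_injective.injOn
    rintro _ ⟨x, hx, rfl⟩
    exact ⟨x.2, congrArg Subtype.val hx⟩
  · have h2 : IsLocalHomeomorphOn f {w | w ∈ Ω ∧ f w ≠ 0} :=
      IsLocalHomeomorphOn.mk _ _ fun w hw => exists_chart (H.hol w hw.1) (H.unr w hw.1 hw.2)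
    refine IsLocalHomeomorphOn.of_comp_left (g := Subtype.val) ?_
      ((isOpen_ann τ r).isOpenEmbedding_subtypeVal.isLocalHomeomorph.isLocalHomeomorphOn)
      fun _ _ => H.cont.continuousAt
    exact h2.comp (f := (Subtype.val : Ω → W))
      (H.hΩ.isOpenEmbedding_subtypeVal.isLocalHomeomorph.isLocalHomeomorphOn)
      fun x hx => ⟨x.2, hx⟩

theorem exU (hs : s ∈ strip τ r) (hw : w ∈ Ω) (e : f w = exp s) :
    ∃! G : C(strip τ r, Ω), G ⟨s, hs⟩ = ⟨w, hw⟩ ∧ ∀ a, f (G a) = exp a := by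
  have := (convex_strip (τ := τ) H.hr).contractibleSpace ⟨s, hs⟩
  have := (convex_strip (τ := τ) H.hr).locallyPathConnectedSpace
  have h := H.cov.existsUnique_continuousMap_lifts (A := strip τ r)
    ⟨fun a => ⟨exp a, a.2⟩, by fun_prop⟩ (a₀ := ⟨s, hs⟩) (e₀ := ⟨w, hw⟩) (Subtype.ext e)
    fun a => exp_ne_zero _
  refine (existsUnique_congr fun G => and_congr_right fun _ => ?_).1 h
  exact ⟨fun a x => congrArg Subtype.val (congrFun a x), fun a => funext fun x => Subtype.ext (a x)⟩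

theorem exists_lift (hs : s ∈ strip τ r) (hw : w ∈ Ω) (e : f w = exp s) :
    ∃ F, Lf Ω f τ r F ∧ F s = w := by
  classical
  obtain ⟨G, ⟨h1, h2⟩, -⟩ := H.exU hs hw e
  refine ⟨fun t => if h : t ∈ strip τ r then G ⟨t, h⟩ else w, ⟨?_, fun t ht => ?_, fun t ht => ?_⟩,
    ?_⟩
  · rw [continuousOn_iff_continuous_domRestrict]
    convert continuous_subtype_val.comp G.continuous using 1
    funext a
    exact dif_pos a.2
  · simp only [dif_pos ht]
    exact (G _).2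
  · simp only [dif_pos ht]
    exact h2 _
  · simp only [dif_pos hs, h1]

theorem uniq (h : Lf Ω f τ r F) (h' : Lf Ω f τ r F') (hs : s ∈ strip τ r) (e : F s = F' s) :
    EqOn F F' (strip τ r) := fun t ht => by
  have := (H.exU hs (h.mem s hs) (h.eq s hs)).unique
    (y₁ := ⟨fun a => ⟨F a, h.mem a a.2⟩,
      (continuousOn_iff_continuous_domRestrict.1 h.cont).subtype_mk _⟩)
    (y₂ := ⟨fun a => ⟨F' a, h'.mem a a.2⟩,
      (continuousOn_iff_continuous_domRestrict.1 h'.cont).subtype_mk _⟩)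
    ⟨rfl, fun a => h.eq a a.2⟩ ⟨Subtype.ext e.symm, fun a => h'.eq a a.2⟩
  exact congrArg Subtype.val (DFunLike.congr_fun this ⟨t, ht⟩)

theorem shift_of_eq (h : Lf Ω f τ r F) (h' : Lf Ω f τ r F') (hs : s ∈ strip τ r)
    (hs' : s' ∈ strip τ r) (e : F s = F' s') : ∃ n : ℤ, s' = s + n * (2 * Real.pi * I) ∧
      ∀ t ∈ strip τ r, F t = F' (t + n * (2 * Real.pi * I)) := by
  obtain ⟨n, hn⟩ := exp_eq_exp_iff_exists_int.1
    ((h'.eq s' hs').symm.trans ((congrArg f e.symm).trans (h.eq s hs)))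
  exact ⟨n, hn, H.uniq h (h'.shift n) hs (by rw [e, hn])⟩

theorem image_eq (h : Lf Ω f τ r F) (h' : Lf Ω f τ r F') (h1 : w ∈ F '' strip τ r)
    (h2 : w ∈ F' '' strip τ r) : F '' strip τ r = F' '' strip τ r := by
  obtain ⟨s, hs, e⟩ := h1
  obtain ⟨s', hs', e'⟩ := h2
  obtain ⟨n, -, hn⟩ := H.shift_of_eq h h' hs hs' (e.trans e'.symm)
  obtain ⟨n', -, hn'⟩ := H.shift_of_eq h' h hs' hs (e'.trans e.symm)
  exact Subset.antisymm (image_subset_iff.2 fun t ht => ⟨_, strip_add ht n, (hn t ht).symm⟩)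
    (image_subset_iff.2 fun t ht => ⟨_, strip_add ht n', (hn' t ht).symm⟩)

theorem period (h : Lf Ω f τ r F) : ∃ k : ℕ, 1 ≤ k ∧ k ≤ m ∧ ∀ s ∈ strip τ r, ∀ s' ∈ strip τ r,
    F s = F s' ↔ exp (s / k) = exp (s' / k) := by
  let P : AddSubgroup ℤ :=
    { carrier := {n | ∀ t ∈ strip τ r, F t = F (t + n * (2 * Real.pi * I))}
      zero_mem' := fun t _ => by simp
      add_mem' := fun {a b} ha hb t ht => by
        rw [ha t ht, hb _ (strip_add ht a)]
        congr 1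
        push_cast
        ring
      neg_mem' := fun {a} ha t ht => by
        rw [ha _ (strip_add ht (-a))]
        congr 1
        push_cast
        ring }
  obtain ⟨a, ha⟩ := Int.subgroup_cyclic P
  have hP : ∀ n : ℤ, n ∈ P ↔ (a.natAbs : ℤ) ∣ n := fun n => by
    rw [ha, ← AddSubgroup.zmultiples_eq_closure, Int.mem_zmultiples_iff, Int.natAbs_dvd]
  have h2 : (2 * Real.pi * I : ℂ) ≠ 0 := two_pi_I_ne_zero
  obtain ⟨s0, hs0⟩ := strip_ne H.hr H.hτ
  obtain ⟨j, hj0, hjm, hj⟩ : ∃ j : ℤ, j ≠ 0 ∧ j.natAbs ≤ m ∧ j ∈ P := by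
    by_contra hc
    push Not at hc
    have hi : Injective fun i : Fin (m + 1) => F (s0 + ((i : ℕ) : ℤ) * (2 * Real.pi * I)) :=
      fun i i' e => by
        obtain ⟨n, h3, h4⟩ := H.shift_of_eq h h (strip_add hs0 _) (strip_add hs0 _) e
        have h5 : (((i' : ℕ) : ℤ) : ℂ) = (((i : ℕ) + n : ℤ) : ℂ) :=
          mul_right_cancel₀ h2 (by push_cast at h3 ⊢; linear_combination h3)
        have h6 : ((i' : ℕ) : ℤ) = (i : ℕ) + n := Int.cast_injective h5
        by_contra hne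
        have h7 : (i : ℕ) ≠ i' := fun a => hne (Fin.ext a)
        have := i.2
        have := i'.2
        exact hc n (by omega) (by omega) h4
    have h3 := (encard_le_encard (s := range fun i : Fin (m + 1) =>
      F (s0 + ((i : ℕ) : ℤ) * (2 * Real.pi * I))) (by
        rintro _ ⟨i, rfl⟩
        exact ⟨(h.shift _).mem s0 hs0, (h.shift _).eq s0 hs0⟩)).trans (H.fib (exp s0))
    have h4 := hi.encard_range.trans h3
    rw [ENat.card_eq_coe_fintype_card, Fintype.card_fin, Nat.cast_le] at h4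
    omega
  have h3 := Nat.le_of_dvd (Int.natAbs_pos.2 hj0) (Int.natCast_dvd.1 ((hP j).1 hj))
  have h4 : a.natAbs ≠ 0 := fun e => hj0 (by simpa [e] using (hP j).1 hj)
  have h5 : ((a.natAbs : ℕ) : ℂ) ≠ 0 := Nat.cast_ne_zero.2 h4
  refine ⟨a.natAbs, by omega, h3.trans hjm, fun s hs s' hs' => ⟨fun e => ?_, fun e => ?_⟩⟩
  · obtain ⟨n, h6, h7⟩ := H.shift_of_eq h h hs hs' e
    obtain ⟨c, rfl⟩ := (hP n).1 h7
    refine (exp_eq_exp_iff_exists_int.2 ⟨c, ?_⟩).symm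
    rw [h6, Int.cast_mul, Int.cast_natCast]
    field_simp
  · obtain ⟨c, hc⟩ := exp_eq_exp_iff_exists_int.1 e.symm
    rw [(hP (a.natAbs * c)).2 (dvd_mul_right _ _) s hs]
    congr 1
    rw [Int.cast_mul, Int.cast_natCast]
    field_simp at hc
    linear_combination -hc

theorem loc (h : Lf Ω f τ r F) (hs : s ∈ strip τ r) : ∃ L : ℂ → ℂ, AnalyticAt ℂ L (exp s) ∧
    ∀ᶠ w in 𝓝 (F s), L (f w) ∈ strip τ r ∧ F (L (f w)) = w := by
  have h0 := exp_ne_zero s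
  have h1 : AnalyticAt ℂ (fun v => s + log (v / exp s)) (exp s) :=
    analyticAt_const.add ((analyticAt_id.div analyticAt_const h0).clog (by simp))
  refine ⟨_, h1, ?_⟩
  have h2 := (H.hol _ (h.mem s hs)).continuousAt
  obtain ⟨φ, h3, h4⟩ := exists_chart (H.hol _ (h.mem s hs))
    (H.unr _ (h.mem s hs) (by rw [h.eq s hs]; exact h0))
  have h5 : Tendsto (fun w => s + log (f w / exp s)) (𝓝 (F s)) (𝓝 s) := by
    have := h1.continuousAt
    rw [ContinuousAt, div_self h0, log_one, add_zero, ← h.eq s hs] at this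
    have k := this.comp h2
    rwa [h.eq s hs] at k
  have h6 := (isOpen_strip τ r).mem_nhds hs
  filter_upwards [h5 h6, (h.cont.continuousAt h6).tendsto.comp h5 (φ.open_source.mem_nhds h3),
    φ.open_source.mem_nhds h3, h2.eventually_ne (by rw [h.eq s hs]; exact h0)] with w a b c d
  refine ⟨a, φ.injOn b c ?_⟩
  rw [← h4 b, ← h4 c]
  refine (h.eq _ a).trans ?_
  rw [exp_add, exp_log (div_ne_zero d h0), mul_div_cancel₀ _ h0]

theorem isOpen_image (h : Lf Ω f τ r F) : IsOpen (F '' strip τ r) :=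
  isOpen_iff_mem_nhds.2 fun _ ⟨_, hs, e⟩ => by
    obtain ⟨L, -, hL⟩ := H.loc h hs
    rw [← e]
    exact hL.mono fun w hw => ⟨_, hw.1, hw.2⟩

theorem cover₀ (hw : w ∈ Ω) (h0 : f w ≠ 0) : ∃ F, Lf Ω f τ r F ∧ w ∈ F '' strip τ r := by
  have hs : log (f w) ∈ strip τ r := by
    rw [strip, mem_ofPred_eq, exp_log h0]
    exact H.maps w hw
  obtain ⟨F, h1, h2⟩ := H.exists_lift hs hw (exp_log h0).symm
  exact ⟨F, h1, _, hs, h2⟩

end Hy

/-- the set `U` with its punctures filled in -/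
def fill (Ω U : Set W) : Set W := {w | w ∈ Ω ∧ ∀ᶠ y in 𝓝[≠] w, y ∈ U}

namespace Hy

variable (H : Hy S Ω f τ r m)
include H

theorem sub_fill (h : Lf Ω f τ r F) : F '' strip τ r ⊆ fill Ω (F '' strip τ r) :=
  fun _ hw => ⟨by obtain ⟨s, hs, rfl⟩ := hw; exact h.mem s hs,
    mem_nhdsWithin_of_mem_nhds ((H.isOpen_image h).mem_nhds hw)⟩

theorem fill_eq (h : Lf Ω f τ r F) (h' : Lf Ω f τ r F') (h1 : w ∈ fill Ω (F '' strip τ r))
    (h2 : w ∈ fill Ω (F' '' strip τ r)) : F '' strip τ r = F' '' strip τ r := by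
  have := S.neBot w
  obtain ⟨y, a, b⟩ := (h1.2.and h2.2).exists
  exact H.image_eq h h' a b

theorem of_fill (h : Lf Ω f τ r F) (h1 : w ∈ fill Ω (F '' strip τ r)) (h0 : f w ≠ 0) :
    w ∈ F '' strip τ r := by
  obtain ⟨F', h', h2⟩ := H.cover₀ h1.1 h0
  rwa [H.fill_eq h h' h1 (H.sub_fill h' h2)]

theorem isOpen_fill (h : Lf Ω f τ r F) : IsOpen (fill Ω (F '' strip τ r)) :=
  isOpen_iff_mem_nhds.2 fun w hw => (eventually_nhdsWithin_iff.1 hw.2).mono fun y hy => by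
    by_cases e : y = w
    · rwa [e]
    · exact H.sub_fill h (hy e)

theorem cover (hw : w ∈ Ω) : ∃ F, Lf Ω f τ r F ∧ w ∈ fill Ω (F '' strip τ r) := by
  by_cases h0 : f w = 0
  swap
  · obtain ⟨F, h, h1⟩ := H.cover₀ hw h0
    exact ⟨F, h, H.sub_fill h h1⟩
  have h1 : ∀ᶠ y in 𝓝 w, y ∉ (Ω ∩ f ⁻¹' {0}) \ {w} :=
    ((H.fin 0).subset sdiff_subset).isClosed.isOpen_compl.mem_nhds fun a => a.2 rfl
  obtain ⟨ρ, hρ, h2⟩ := Metric.mem_nhds_iff.1
    ((S.tgt_nhds w).and (S.ev_iff.1 (h1.and (H.hΩ.mem_nhds hw))))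
  have h3 : ∀ t ∈ ball (0 : ℂ) ρ \ {0}, S.i w t ∈ Ω ∧ f (S.i w t) ≠ 0 := fun t ht =>
    ⟨(h2 ht.1).2.2, fun e => (h2 ht.1).2.1 ⟨⟨(h2 ht.1).2.2, e⟩,
      fun a => ht.2 ((S.i_eq (h2 ht.1).1).1 a)⟩⟩
  have h4 : IsPreconnected (S.i w '' (ball (0 : ℂ) ρ \ {0})) :=
    (punct_conn hρ).image _ fun t ht => (S.contAt_i (h2 ht.1).1).continuousWithinAt
  have h5 : ((ρ / 2 : ℝ) : ℂ) ∈ ball (0 : ℂ) ρ \ {0} :=
    ⟨by rw [mem_ball_zero_iff, norm_real, Real.norm_of_nonneg (by positivity)]; linarith,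
      ofReal_ne_zero.2 (by positivity)⟩
  obtain ⟨F, h, h6⟩ := H.cover₀ (h3 _ h5).1 (h3 _ h5).2
  have h7 := h4.subset_left_of_subset_union (H.isOpen_image h)
    (v := ⋃ F' ∈ {F' | Lf Ω f τ r F' ∧ F' '' strip τ r ≠ F '' strip τ r}, F' '' strip τ r)
    (isOpen_biUnion fun F' h' => H.isOpen_image h'.1)
    (disjoint_left.2 fun y a b => by
      obtain ⟨F', h', c⟩ := mem_iUnion₂.1 b
      exact h'.2 (H.image_eq h'.1 h c a))
    (by
      rintro _ ⟨t, ht, rfl⟩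
      obtain ⟨F', h', c⟩ := H.cover₀ (h3 _ ht).1 (h3 _ ht).2
      by_cases e : F' '' strip τ r = F '' strip τ r
      · exact Or.inl (e ▸ c)
      · exact Or.inr (mem_biUnion (show F' ∈ {F' | Lf Ω f τ r F' ∧ _} from ⟨h', e⟩) c))
    (Set.nonempty_of_mem (mem_inter (mem_image_of_mem _ h5) h6))
  refine ⟨F, h, hw, S.ev_ne_iff.2 ?_⟩
  filter_upwards [self_mem_nhdsWithin, mem_nhdsWithin_of_mem_nhds (ball_mem_nhds 0 hρ)]
    with t a b using h7 ⟨t, ⟨b, a⟩, rfl⟩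

theorem exists_zero (h : Lf Ω f τ r F) (h0 : (0 : ℂ) ∈ ann τ r) :
    ∃ w ∈ fill Ω (F '' strip τ r), f w = 0 := by
  obtain ⟨ρ, hρ, h1⟩ := Metric.nhds_basis_closedBall.mem_iff.1 ((isOpen_ann τ r).mem_nhds h0)
  have h2 : ∀ᶠ v in 𝓝[≠] (0 : ℂ), log v ∈ strip τ r ∧ f (F (log v)) = v ∧ v ∈ closedBall 0 ρ := by
    filter_upwards [self_mem_nhdsWithin, mem_nhdsWithin_of_mem_nhds (closedBall_mem_nhds 0 hρ)]
      with v a b
    have c : log v ∈ strip τ r := by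
      rw [strip, mem_ofPred_eq, exp_log a]
      exact h1 b
    exact ⟨c, (h.eq _ c).trans (exp_log a), b⟩
  have hK := H.prop _ h1 (isCompact_closedBall 0 ρ)
  obtain ⟨w, hw, h3⟩ := hK
    (f := map (fun v => F (log v)) (𝓝[≠] (0 : ℂ))) (le_principal_iff.2 (mem_map.2
      (h2.mono fun v hv => mem_inter (h.mem _ hv.1) (id (mem_of_eq_of_mem hv.2.1 hv.2.2 :)))))
  have h4 : ClusterPt (f w) (𝓝 0) := h3.map (H.hol w hw.1).continuousAt
    (tendsto_map'_iff.2 ((tendsto_id.mono_left nhdsWithin_le_nhds).congr'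
      (h2.mono fun v hv => hv.2.1.symm)))
  obtain ⟨F', h', h5⟩ := H.cover hw.1
  obtain ⟨y, a, b⟩ := (clusterPt_iff_nonempty.1 h3) ((H.isOpen_fill h').mem_nhds h5)
    (V := F '' strip τ r) (h2.mono fun v hv => ⟨_, hv.1, rfl⟩)
  exact ⟨w, by rwa [H.fill_eq h h' (H.sub_fill h b) a], eq_of_nhds_neBot h4⟩

theorem chart (h : Lf Ω f τ r F) : ∃ (k : ℕ) (E : OpenPartialHomeomorph W ℂ), 1 ≤ k ∧ k ≤ m ∧
    S.Cmp E ∧ E.target = {t | t ^ k ∈ ann τ r} ∧ E.source = fill Ω (F '' strip τ r) ∧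
      ∀ w ∈ E.source, f w = E w ^ k := by
  classical
  obtain ⟨k, hk, hkm, hp⟩ := H.period h
  have hk0 : k ≠ 0 := by omega
  have hk1 : (k : ℂ) ≠ 0 := Nat.cast_ne_zero.2 hk0
  let g : W → ℂ := fun w => if hw : w ∈ F '' strip τ r then exp (hw.choose / k) else 0
  have g1 : ∀ s ∈ strip τ r, g (F s) = exp (s / k) := fun s hs => by
    have hw : F s ∈ F '' strip τ r := ⟨s, hs, rfl⟩
    simp only [g, dif_pos hw]
    exact (hp _ hw.choose_spec.1 s hs).1 hw.choose_spec.2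
  have g2 : ∀ w ∈ F '' strip τ r, S.Hol g w := by
    rintro _ ⟨s, hs, rfl⟩
    obtain ⟨L, hL, h1⟩ := H.loc h hs
    rw [← h.eq s hs] at hL
    have h2 := RS.Hol.comp (u := fun v => exp (L v / k)) (hL.div_const.cexp')
      (H.hol _ (h.mem s hs))
    exact h2.congr (h1.mono fun w hw => (g1 _ hw.1).symm.trans (congrArg g hw.2))
  have g3 : ∀ w ∈ fill Ω (F '' strip τ r), f w = g w ^ k := fun w hw => by
    by_cases h1 : w ∈ F '' strip τ r
    · obtain ⟨s, hs, rfl⟩ := h1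
      rw [g1 s hs, h.eq s hs, ← exp_nat_mul, mul_div_cancel₀ _ hk1]
    · simp only [g, dif_neg h1, zero_pow hk0]
      exact by_contra fun h0 => h1 (H.of_fill h hw h0)
  have g4 : ∀ w ∈ F '' strip τ r, g w ≠ 0 := by
    rintro _ ⟨s, hs, rfl⟩
    rw [g1 s hs]
    exact exp_ne_zero _
  have g5 : ∀ w ∈ fill Ω (F '' strip τ r), S.Hol g w := fun w hw => by
    by_cases h0 : f w = 0
    swap
    · exact g2 w (H.of_fill h hw h0)
    refine analyticAt_of_differentiable_on_punctured_nhds_of_continuousAt ?_ ?_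
    · filter_upwards [S.ev_ne_iff.1 hw.2, mem_nhdsWithin_of_mem_nhds (S.tgt_nhds w)] with t a b
        using ((RS.hol_iff' b).1 (g2 _ a)).differentiableAt
    · have h1 : g w = 0 := pow_eq_zero_iff hk0 |>.1 ((g3 w hw).symm.trans h0)
      have h2 : Tendsto g (𝓝 w) (𝓝 0) := by
        refine Metric.tendsto_nhds.2 fun ε hε => ?_
        have h3 := (H.hol w hw.1).continuousAt
        rw [ContinuousAt, h0] at h3
        filter_upwards [Metric.tendsto_nhds.1 h3 (ε ^ k) (by positivity),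
          (H.isOpen_fill h).mem_nhds hw] with y a b
        rw [dist_zero_right] at a ⊢
        rw [g3 y b, norm_pow] at a
        exact lt_of_pow_lt_pow_left₀ k hε.le a
      rw [ContinuousAt, S.i_zero, h1]
      exact h2.comp (S.tends_i w)
  have g6 : ∀ w ∈ fill Ω (F '' strip τ r), ∀ w' ∈ fill Ω (F '' strip τ r), g w ≠ 0 →
      g w = g w' → w = w' := fun w hw w' hw' h0 e => by
    obtain ⟨s, hs, rfl⟩ := H.of_fill h hw (by rw [g3 w hw]; exact pow_ne_zero _ h0)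
    obtain ⟨s', hs', rfl⟩ := H.of_fill h hw' (by rw [g3 w' hw', ← e]; exact pow_ne_zero _ h0)
    exact (hp s hs s' hs').2 (by rw [← g1 s hs, ← g1 s' hs', e])
  have g7 : InjOn g (fill Ω (F '' strip τ r)) := fun w hw w' hw' e => by
    by_cases h0 : g w = 0
    swap
    · exact g6 w hw w' hw' h0 e
    by_contra hne
    obtain ⟨V, V', hV, hV', hd⟩ := t2_separation_nhds hne
    have k1 : ∀ y ∈ fill Ω (F '' strip τ r), g y = 0 → ∀ V ∈ 𝓝 y,
        g '' (V ∩ fill Ω (F '' strip τ r)) ∈ 𝓝[≠] (0 : ℂ) := fun y hy hy0 V hV => by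
      have := open_at (g5 y hy) (hy.2.mono fun z hz => by rw [hy0]; exact g4 z hz)
      rw [hy0] at this
      exact mem_nhdsWithin_of_mem_nhds
        (this (image_mem_map (inter_mem hV ((H.isOpen_fill h).mem_nhds hy))))
    obtain ⟨t, ⟨⟨y, a, rfl⟩, y', a', b⟩, c⟩ := Filter.nonempty_of_mem (inter_mem (inter_mem
      (k1 w hw h0 V hV) (k1 w' hw' (e ▸ h0) V' hV')) self_mem_nhdsWithin)
    have := g6 y a.2 y' a'.2 c b.symm
    exact disjoint_left.1 hd a.1 (this ▸ a'.1)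
  have : Nonempty W := ⟨F 0⟩
  obtain ⟨E, e1, e2, e3, e4⟩ := mk_chart (H.isOpen_fill h) g5 g7
  refine ⟨k, E, hk, hkm, e4, ?_, e1, fun w hw => by rw [e3]; exact g3 w (e1 ▸ hw)⟩
  rw [e2]
  ext t
  constructor
  · rintro ⟨w, hw, rfl⟩
    rw [mem_ofPred_eq, ← g3 w hw]
    exact H.maps w hw.1
  · intro ht
    by_cases h0 : t = 0
    · rw [h0, mem_ofPred_eq, zero_pow hk0] at ht
      obtain ⟨w, hw, h1⟩ := H.exists_zero h ht
      exact ⟨w, hw, h0 ▸ (pow_eq_zero_iff hk0).1 ((g3 w hw).symm.trans h1)⟩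
    · have hs : k * log t ∈ strip τ r := by
        rw [strip, mem_ofPred_eq, exp_nat_mul, exp_log h0]
        exact ht
      exact ⟨_, H.sub_fill h ⟨_, hs, rfl⟩, by
        rw [g1 _ hs, mul_div_cancel_left₀ _ hk1, exp_log h0]⟩

theorem encard_le : {U | ∃ F, Lf Ω f τ r F ∧ U = F '' strip τ r}.encard ≤ m := by
  obtain ⟨s, hs⟩ := strip_ne H.hr H.hτ
  rcases isEmpty_or_nonempty W with hW | hW
  · refine le_trans (le_of_eq (encard_eq_zero.2 (eq_empty_of_forall_notMem ?_))) (zero_le)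
    rintro _ ⟨F, -⟩
    exact hW.elim (F 0)
  have : Nonempty (ℂ → W) := inferInstance
  choose! G h1 h2 using fun U (hU : U ∈ {U | ∃ F, Lf Ω f τ r F ∧ U = F '' strip τ r}) => hU
  refine (encard_le_encard_of_injOn (f := fun U => G U s) (fun U hU => ?_)
    fun U hU U' hU' e => ?_).trans (H.fib (exp s))
  · exact ⟨(h1 U hU).mem s hs, (h1 U hU).eq s hs⟩
  · rw [h2 U hU, h2 U' hU']
    exact H.image_eq (h1 U hU) (h1 U' hU') ⟨s, hs, rfl⟩ ⟨s, hs, e.symm⟩

end Hy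

end CovP

open CovP in
theorem exists_cov {W : Type} [TopologicalSpace W] [T2Space W] (S : RS W) {Ω : Set W}
    (hΩ : IsOpen Ω) {f : W → ℂ} {τ : ℂ} {r : ℝ} (hr : 0 < r) (hτ : ‖τ‖ < r ^ 2)
    (hol : ∀ w ∈ Ω, S.Hol f w) (maps : ∀ w ∈ Ω, f w ∈ ann τ r)
    (prop : ∀ K ⊆ ann τ r, IsCompact K → IsCompact (Ω ∩ f ⁻¹' K))
    (unr : ∀ w ∈ Ω, f w ≠ 0 → S.d f w ≠ 0) {m : ℕ} (fib : ∀ v, (Ω ∩ f ⁻¹' {v}).encard ≤ m) :
    ∃ (n : ℕ) (k : Fin n → ℕ) (E : Fin n → OpenPartialHomeomorph W ℂ), n ≤ m ∧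
      (∀ i, 1 ≤ k i ∧ k i ≤ m ∧ S.Cmp (E i) ∧ (E i).target = {t | t ^ k i ∈ ann τ r} ∧
        (E i).source ⊆ Ω ∧ ∀ w ∈ (E i).source, f w = E i w ^ k i) ∧
      Pairwise (Disjoint on fun i => (E i).source) ∧ Ω ⊆ ⋃ i, (E i).source := by
  have H : Hy S Ω f τ r m := ⟨hΩ, hr, hτ, hol, maps, prop, unr, fib⟩
  have h1 := H.encard_le
  have h2 := finite_of_encard_le_coe h1
  set A := {U | ∃ F, Lf Ω f τ r F ∧ U = F '' strip τ r}
  have := h2.fintype
  let e := (Fintype.equivFin A).symm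
  choose F h3 h4 using fun i => (e i).2
  choose k E c1 c2 c3 c4 c5 c6 using fun i => H.chart (h3 i)
  refine ⟨_, k, E, ?_, fun i => ⟨c1 i, c2 i, c3 i, c4 i, fun w hw => (c5 i ▸ hw).1, c6 i⟩,
    fun i j hij => disjoint_left.2 fun w a b => hij (e.injective (Subtype.ext ?_)),
    fun w hw => ?_⟩
  · rwa [← Set.coe_fintypeCard, Nat.cast_le] at h1
  · rw [h4 i, h4 j]
    exact H.fill_eq (h3 i) (h3 j) ((c5 i).subset a) ((c5 j).subset b)
  · obtain ⟨F', h', h5⟩ := H.cover hw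
    refine mem_iUnion.2 ⟨e.symm ⟨_, F', h', rfl⟩, ?_⟩
    rw [c5, ← h4, e.apply_symm_apply]
    exact h5

end Vale.Agent.P269.Cpt
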