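import Vale.Agent.P269.Cv.Map
import Vale.Agent.P269.Base.Laurent

/-!
# Degenerating sequences of Riemann surfaces, limits of line bundles and of sections

`Dg U R Q`: the surfaces `X n` converge along the ultrafilter `U` to the surface `Y` with the pairs
`M` glued (new nodes, approximated by necks `z w = τ n`).
-/

set_option linter.unusedSectionVars false

namespace Vale.Agent.P269.Cpt

open Set Function Topology Filter Metric Vale.Agent.P269.Cv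

/-- the disc (`τ = 0`) or the neck `z w = τ`, `|z|, |w| < r`, in the coordinate `z` -/
def ann (τ : ℂ) (r : ℝ) : Set ℂ := {z | ‖z‖ < r ∧ (τ = 0 ∨ ‖τ‖ < r * ‖z‖)}

/-- the corresponding part of a chart -/
def reg {Z : Type} [TopologicalSpace Z] (E : OpenPartialHomeomorph Z ℂ) (τ : ℂ) (r : ℝ) : Set Z :=
  E.source ∩ E ⁻¹' ann τ r

/-- a holomorphic map of surfaces -/
structure HM {Z Z' : Type} [TopologicalSpace Z] [TopologicalSpace Z'] (R : RS Z) (R' : RS Z')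
    (h : Z → Z') : Prop where
  cont : Continuous h
  hol : ∀ x, R.Hol (fun y => R'.e (h x) (h y)) x

variable {X : ℕ → Type} [∀ n, TopologicalSpace (X n)] {Y : Type} [TopologicalSpace Y]

/-- the sequence `p` tends to the centre of the charts `E` -/
def To₀ (U : Ultrafilter ℕ) (E : ∀ n, OpenPartialHomeomorph (X n) ℂ) (τ : ℕ → ℂ) (p : ∀ n, X n) :
    Prop := ∀ δ > 0, ∀ᶠ n in U, p n ∈ reg (E n) (τ n) δ

/-- A degeneration. -/
structure Dg (U : Ultrafilter ℕ) (R : ∀ n, RS (X n)) (Q : RS Y) where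
  /-- the chart approximating the chart of `Y` at `y` -/
  E : Y → ∀ n, OpenPartialHomeomorph (X n) ℂ
  /-- the neck parameter (zero if `y` is not a branch of a new node) -/
  τ : Y → ℕ → ℂ
  /-- the new nodes -/
  M : Finset (Y × Y)
  le : (U : Filter ℕ) ≤ atTop
  nd : Nd M
  cmp : ∀ y, ∀ᶠ n in U, (R n).Cmp (E y n)
  tgt : ∀ y, ∃ r > 0, ∀ᶠ n in U, ann (τ y n) r ⊆ (E y n).target
  tend : ∀ y, Tendsto (τ y) U (𝓝 0)
  sm : ∀ y, Sm M y → ∀ n, τ y n = 0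
  neck : ∀ m ∈ M, ∃ r > 0, ∀ᶠ n in U, τ m.1 n ≠ 0 ∧ τ m.2 n = τ m.1 n ∧
    reg (E m.2 n) (τ m.2 n) r = reg (E m.1 n) (τ m.1 n) r ∧
    ∀ q ∈ reg (E m.1 n) (τ m.1 n) r, E m.1 n q * E m.2 n q = τ m.1 n
  cover : ∀ p, ∃ y, To₀ U (E y) (τ y) p
  sep : ∀ p y y', To₀ U (E y) (τ y) p → To₀ U (E y') (τ y') p →
    y = y' ∨ (y, y') ∈ M ∨ (y', y) ∈ M
  near : ∀ y, ∀ᶠ z in 𝓝[≠] y, ∀ p, To₀ U (E z) (τ z) p ↔
    (∀ᶠ n in U, p n ∈ (E y n).source) ∧ Tendsto (fun n => E y n (p n)) U (𝓝 (Q.e y z))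

variable {U : Ultrafilter ℕ} {R : ∀ n, RS (X n)} {Q : RS Y}

namespace Dg

variable (D : Dg U R Q)

/-- the part of `X n` that is `δ`-close to `y` -/
def rg (y : Y) (n : ℕ) (δ : ℝ) : Set (X n) := reg (D.E y n) (D.τ y n) δ

/-- the sequence `p` tends to `y` -/
def To (p : ∀ n, X n) (y : Y) : Prop := ∀ δ > 0, ∀ᶠ n in U, p n ∈ D.rg y n δ

/-- the centres of the charts -/
noncomputable def c (y : Y) (n : ℕ) : X n := (D.E y n).symm 0

/-- `p` is a sequence of centres -/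
def Ctr (p : ∀ n, X n) : Prop := ∃ y, Sm D.M y ∧ ∀ᶠ n in U, p n = D.c y n

/-- the points of `Z n` are centres -/
def Av (Z : ∀ n, Set (X n)) : Prop :=
  ∀ y, ∃ δ > 0, ∀ᶠ n in U, ∀ q ∈ Z n, q ∈ D.rg y n δ → D.E y n q = 0

/-- the old nodes `N n` are the centres of the pairs `N₀`, the marked points `p n` those of `p₀` -/
structure Old {ν : Type} (N : ∀ n, Finset (X n × X n)) (p : ∀ n, ν → X n) (N₀ : Finset (Y × Y))
    (p₀ : ν → Y) (N₁ : Finset (Y × Y)) : Prop where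
  mem : ∀ m, m ∈ N₁ ↔ m ∈ N₀ ∨ m ∈ D.M
  nd : Nd N₁
  disj : Disjoint N₀ D.M
  sm : ∀ a, Sm N₁ (p₀ a)
  inj : Injective p₀
  node : ∀ᶠ n in U, ∀ e, e ∈ N n ↔ ∃ m ∈ N₀, e = (D.c m.1 n, D.c m.2 n)
  mark : ∀ᶠ n in U, ∀ a, p n a = D.c (p₀ a) n

end Dg

/-- The bundles `B n` converge to `L`: frames near every point with converging transition
functions. -/
structure BL (D : Dg U R Q) (B : ∀ n, LB (R n)) (L : LB Q) where
  /-- the frame near `y` -/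
  ε : Y → ∀ n, X n → ℂ
  fr : ∀ y, ∃ δ > 0, ∀ᶠ n in U, ∀ q ∈ D.rg y n δ, (B n).Sec (ε y n) q ∧ ε y n q ≠ 0
  neck : ∀ m ∈ D.M, ∃ δ > 0, ∀ᶠ n in U, ∀ q ∈ D.rg m.1 n δ, ε m.2 n q = ε m.1 n q
  cv : ∀ y, ∀ᶠ z in 𝓝[≠] y, ∀ p, D.To p z →
    Tendsto (fun n => ε y n (p n) / ε z n (p n)) U (𝓝 (L.φ y z))

namespace BL

variable {D : Dg U R Q} {B : ∀ n, LB (R n)} {L : LB Q} (b : BL D B L)

/-- the sections `s n` converge to `σ` -/
def SL (s : ∀ n, X n → ℂ) (σ : Y → ℂ) : Prop :=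
  ∀ p y, D.To p y → Tendsto (fun n => s n (p n) / b.ε y n (p n)) U (𝓝 (σ y))

/-- the frames at the centres of the pairs `N₀` asymptotically agree -/
def Pr (N₀ : Finset (Y × Y)) : Prop :=
  ∀ m ∈ N₀, Tendsto (fun n => b.ε m.1 n (D.c m.1 n) / b.ε m.2 n (D.c m.2 n)) U (𝓝 1)

end BL

/-- Weak convergence: charts and frames at all but finitely many points. -/
structure Wk {ι : Type} (U : Ultrafilter ℕ) (R : ∀ n, RS (X n)) (Q : RS Y) (A : ∀ n, ι → LB (R n))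
    where
  /-- the good points -/
  Gd : Set Y
  fin : Gdᶜ.Finite
  /-- the charts -/
  E : Y → ∀ n, OpenPartialHomeomorph (X n) ℂ
  /-- the frames -/
  ε : Y → ∀ n, X n → ι → ℂ
  fr : ∀ y ∈ Gd, ∃ δ > 0, ∀ᶠ n in U, (R n).Cmp (E y n) ∧ ball 0 δ ⊆ (E y n).target ∧
    ∀ t ∈ ball (0 : ℂ) δ, ∀ i, (A n i).Sec (fun q => ε y n q i) ((E y n).symm t) ∧
      ε y n ((E y n).symm t) i ≠ 0

namespace Wk

variable {ι : Type} {A : ∀ n, ι → LB (R n)} (w : Wk U R Q A)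

/-- the centres of the charts -/
noncomputable def c (y : Y) (n : ℕ) : X n := (w.E y n).symm 0

/-- the sections `s n` of `A n i` converge to the section `σ` of `L` near the good points -/
def Cv (i : ι) (L : LB Q) (s : ∀ n, X n → ℂ) (σ : Y → ℂ) : Prop :=
  ∀ y ∈ w.Gd, ∀ᶠ t in 𝓝 (0 : ℂ), ∀ t' : ℕ → ℂ, Tendsto t' U (𝓝 t) →
    Tendsto (fun n => s n ((w.E y n).symm (t' n)) / w.ε y n ((w.E y n).symm (t' n)) i) U
      (𝓝 (L.loc σ y t))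

/-- non zero sections converge after normalisation to a non zero section; the values at the marked
points converge in the frames `η` -/
def LS {ν : Type} (N : ∀ n, Finset (X n × X n)) (p : ∀ n, ν → X n) (η : ℕ → ν → ι → ℂ)
    (A' : ι → LB Q) (N' : Finset (Y × Y)) (p' : ν → Y) : Prop :=
  ∀ i (s : ∀ n, X n → ℂ), (∀ᶠ n in U, s n ∈ H0 (N n) (A n i) ∧ s n ≠ 0) →
    ∃ (l : ℕ → ℂ) (σ : Y → ℂ), σ ∈ H0 N' (A' i) ∧ σ ≠ 0 ∧ w.Cv i (A' i) (fun n => l n • s n) σ ∧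
      ∀ a, Tendsto (fun n => l n * s n (p n a) / η n a i) U (𝓝 (σ (p' a)))

end Wk

section Static

variable [T2Space Y] {ν ρ : Type} [Fintype ν] [Fintype ρ]

/-- the multiplier of weight `(a, χ)` -/
noncomputable def mu (u : Y → ℂ) (γ : Y → ρ → ℂ) (a : ℤ) (χ : ρ → ℤ) (y : Y) : ℂ :=
  u y ^ a * ∏ i, γ y i ^ χ i

open Classical in
/-- The part `S` of `Y`, with nodes `N'` and marked points `p'`, is obtained from `(Y, N, p)` by
contracting rational components on which `W` and all `L i` are trivial; `u` identifies `W` with the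
logarithmic dualising bundle of `S`, the bundles `L i` are twisted by the constants `γ`. -/
structure St (N : Finset (Y × Y)) (p : ν → Y) (L : ρ → LB Q) (θ : ρ → ℤ) (W : LB Q) (S : Set Y)
    (N' : Finset (Y × Y)) (p' : ν → Y) (u : Y → ℂ) (γ : Y → ρ → ℂ) : Prop where
  clopen : IsClopen S
  nd : Nd N'
  sub : ∀ m ∈ N', m.1 ∈ S ∧ m.2 ∈ S
  mem : ∀ a, p' a ∈ S
  sm : ∀ a, Sm N' (p' a)
  inj : Injective p'
  fin : {y | u y ≠ 1 ∨ γ y ≠ 1}.Finite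
  une : ∀ y, u y ≠ 0
  γne : ∀ y i, γ y i ≠ 0
  usec : ∀ y ∈ S, (omega Q N' (Finset.univ.image p') / W).Sec u y
  node : ∀ a χ, ∀ s ∈ H0 N (W ^ a * bz L χ), ∀ m ∈ N',
    s m.1 * mu u γ a χ m.1 = s m.2 * mu u γ a χ m.2
  mark : ∀ a χ, ∀ s ∈ H0 N (W ^ a * bz L χ), ∀ k, s (p' k) * mu u γ a χ (p' k) = s (p k)
  zero : ∀ (a : ℤ) χ, ∀ s ∈ H0 N (W ^ a * bz L χ), (∀ y ∈ S, s y = 0) → s = 0
  degW : ∀ C, IsClopen C → Disjoint C S → degOn W C = 0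
  degL : ∀ C, IsClopen C → Disjoint C S → ∀ i, degOn (L i) C = 0
  pos : ∀ C, IsClopen C → C ⊆ S → C.Nonempty → (∀ m ∈ N', m.1 ∈ C ↔ m.2 ∈ C) →
    1 ≤ degOn (W * bz L θ) C

/-- on each component the polarisation has degree at least three, or all `L i` have degree zero -/
def Amp (L : ρ → LB Q) (θ : ρ → ℤ) : Prop :=
  ∀ y, 3 ≤ degOn (bz L θ) (connectedComponent y) ∨ ∀ i, degOn (L i) (connectedComponent y) = 0

end Static

/-- the torus action -/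
noncomputable def ta {ρ J : Type} [Fintype ρ] (w : J → ρ → ℤ) (t : ρ → ℂ) (v : J → ℂ) : J → ℂ :=
  fun j => (∏ i, t i ^ w j i) * v j

/-- Cones `K n` with limit `K'`, weights `w`, and monomials `T o` of weight `χ o` without common
zero, `χ (some i) = χ none + e_i`. -/
structure Cones {ρ J : Type} [Fintype ρ] [Fintype J] [DecidableEq ρ] (U : Ultrafilter ℕ)
    (w : J → ρ → ℤ) (K : ℕ → Set (J → ℂ)) (K' : Set (J → ℂ)) (χ : Option ρ → ρ → ℤ)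
    (T : Option ρ → Finset (J → ℕ)) : Prop where
  cpt : ∀ v : ℕ → J → ℂ, (∀ᶠ n in U, v n ∈ K n) → ∃ t : ℕ → ρ → ℂ, (∀ n i, t n i ≠ 0) ∧
    ∃ v' ∈ K', Tendsto (fun n => ta w (t n) (v n)) U (𝓝 v')
  inv : ∀ t : ρ → ℂ, (∀ i, t i ≠ 0) → ∀ v ∈ K', ta w t v ∈ K'
  step : ∀ i, χ (some i) = χ none + Pi.single i 1
  wt : ∀ o, ∀ α ∈ T o, ∀ i, ∑ j, α j * w j i = χ o i
  ne : ∀ o, ∀ v ∈ K', ∃ α ∈ T o, ∏ j, v j ^ α j ≠ 0

/-- `θ = 3 θ₀`, and `k θ₀`, `k θ₀ ± e_i` are generated by monomials on `K'` -/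
def AmpK {ρ J : Type} [Fintype J] [DecidableEq ρ] (w : J → ρ → ℤ) (K' : Set (J → ℂ)) (θ : ρ → ℤ) :
    Prop := ∃ θ₀ : ρ → ℤ, θ = 3 • θ₀ ∧ ∃ k : ℕ, 0 < k ∧ ∀ c : ρ → ℤ,
      (c = k • θ₀ ∨ ∃ i, c = k • θ₀ + Pi.single i 1 ∨ c = k • θ₀ - Pi.single i 1) →
      ∀ v ∈ K', ∃ α : J → ℕ, (∀ i, ∑ j, α j * w j i = c i) ∧ ∏ j, v j ^ α j ≠ 0

end Vale.Agent.P269.Cpt
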