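import Vale.Agent.P269.Cpt.Sec
import Vale.Agent.P269.Cpt.Alg
import Vale.Agent.P269.Cv.Emb

/-!
# Semicontinuity of `h⁰`, conservation of the genus and of the degrees in a degeneration
-/

set_option linter.unusedSectionVars false

namespace Vale.Agent.P269.Cpt

open Set Function Topology Filter Metric Module Vale.Agent.P269.Cv

variable {X : ℕ → Type} [∀ n, TopologicalSpace (X n)] [∀ n, T2Space (X n)]
  [∀ n, CompactSpace (X n)] [∀ n, Nonempty (X n)] {Y : Type} [TopologicalSpace Y] [T2Space Y]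
  [CompactSpace Y] {U : Ultrafilter ℕ} {R : ∀ n, RS (X n)} {Q : RS Y} {D : Dg U R Q}
  {B B' : ∀ n, LB (R n)} {L L' : LB Q} {p q : ∀ n, X n} {x y y' z : Y} {s s' : ∀ n, X n → ℂ}
  {σ σ' : Y → ℂ} {Z : ∀ n, Set (X n)} {ν : Type} [Fintype ν] {N : ∀ n, Finset (X n × X n)}
  {pm : ∀ n, ν → X n} {N₀ N₁ : Finset (Y × Y)} {p₀ : ν → Y}

namespace DegP

theorem ev_sm (M : Finset (Y × Y)) (y : Y) : ∀ᶠ z in 𝓝[≠] y, Sm M z :=
  nhdsNE_le_cofinite y ((eventually_all_finset _).2 fun m _ =>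
    ((eventually_cofinite_ne m.1).and (eventually_cofinite_ne m.2)).mono fun _ a =>
      ⟨a.1.symm, a.2.symm⟩)

theorem ev_mem {C : Set Y} (hC : IsClopen C) (y : Y) : ∀ᶠ z in 𝓝 y, (z ∈ C ↔ y ∈ C) := by
  by_cases h : y ∈ C
  · exact Eventually.mono (hC.isOpen.mem_nhds h) fun z a => iff_of_true a h
  · exact Eventually.mono (hC.compl.isOpen.mem_nhds h) fun z a => iff_of_false a h

/-- finitely many points which determine the members of a finite dimensional space -/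
theorem exists_pts {G : Set Y} (k : ℕ) (W : Submodule ℂ (Y → ℂ)) [FiniteDimensional ℂ W]
    (hk : finrank ℂ W ≤ k) (hG : ∀ s ∈ W, (∀ y ∈ G, s y = 0) → s = 0) :
    ∃ T : Finset Y, (∀ y ∈ T, y ∈ G) ∧ T.card ≤ k ∧ ∀ s ∈ W, (∀ y ∈ T, s y = 0) → s = 0 := by
  classical
  induction k generalizing W with
  | zero =>
    exact ⟨∅, by simp, le_rfl, fun s a _ =>
      (Submodule.eq_bot_iff _).1 (Submodule.finrank_eq_zero.1 (Nat.le_zero.1 hk)) s a⟩
  | succ k ih =>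
    by_cases h : ∀ s ∈ W, ∀ y ∈ G, s y = 0
    · exact ⟨∅, by simp, by simp, fun s a _ => hG s a (h s a)⟩
    push Not at h
    obtain ⟨s, a, y, b, c⟩ := h
    have lt : W ⊓ LinearMap.ker (LinearMap.proj y) < W :=
      lt_of_le_of_ne inf_le_left fun e => c (e.ge a).2
    have := Submodule.finiteDimensional_of_le lt.le
    obtain ⟨T, d, e, f⟩ := ih _ (Nat.lt_succ_iff.1 ((Submodule.finrank_lt_finrank_of_lt lt).trans_le
      hk)) fun s a => hG s a.1
    exact ⟨insert y T, fun z hz => (Finset.mem_insert.1 hz).elim (fun e => e ▸ b) (d z),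
      (Finset.card_insert_le _ _).trans (Nat.succ_le_succ e), fun s a g =>
        f s ⟨a, g y (Finset.mem_insert_self _ _)⟩ fun z hz => g z (Finset.mem_insert_of_mem hz)⟩

theorem exists_zero {V : Type} {W : Submodule ℂ (V → ℂ)} [FiniteDimensional ℂ W] {T : Finset Y}
    (c : Y → V) (h : T.card < finrank ℂ W) : ∃ s, s ∈ W ∧ s ≠ 0 ∧ ∀ y ∈ T, s (c y) = 0 := by
  obtain ⟨s, a, b⟩ := (Submodule.ne_bot_iff _).1 (LinearMap.ker_ne_bot_of_finrank_lt
    (f := (LinearMap.funLeft ℂ ℂ fun y : T => c y).domRestrict W) (by simpa using h))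
  exact ⟨s, s.2, fun e => b (Subtype.ext e), fun y hy => congrFun a ⟨y, hy⟩⟩

include Q in
/-- a finite set of smooth points that meets every component -/
theorem exists_meets (M : Finset (Y × Y)) : ∃ T : Finset {y // Sm M y},
    ∀ C, IsClopen C → C.Nonempty → ∃ y ∈ T, y.1 ∈ C := by
  classical
  obtain ⟨T, a, b⟩ := exists_finite_meets Q
  have f : {C : Set Y | IsClopen C ∧ C.Nonempty}.Finite :=
    .of_finite_image (f := (· ∩ T)) (a.finite_subsets.subset (image_subset_iff.2 fun _ _ =>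
      inter_subset_right)) fun C c C' c' e => by
        have : ∀ {C C' : Set Y}, IsClopen C → IsClopen C' → C ∩ T = C' ∩ T → C ⊆ C' :=
          fun c c' e => sdiff_eq_empty.1 (not_nonempty_iff_eq_empty.1 fun h =>
            let ⟨_, d, g⟩ := b _ (c.diff c') h
            g.2 (e.le ⟨g.1, d⟩).1)
        exact (this c.1 c'.1 e).antisymm (this c'.1 c.1 e.symm)
  have g : ∀ C : f.toFinset, ∃ y : {y // Sm M y}, y.1 ∈ C.1 := fun C => by
    obtain ⟨c, y, d⟩ := f.mem_toFinset.1 C.2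
    have := Q.neBot y
    obtain ⟨z, e, e'⟩ := ((ev_sm M y).and (nhdsWithin_le_nhds (c.isOpen.mem_nhds d))).exists
    exact ⟨⟨z, e⟩, e'⟩
  choose u hu using g
  exact ⟨Finset.univ.image u, fun C c d => ⟨_, Finset.mem_image_of_mem _ (Finset.mem_univ _),
    hu ⟨C, f.mem_toFinset.2 ⟨c, d⟩⟩⟩⟩

theorem to_iff_mem {C : Set Y} (sat : ∀ m ∈ D.M, m.1 ∈ C ↔ m.2 ∈ C) (h : D.To p y)
    (h' : D.To p z) : z ∈ C ↔ y ∈ C := by
  rcases D.sep p y z h h' with e | e | e
  exacts [e ▸ Iff.rfl, (sat _ e).symm, sat _ e]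

theorem exists_rad (D : Dg U R Q) {C : Set Y} (hC : IsClopen C)
    (sat : ∀ m ∈ D.M, m.1 ∈ C ↔ m.2 ∈ C) (y : Y) : ∃ δ > 0, ∀ p z,
      (∀ᶠ n in U, p n ∈ D.rg y n δ) → D.To p z → (z ∈ C ↔ y ∈ C) := by
  have a : ∀ y, ∀ᶠ r in 𝓝[>] (0 : ℝ), ∀ t, ‖t‖ ≤ r → (Q.i y t ∈ C ↔ y ∈ C) := fun y =>
    nhdsWithin_le_nhds ((eventually_closedBall_subset (Q.ev_iff.1 (ev_mem hC y))).mono
      fun r h t ht => h (mem_closedBall_zero_iff.2 ht))
  obtain ⟨r, h1, h2, h3, h4⟩ := ((D.trich y).and ((a y).and (((eventually_all_finset D.M).2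
    fun m _ => (a m.1).and (a m.2)).and self_mem_nhdsWithin))).exists
  refine ⟨r, h4, fun p z hp hz => ?_⟩
  rcases h1 p hp with e | ⟨y', e, -, t, -, ht, h, -⟩
  · exact to_iff_mem sat e hz
  rw [to_iff_mem sat h hz]
  rcases e with rfl | e | e
  exacts [h2 t ht, ((h3 _ e).2 t ht).trans (sat _ e).symm, ((h3 _ e).1 t ht).trans (sat _ e)]

end DegP

open DegP

/-- **upper semicontinuity of `h⁰`** -/
theorem BL.usc (b : BL D B L) (ho : D.Old N pm N₀ p₀ N₁) (hp : b.Pr N₀) :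
    ∀ᶠ n in U, finrank ℂ (H0 (N n) (B n)) ≤ finrank ℂ (H0 N₁ L) := by
  obtain ⟨T, h1, h2, h3⟩ := exists_pts (G := {y | Sm N₁ y}) _ (H0 N₁ L) le_rfl fun s a h =>
    funext fun y => eq_zero_of_gen a.1 fun c => by
      have := Q.neBot y
      obtain ⟨z, d, e⟩ := ((mem_gen.1 c).and (ev_sm N₁ y)).exists
      exact d (h z e)
  by_contra hn
  obtain ⟨s, hs⟩ : ∃ s : ∀ n, X n → ℂ,
      ∀ᶠ n in U, s n ∈ H0 (N n) (B n) ∧ s n ≠ 0 ∧ ∀ y ∈ T, s n (D.c y n) = 0 :=
    ⟨fun n => Classical.epsilon _, (Ultrafilter.eventually_not.2 hn).mono fun n a =>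
      Classical.epsilon_spec (exists_zero (D.c · n) (h2.trans_lt (not_le.1 a)))⟩
  obtain ⟨l, σ, a, c, d⟩ := b.exists_norm (hs.mono fun n a => ⟨a.1.1, a.2.1⟩)
  refine c (h3 σ (d.mem a ho hp (hs.mono fun n a => Submodule.smul_mem _ _ a.1)) fun y hy => ?_)
  exact tendsto_nhds_unique (d _ y (Dg.to_c fun m hm => h1 y hy m ((ho.mem m).2 (.inr hm))))
    (tendsto_const_nhds.congr' (hs.mono fun n a => by simp [a.2.2 y hy]))

theorem BL.chi_le (b : BL D B L) :
    ∀ᶠ n in U, deg (B n) + 1 - gen (R n) ∅ ≤ deg L + 1 - gen Q D.M := by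
  classical
  obtain ⟨T, hT⟩ := exists_meets (Q := Q) D.M
  choose bp _ using fun y : {y // Sm D.M y} => exists_pt y.2
  obtain ⟨c, -⟩ := exists_prod T (A := fun n (y : {y // Sm D.M y}) => (R n).pt (D.c y n)) bp
  obtain ⟨k, hk⟩ := exists_ge (L / omega Q D.M ∅)
  obtain ⟨c', -⟩ := c.exists_zpow (k + 1)
  obtain ⟨e, -⟩ := b.exists_mul c'
  have h := finrank_H0 (h1_eq_zero (L := L * (∏ y ∈ T, Q.pt y.1) ^ (k + 1 : ℤ)) D.nd
    fun C a a' => by
      obtain ⟨y, d, d'⟩ := hT C a a'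
      have g := Finset.single_le_sum (f := fun y : {y // Sm D.M y} => degOn (Q.pt y.1) C)
        (fun y _ => (eff_pt y.1).ge C a a') d
      have := hk C a a'
      simp only [degOn_div, degOn_mul, degOn_zpow, degOn_prod] at *
      rw [degOn_pt a, if_pos d'] at g
      nlinarith)
  filter_upwards [e.usc D.old_empty (by simp [Pr])] with n hn
  have := riemann ∅ (B n * (∏ y ∈ T, (R n).pt (D.c y n)) ^ (k + 1 : ℤ))
  simp only [deg_mul, deg_zpow, deg_prod, deg_pt] at *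
  omega

/-- **conservation of the arithmetic genus** -/
theorem Dg.Old.gen_eq (ho : D.Old N pm N₀ p₀ N₁) : ∀ᶠ n in U, gen (R n) (N n) = gen Q N₁ := by
  obtain ⟨b, -⟩ := exists_one D
  obtain ⟨c, -⟩ := exists_omega D.old_empty
  filter_upwards [b.chi_le, c.chi_le, ho.card.2] with n h1 h2 h3
  have := ho.card.1
  simp only [deg_omega, deg_one, Finset.univ_eq_empty, Finset.image_empty, Finset.card_empty, gen]
    at *
  omega

/-- **conservation of the degree** -/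
theorem BL.deg_eq (b : BL D B L) : ∀ᶠ n in U, deg (B n) = deg L := by
  obtain ⟨c, -⟩ := b.exists_zpow (-1)
  filter_upwards [b.chi_le, c.chi_le, D.old_empty.gen_eq] with n h1 h2 h3
  simp only [deg_zpow] at h2
  omega

theorem Dg.exists_clopen (D : Dg U R Q) {C : Set Y} (hC : IsClopen C)
    (sat : ∀ m ∈ D.M, m.1 ∈ C ↔ m.2 ∈ C) : ∃ C' : ∀ n, Set (X n), (∀ n, IsClopen (C' n)) ∧
      ∀ y, ∃ δ > 0, ∀ᶠ n in U, ∀ w ∈ D.rg y n δ, (w ∈ C' n ↔ y ∈ C) := by
  classical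
  choose δ hδ h using exists_rad D hC sat
  obtain ⟨T, hT⟩ := D.fin_cover hδ
  have a : ∀ y, ∀ᶠ n in U, ∀ y' ∈ T, ∀ w ∈ D.rg y n (δ y), w ∈ D.rg y' n (δ y') →
      (y' ∈ C ↔ y ∈ C) := fun y => (eventually_all_finset T).2 fun y' _ => by
    by_contra hn
    obtain ⟨p, hp⟩ := BasP.choice ((Ultrafilter.eventually_not.2 hn).mono fun n => not_forall.1)
    simp only [not_forall, exists_prop] at hp
    obtain ⟨z, hz⟩ := D.cover p
    exact hp.exists.choose_spec.2.2 ((h y' p z (hp.mono fun n e => e.2.1) hz).symm.trans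
      (h y p z (hp.mono fun n e => e.1) hz))
  let A : ∀ n, Set (X n) := fun n => ⋃ y ∈ T, ⋃ _ : y ∈ C, D.rg y n (δ y)
  have b : ∀ y, ∀ᶠ n in U, ∀ w ∈ D.rg y n (δ y), (w ∈ A n ↔ y ∈ C) := fun y => by
    filter_upwards [hT, a y] with n c d w hw
    simp only [A, mem_iUnion]
    obtain ⟨y', e, f⟩ := c w
    exact ⟨fun ⟨z, e, f, g⟩ => (d z e w hw g).1 f, fun g => ⟨y', e, (d y' e w hw f).2 g, f⟩⟩
  have c : ∀ᶠ n in U, IsClopen (A n) := by
    filter_upwards [hT, (eventually_all_finset T).2 fun y _ => b y] with n c d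
    refine ⟨⟨isOpen_iff_eventually.2 fun w hw => ?_⟩, isOpen_iUnion fun _ =>
      isOpen_iUnion fun _ => isOpen_iUnion fun _ => Dg.isOpen_rg⟩
    obtain ⟨y, e, f⟩ := c w
    exact Eventually.mono (Dg.isOpen_rg.mem_nhds f) fun v hv g =>
      hw ((d y e w f).2 ((d y e v hv).1 g))
  refine ⟨fun n => if IsClopen (A n) then A n else ∅, fun n => ?_, fun y => ⟨δ y, hδ y, ?_⟩⟩
  · dsimp only
    split_ifs with e
    exacts [e, isClopen_empty]
  · filter_upwards [c, b y] with n e f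
    rwa [if_pos e]

theorem BL.degOn_eq (b : BL D B L) {C : Set Y} (hC : IsClopen C) {C' : ∀ n, Set (X n)}
    (hC' : ∀ n, IsClopen (C' n))
    (h : ∀ y, ∃ δ > 0, ∀ᶠ n in U, ∀ w ∈ D.rg y n δ, (w ∈ C' n ↔ y ∈ C)) :
    ∀ᶠ n in U, degOn (B n) (C' n) = degOn L C := by
  classical
  let c : BL D (fun n => (B n).res (hC' n)) (L.res hC) :=
    { ε y n w := if y ∈ C then b.ε y n w else 1
      fr y := by
        obtain ⟨δ, a, c⟩ := b.fr y
        obtain ⟨δ', a', c'⟩ := h y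
        refine ⟨_, lt_min a a', (c.and c').mono fun n e w hw => ?_⟩
        have f := e.2 w (Dg.rg_mono (min_le_right _ _) hw)
        split_ifs with g
        · rw [LB.sec_res _ (f.2 g)]
          exact e.1 w (Dg.rg_mono (min_le_left _ _) hw)
        · exact ⟨(LB.sec_res' _ (mt f.1 g)).2 (RS.hol_const 1), one_ne_zero⟩
      neck m hm := by
        obtain ⟨p, hp⟩ := D.exists_to m.1
        obtain ⟨δ, a, c⟩ := h m.1
        obtain ⟨δ', a', c'⟩ := h m.2
        obtain ⟨n, e⟩ := ((c.and (hp δ a)).and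
          (c'.and ((Dg.to_neck (.inl hm)).1 hp δ' a'))).exists
        simp only [(e.2.1 _ e.2.2).symm.trans (e.1.1 _ e.1.2)]
        split_ifs
        exacts [b.neck m hm, ⟨1, one_pos, .of_forall fun _ _ _ => rfl⟩]
      cv y := by
        filter_upwards [b.cv y, nhdsWithin_le_nhds (ev_mem hC y)] with z a e p hp
        simp only [e]
        split_ifs with g
        · rw [LB.res_φ hC g]; exact a p hp
        · rw [LB.res_φ' hC g, div_one]; exact tendsto_const_nhds }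
  filter_upwards [c.deg_eq] with n e
  rwa [Cv.degOn_eq hC, Cv.degOn_eq (hC' n)]

theorem BL.le_degOn (b : BL D B L) {k : ℤ} (h : ∀ᶠ n in U, Ge (B n) k) {C : Set Y}
    (hC : IsClopen C) (hne : C.Nonempty) (sat : ∀ m ∈ D.M, m.1 ∈ C ↔ m.2 ∈ C) :
    k ≤ degOn L C := by
  obtain ⟨C', a, c⟩ := D.exists_clopen hC sat
  obtain ⟨y, hy⟩ := hne
  obtain ⟨p, hp⟩ := D.exists_to y
  obtain ⟨δ, hδ, d⟩ := c y
  obtain ⟨n, e⟩ := ((h.and (b.degOn_eq hC a c)).and (d.and (hp δ hδ))).exists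
  exact e.1.2 ▸ e.1.1 _ (a n) ⟨_, (e.2.1 _ e.2.2).2 hy⟩

end Vale.Agent.P269.Cpt
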