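import Vale.Agent.P269.Cpt.Bas

/-!
# Limits of sections, limit bundles from frames
-/

set_option linter.unusedSectionVars false

namespace Vale.Agent.P269.Cpt

open Set Function Topology Filter Metric Module Vale.Agent.P269.Cv

variable {X : ℕ → Type} [∀ n, TopologicalSpace (X n)] [∀ n, T2Space (X n)]
  [∀ n, CompactSpace (X n)] [∀ n, Nonempty (X n)] {Y : Type} [TopologicalSpace Y] [T2Space Y]
  [CompactSpace Y] {U : Ultrafilter ℕ} {R : ∀ n, RS (X n)} {Q : RS Y} {D : Dg U R Q}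
  {B B' : ∀ n, LB (R n)} {L L' : LB Q} {p q : ∀ n, X n} {x y y' z : Y} {s s' : ∀ n, X n → ℂ}
  {σ σ' : Y → ℂ} {Z : ∀ n, Set (X n)} {ν : Type} [Fintype ν] {N : ∀ n, Finset (X n × X n)}
  {pm : ∀ n, ν → X n} {N₀ N₁ : Finset (Y × Y)} {p₀ : ν → Y}

namespace SecP

theorem mem_ann {τ u : ℂ} {r r' : ℝ} (h : r < r') (h1 : ‖u‖ ≤ r) (h2 : ‖τ‖ ≤ r * ‖u‖) :
    u ∈ ann τ r' := by
  refine ⟨h1.trans_lt h, (eq_or_ne τ 0).imp_right fun h0 => h2.trans_lt ?_⟩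
  refine mul_lt_mul_of_pos_right h (norm_pos_iff.2 ?_)
  rintro rfl
  simp [h0] at h2

/-- Montel's theorem on degenerating necks. -/
theorem montel_ann {τ : ℕ → ℂ} (hτ : Tendsto τ U (𝓝 0)) {f : ℕ → ℂ → ℂ} {δ C : ℝ} (hδ : 0 < δ)
    (hf : ∀ᶠ n in U, ∀ u ∈ ann (τ n) δ, AnalyticAt ℂ (f n) u ∧ ‖f n u‖ ≤ C) :
    ∃ g, DifferentiableOn ℂ g (ball 0 (δ / 4)) ∧ ∀ t ∈ ball (0 : ℂ) (δ / 4), ∀ t' : ℕ → ℂ,
      Tendsto t' U (𝓝 t) → (∀ᶠ n in U, τ n = 0 ∨ t' n ≠ 0) →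
      Tendsto (fun n => τ n / t' n) U (𝓝 0) → Tendsto (fun n => f n (t' n)) U (𝓝 (g t)) := by
  have hr : 0 < δ / 2 := half_pos hδ
  have hr' : δ / 2 < δ := half_lt_self hδ
  have key : ∀ n, ∃ a b : ℂ → ℂ, (‖τ n‖ < (δ / 2 / 2) ^ 2 ∧ ∀ u ∈ ann (τ n) δ,
      AnalyticAt ℂ (f n) u ∧ ‖f n u‖ ≤ C) → DifferentiableOn ℂ a (ball 0 (δ / 2)) ∧
      DifferentiableOn ℂ b (ball 0 (δ / 2)) ∧
      (∀ u, ‖u‖ ≤ δ / 2 / 2 → ‖a u‖ ≤ 2 * C ∧ ‖b u‖ ≤ 2 * C) ∧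
      ∀ z : ℂ × ℂ, z.1 * z.2 = τ n → ‖z‖ < δ / 2 → f n z.1 = a z.1 + b z.2 := by
    intro n
    by_cases h : ‖τ n‖ < (δ / 2 / 2) ^ 2 ∧ ∀ u ∈ ann (τ n) δ, AnalyticAt ℂ (f n) u ∧ ‖f n u‖ ≤ C
    · obtain ⟨a, b, hab⟩ := Base.laurent_split (φ := fun z => f n z.1) (B := C) hr h.1
        (fun u h1 h2 _ => (h.2 u (mem_ann hr' h1 h2)).1) (fun v h1 h2 h3 => by
          rcases eq_or_ne (τ n) 0 with h0 | h0
          · simp only [h0, zero_div]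
            exact analyticAt_const
          · have hv : v ≠ 0 := h3.resolve_right h0
            have hv' : 0 < ‖v‖ := norm_pos_iff.2 hv
            refine AnalyticAt.comp (g := f n) (f := fun y => τ n / y) (h.2 _ (mem_ann hr' ?_ ?_)).1
              (analyticAt_const.div analyticAt_id hv)
            · rwa [norm_div, div_le_iff₀ hv']
            · rw [norm_div, ← mul_div_assoc, le_div_iff₀ hv', mul_comm]
              exact mul_le_mul_of_nonneg_right h1 (norm_nonneg _))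
        fun z h1 h2 => (h.2 _ (mem_ann hr' ((norm_fst_le z).trans h2) (by
          rw [← h1, norm_mul, mul_comm]
          exact mul_le_mul_of_nonneg_right ((norm_snd_le z).trans h2) (norm_nonneg _)))).2
      exact ⟨a, b, fun _ => hab⟩
    · exact ⟨0, 0, fun h' => absurd h' h⟩
  choose a b hab using key
  have hev := ((hτ.norm.eventually (gt_mem_nhds
    (show ‖(0 : ℂ)‖ < (δ / 2 / 2) ^ 2 by rw [norm_zero]; positivity))).and hf).mono hab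
  have hs : ball (0 : ℂ) (δ / 4) ⊆ ball 0 (δ / 2) := ball_subset_ball (by linarith)
  have hs' : ∀ u ∈ ball (0 : ℂ) (δ / 4), ‖u‖ ≤ δ / 2 / 2 := fun u hu => by
    linarith [mem_ball_zero_iff.1 hu]
  obtain ⟨a', ha, ha'⟩ := Base.montel U (f := a) (r := δ / 4) (B := 2 * C)
    (hev.mono fun n hn => ⟨hn.1.mono hs, fun u hu => (hn.2.2.1 u (hs' u hu)).1⟩)
  obtain ⟨b', hb, hb'⟩ := Base.montel U (f := b) (r := δ / 4) (B := 2 * C)
    (hev.mono fun n hn => ⟨hn.2.1.mono hs, fun u hu => (hn.2.2.1 u (hs' u hu)).2⟩)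
  have cv : ∀ {c : ℕ → ℂ → ℂ} {c' : ℂ → ℂ}, DifferentiableOn ℂ c' (ball 0 (δ / 4)) →
      TendstoLocallyUniformlyOn c c' U (ball 0 (δ / 4)) → ∀ t ∈ ball (0 : ℂ) (δ / 4),
      ∀ t' : ℕ → ℂ, Tendsto t' U (𝓝 t) → Tendsto (fun n => c n (t' n)) U (𝓝 (c' t)) :=
    fun h1 h2 t ht t' h3 => h2.tendsto_comp (h1.continuousOn t ht) ht
      (by rwa [isOpen_ball.nhdsWithin_eq ht])
  refine ⟨fun t => a' t + b' 0, ha.add_const _, fun t ht t' h1 h2 h3 =>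
    ((cv ha ha' t ht t' h1).add (cv hb hb' 0 (mem_ball_self (by positivity)) _ h3)).congr' ?_⟩
  filter_upwards [hev, h2, h1.norm.eventually (gt_mem_nhds (mem_ball_zero_iff.1 (hs ht))),
    h3.norm.eventually (gt_mem_nhds (show ‖(0 : ℂ)‖ < δ / 2 by rwa [norm_zero]))] with n a1 a2 a3 a4
  refine (a1.2.2.2 (t' n, τ n / t' n) ?_ (max_lt a3 a4)).symm
  rcases a2 with a2 | a2
  · simp [a2]
  · exact mul_div_cancel₀ _ a2

/-- The local limit of bounded holomorphic functions. -/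
theorem loc_lim {F : ∀ n, X n → ℂ} {k : ℝ} {δ : ℝ} (hδ : 0 < δ)
    (hF : ∀ᶠ n in U, ∀ w ∈ D.rg y n δ, (R n).Hol (F n) w ∧ ‖F n w‖ ≤ k) :
    ∃ g : ℂ → ℂ, AnalyticAt ℂ g 0 ∧ (∀ p, D.To p y → Tendsto (fun n => F n (p n)) U (𝓝 (g 0))) ∧
      ∀ᶠ t in 𝓝[≠] (0 : ℂ), Tendsto (fun n => F n ((D.E y n).symm t)) U (𝓝 (g t)) := by
  obtain ⟨r, hr, h1⟩ := D.tgt y
  have h0 : 0 < min r δ := lt_min hr hδ
  obtain ⟨g, hg, hc⟩ := montel_ann (D.tend y) (f := fun n t => F n ((D.E y n).symm t)) (C := k) h0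
    (by
      filter_upwards [h1, hF, D.cmp y] with n a1 a2 a3 u hu
      have b1 := a1 (ann_mono (min_le_left _ _) hu)
      have b2 := a2 ((D.E y n).symm u) ⟨(D.E y n).map_target b1, by
        rw [mem_preimage, (D.E y n).right_inv b1]
        exact ann_mono (min_le_right _ _) hu⟩
      exact ⟨(a3.hol_iff' b1).1 b2.1, b2.2⟩)
  have hb : ball (0 : ℂ) (min r δ / 4) ∈ 𝓝 (0 : ℂ) := ball_mem_nhds _ (by positivity)
  refine ⟨g, hg.analyticAt hb, fun p hp => ?_, ?_⟩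
  · obtain ⟨a1, a2, a3⟩ := Dg.to_iff.1 hp
    refine (hc 0 (mem_ball_self (by positivity)) _ a2 (a1.mono fun _ h => h.2) a3).congr' ?_
    exact a1.mono fun n h => congrArg (F n) ((D.E y n).left_inv h.1)
  · filter_upwards [mem_nhdsWithin_of_mem_nhds hb, self_mem_nhdsWithin] with t a1 a2
    exact hc t a1 _ tendsto_const_nhds (.of_forall fun _ => Or.inr a2)
      (by simpa using (D.tend y).div_const t)

/-- The same from bounds along the sequences tending to `y`. -/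
theorem loc_lim' {F : ∀ n, X n → ℂ} (hF : ∀ p, D.To p y → (∀ᶠ n in U, (R n).Hol (F n) (p n)) ∧
      ∃ C : ℝ, ∀ᶠ n in U, ‖F n (p n)‖ ≤ C) :
    ∃ g : ℂ → ℂ, AnalyticAt ℂ g 0 ∧ (∀ p, D.To p y → Tendsto (fun n => F n (p n)) U (𝓝 (g 0))) ∧
      ∀ᶠ t in 𝓝[≠] (0 : ℂ), Tendsto (fun n => F n ((D.E y n).symm t)) U (𝓝 (g t)) := by
  obtain ⟨δ, hδ, k, hk⟩ := Dg.unif (D := D) (y := y)
    (P := fun k n w => (R n).Hol (F n) w ∧ ‖F n w‖ ≤ k)
    (fun k k' h n w a => ⟨a.1, a.2.trans (by exact_mod_cast h)⟩) fun p hp =>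
      let ⟨a, C, c⟩ := hF p hp
      ⟨⌈C⌉₊, (a.and c).mono fun _ h => ⟨h.1, h.2.trans (Nat.le_ceil C)⟩⟩
  exact loc_lim hδ hk

theorem fr_to {ε : ∀ n, X n → ℂ}
    (fr : ∃ δ > 0, ∀ᶠ n in U, ∀ w ∈ D.rg y n δ, (B n).Sec (ε n) w ∧ ε n w ≠ 0) (hp : D.To p y) :
    ∀ᶠ n in U, (B n).Sec (ε n) (p n) ∧ ε n (p n) ≠ 0 :=
  let ⟨δ, hδ, h⟩ := fr
  (h.and (hp δ hδ)).mono fun _ a => a.1 _ a.2

/-- change of frame -/
theorem chg {b : BL D B L} (h : b.SL s σ) (y : Y) : ∀ᶠ z in 𝓝[≠] y, ∀ p, D.To p z →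
    Tendsto (fun n => s n (p n) / b.ε y n (p n)) U (𝓝 (σ z / L.φ y z)) :=
  (b.cv y).mono fun z hz p hp => ((h p z hp).div (hz p hp) (L.ne y z)).congr'
    ((fr_to (b.fr z) hp).mono fun _ a => div_div_div_cancel_right₀ a.2 _ _)

theorem neck_to (b : BL D B L) (h : (y, y') ∈ D.M ∨ (y', y) ∈ D.M) (hp : D.To p y) :
    ∀ᶠ n in U, b.ε y' n (p n) = b.ε y n (p n) := by
  rcases h with h | h
  · obtain ⟨δ, hδ, a⟩ := b.neck _ h
    exact (a.and (hp δ hδ)).mono fun n c => c.1 _ c.2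
  · obtain ⟨δ, hδ, a⟩ := b.neck _ h
    exact (a.and ((Dg.to_neck (Or.inr h)).1 hp δ hδ)).mono fun n c => (c.1 _ c.2).symm

theorem small {P : ℂ → Prop} (h : ∀ᶠ t in 𝓝[≠] (0 : ℂ), P t) :
    ∀ᶠ r in 𝓝[>] (0 : ℝ), ∀ t ≠ 0, ‖t‖ ≤ r → P t := by
  obtain ⟨δ, hδ, a⟩ := Metric.eventually_nhds_iff.1 (eventually_nhdsWithin_iff.1 h)
  filter_upwards [mem_nhdsWithin_of_mem_nhds (gt_mem_nhds hδ)] with r hr t h0 ht using
    a (by simpa using ht.trans_lt hr) h0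

theorem small' {P : ∀ n, X n → Prop} (h : ∃ δ > 0, ∀ᶠ n in U, ∀ w ∈ D.rg y n δ, P n w) :
    ∀ᶠ r in 𝓝[>] (0 : ℝ), ∀ᶠ n in U, ∀ w ∈ D.rg y n (2 * r), P n w := by
  obtain ⟨δ, hδ, a⟩ := h
  filter_upwards [mem_nhdsWithin_of_mem_nhds (gt_mem_nhds (half_pos hδ))] with r hr using
    a.mono fun n c w hw => c w (Dg.rg_mono (by linarith [show r < δ / 2 from hr]) hw)

/-- comparison of frames on a fixed neighbourhood -/
theorem cmp_fr (b : BL D B L) (x : Y) : ∀ᶠ r in 𝓝[>] (0 : ℝ), ∀ p y,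
    (∀ᶠ n in U, p n ∈ D.rg x n r) → D.To p y →
      ∃ c ≠ 0, Tendsto (fun n => b.ε x n (p n) / b.ε y n (p n)) U (𝓝 c) := by
  have gd := fun y' => small (Q.ev_ne_iff.1 ((D.ev_sm y').and (b.cv y')))
  filter_upwards [D.trich x, gd x, (eventually_all_finset D.M).2 fun m hm =>
    ((gd m.1).and (gd m.2)).and (small' (b.neck m hm)), self_mem_nhdsWithin]
    with r h1 h2 h3 h0 p y hp hy
  have hr : r ≤ 2 * r := by linarith [show 0 < r from h0]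
  rcases h1 p hp with a | ⟨y', a, a1, t, t0, tr, a2, -⟩
  · refine ⟨1, one_ne_zero, tendsto_const_nhds.congr' ?_⟩
    have e : ∀ᶠ n in U, b.ε y n (p n) = b.ε x n (p n) := by
      rcases D.sep p x y a hy with rfl | c
      · exact .of_forall fun _ => rfl
      · exact neck_to b c a
    exact (e.and (fr_to (b.fr y) hy)).mono fun n c => by
      simp only [← c.1, div_self c.2.2]
  · have e : (Sm D.M (Q.i y' t) ∧ ∀ p, D.To p (Q.i y' t) → Tendsto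
        (fun n => b.ε y' n (p n) / b.ε (Q.i y' t) n (p n)) U (𝓝 (L.φ y' (Q.i y' t)))) ∧
        ∀ᶠ n in U, b.ε y' n (p n) = b.ε x n (p n) := by
      rcases a with rfl | a | a
      · exact ⟨h2 t t0 tr, .of_forall fun _ => rfl⟩
      · exact ⟨(h3 _ a).1.2 t t0 tr, ((h3 _ a).2.and hp).mono fun n c =>
          c.1 _ (Dg.rg_mono hr c.2)⟩
      · exact ⟨(h3 _ a).1.1 t t0 tr, ((h3 _ a).2.and a1).mono fun n c =>
          (c.1 _ (Dg.rg_mono hr c.2)).symm⟩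
    obtain rfl := a2.eq hy e.1.1
    exact ⟨_, L.ne _ _, (e.1.2 p hy).congr' (e.2.mono fun n c => by simp only [c])⟩

theorem bdd {Z : Type} [TopologicalSpace Z] {R : RS Z} {E : OpenPartialHomeomorph Z ℂ} {τ : ℂ}
    {r : ℝ} (hr : 0 < r) (ht : ann τ (2 * r) ⊆ E.target) {F : Z → ℂ}
    (hF : ∀ w ∈ reg E τ (2 * r), R.Hol F w) : ∃ C, ∀ w ∈ reg E τ r, ‖F w‖ ≤ C := by
  have hK : IsCompact (closedBall (0 : ℂ) r ∩ {u | ‖τ‖ ≤ r * ‖u‖}) :=
    (isCompact_closedBall _ _).inter_right (isClosed_le continuous_const (by fun_prop))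
  obtain ⟨C, hC⟩ := hK.exists_bound_of_continuousOn (f := fun u => F (E.symm u)) fun u hu => by
    have a := mem_ann (show r < 2 * r by linarith) (mem_closedBall_zero_iff.1 hu.1) hu.2
    exact ((hF _ ⟨E.map_target (ht a), by
      rwa [mem_preimage, E.right_inv (ht a)]⟩).continuousAt.comp
        (E.continuousAt_symm (ht a))).continuousWithinAt
  refine ⟨C, fun w hw => ?_⟩
  have := hC (E w) ⟨mem_closedBall_zero_iff.2 hw.2.1.le, hw.2.2.elim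
    (fun a => by simp only [a, norm_zero, mem_ofPred_eq]; positivity) le_of_lt⟩
  rwa [E.left_inv hw.1] at this

theorem sm_old (h : D.Old N pm N₀ p₀ N₁) {m : Y × Y} (hm : m ∈ N₀) :
    Sm D.M m.1 ∧ Sm D.M m.2 := by
  have a := (h.mem m).2 (Or.inl hm)
  have b := fun n hn => (h.mem n).2 (Or.inr hn)
  have c : ∀ n ∈ D.M, n ≠ m := fun n hn e => Finset.disjoint_left.1 h.disj hm (e ▸ hn)
  exact ⟨fun n hn => ⟨fun e => c n hn (h.nd.inj1 (b n hn) a e), (h.nd.ne m a n (b n hn)).symm⟩,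
    fun n hn => ⟨h.nd.ne n (b n hn) m a, fun e => c n hn (h.nd.inj2 (b n hn) a e)⟩⟩

end SecP

open SecP

theorem BL.exists_sl (b : BL D B L) (hs : ∀ᶠ n in U, s n ∈ (B n).Γ)
    (bd : ∀ p y, D.To p y → ∃ C : ℝ, ∀ᶠ n in U, ‖s n (p n) / b.ε y n (p n)‖ ≤ C) :
    ∃ σ ∈ L.Γ, b.SL s σ := by
  choose g h1 h2 h3 using fun y => loc_lim' (D := D) (y := y)
    (F := fun n w => s n w / b.ε y n w) fun p hp =>
      ⟨(hs.and (fr_to (b.fr y) hp)).mono fun n a => (a.1 _).hol_div a.2.1 a.2.2, bd p y hp⟩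
  have hσ : b.SL s fun y => g y 0 := fun p y hp => h2 y p hp
  refine ⟨_, fun y => (h1 y).congr ?_, hσ⟩
  rw [EventuallyEq, ← nhdsNE_sup_pure, eventually_sup, eventually_pure, LB.loc_zero]
  refine ⟨?_, rfl⟩
  filter_upwards [h3 y, D.to_symm y, Q.ev_ne_iff.1 (chg hσ y)] with t a1 a2 a3 using
    tendsto_nhds_unique a1 (a3 _ (a2 _ tendsto_const_nhds))

theorem BL.exists_norm (b : BL D B L) (hs : ∀ᶠ n in U, s n ∈ (B n).Γ ∧ s n ≠ 0) :
    ∃ (l : ℕ → ℂ) (σ : Y → ℂ), σ ∈ L.Γ ∧ σ ≠ 0 ∧ b.SL (fun n => l n • s n) σ := by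
  have h0 : ∀ x, ∀ᶠ r in 𝓝[>] (0 : ℝ), ∀ᶠ n in U, ann (D.τ x n) (2 * r) ⊆ (D.E x n).target :=
    fun x => by
      obtain ⟨δ, hδ, a⟩ := D.tgt x
      filter_upwards [mem_nhdsWithin_of_mem_nhds (gt_mem_nhds (half_pos hδ))] with r hr using
        a.mono fun n c => (ann_mono (by linarith [show r < δ / 2 from hr])).trans c
  choose r h1 h2 h3 h4 using fun x =>
    ((cmp_fr b x).and ((small' (b.fr x)).and ((h0 x).and self_mem_nhdsWithin))).exists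
  have h4' : ∀ x, 0 < r x := h4
  obtain ⟨T, hT⟩ := D.fin_cover h4'
  have key : ∀ᶠ n in U, ∃ (w : X n) (x : T), w ∈ D.rg x n (r x) ∧ s n w / b.ε x n w ≠ 0 ∧
      ∀ x' ∈ T, ∀ w' ∈ D.rg x' n (r x'), ‖s n w' / b.ε x' n w'‖ ≤ 2 * ‖s n w / b.ε x n w‖ := by
    filter_upwards [hs, hT, (eventually_all_finset T).2 fun x _ => (h2 x).and (h3 x)]
      with n a1 a2 a3
    set S : Set ℝ := ⋃ x ∈ T, (fun w => ‖s n w / b.ε x n w‖) '' D.rg x n (r x) with hS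
    have b1 : BddAbove S := T.finite_toSet.bddAbove_biUnion.2 fun x hx => by
      obtain ⟨C, hC⟩ := bdd (h4' x) (a3 x hx).2 (F := fun w => s n w / b.ε x n w) fun w hw =>
        (a1.1 w).hol_div ((a3 x hx).1 w hw).1 ((a3 x hx).1 w hw).2
      exact ⟨C, forall_mem_image.2 hC⟩
    have b2 : ∀ x ∈ T, ∀ w ∈ D.rg x n (r x), ‖s n w / b.ε x n w‖ ≤ sSup S := fun x hx w hw =>
      le_csSup b1 (mem_biUnion hx ⟨w, hw, rfl⟩)
    obtain ⟨w, hw⟩ := Function.ne_iff.1 a1.2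
    obtain ⟨x, hx, hwx⟩ := a2 w
    have b3 : 0 < sSup S := lt_of_lt_of_le (norm_pos_iff.2 (div_ne_zero hw ((a3 x hx).1 w
      (Dg.rg_mono (by linarith [h4' x]) hwx)).2)) (b2 x hx w hwx)
    obtain ⟨v, hv, b4⟩ := exists_lt_of_lt_csSup (s := S) ⟨_, mem_biUnion hx ⟨w, hwx, rfl⟩⟩
      (half_lt_self b3)
    obtain ⟨x', hx', w', hw', rfl⟩ := mem_iUnion₂.1 hv
    exact ⟨w', ⟨x', hx'⟩, hw', norm_pos_iff.1 ((half_pos b3).trans b4), fun x hx w hw => by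
      linarith [b2 x hx w hw]⟩
  obtain ⟨x, hx⟩ := Ultrafilter.eventually_exists_iff.1 (key.mono fun _ h => exists_comm.1 h)
  obtain ⟨w, hw⟩ := Filter.skolem.1 hx
  obtain ⟨σ, s1, s2⟩ := b.exists_sl (s := fun n => (s n (w n) / b.ε x n (w n))⁻¹ • s n)
    (hs.mono fun n a => Submodule.smul_mem _ _ a.1) fun p y hp => by
      obtain ⟨x', hx'⟩ := Ultrafilter.eventually_exists_iff.1
        (hT.mono fun n a => (show ∃ x' : T, p n ∈ D.rg x' n (r x') from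
          let ⟨x', c, d⟩ := a (p n); ⟨⟨x', c⟩, d⟩))
      obtain ⟨c, -, hc⟩ := h1 x' p y hx' hp
      refine ⟨2 * (‖c‖ + 1), ?_⟩
      filter_upwards [hw, hx', h2 x', hc.norm.eventually (gt_mem_nhds (lt_add_one _))]
        with n a1 a2 a3 a4
      have b1 := (a3 _ (Dg.rg_mono (by linarith [h4' x']) a2)).2
      rw [Pi.smul_apply, smul_eq_mul, mul_div_assoc, ← div_mul_div_cancel₀ (a := s n (p n)) b1,
        ← mul_assoc, norm_mul, norm_mul, norm_inv]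
      refine mul_le_mul ?_ a4.le (norm_nonneg _) zero_le_two
      rw [inv_mul_le_iff₀ (norm_pos_iff.2 a1.2.1), mul_comm]
      exact a1.2.2 _ x'.2 _ a2
  refine ⟨_, σ, s1, fun e => ?_, s2⟩
  obtain ⟨y, hy⟩ := D.cover w
  obtain ⟨c, c0, hc⟩ := h1 x w y (hw.mono fun n a => a.1) hy
  refine c0 (tendsto_nhds_unique hc ((show (0 : ℂ) = σ y by rw [e]; rfl) ▸ (s2 w y hy).congr'
    (hw.mono fun n a => ?_)))
  simp only [Pi.smul_apply, smul_eq_mul, inv_div, div_mul_cancel₀ _ (div_ne_zero_iff.1 a.2.1).1]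

theorem BL.SL.neck {b : BL D B L} (h : b.SL s σ) {m : Y × Y} (hm : m ∈ D.M) : σ m.1 = σ m.2 := by
  obtain ⟨p, hp⟩ := D.exists_to m.1
  exact tendsto_nhds_unique (h p _ hp) ((h p _ ((Dg.to_neck (Or.inl hm)).1 hp)).congr'
    ((neck_to b (Or.inl hm) hp).mono fun n a => by simp only [a]))

theorem BL.SL.mem {b : BL D B L} (h : b.SL s σ) (hσ : σ ∈ L.Γ) (ho : D.Old N pm N₀ p₀ N₁)
    (hp : b.Pr N₀) (hs : ∀ᶠ n in U, s n ∈ H0 (N n) (B n)) : σ ∈ H0 N₁ L := by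
  refine ⟨hσ, fun m hm => ((ho.mem m).1 hm).elim (fun hm => ?_) h.neck⟩
  have a1 := Dg.to_c (sm_old ho hm).1
  refine tendsto_nhds_unique (by simpa using (h _ _ a1).mul (hp m hm))
    ((h _ _ (Dg.to_c (sm_old ho hm).2)).congr' ?_)
  filter_upwards [hs, ho.node, fr_to (b.fr m.1) a1] with n b1 b2 b3
  rw [← show s n (D.c m.1 n) = s n (D.c m.2 n) from b1.2 _ ((b2 _).2 ⟨m, hm, rfl⟩),
    div_mul_div_cancel₀ b3.2]

theorem BL.SL.loc {b : BL D B L} (h : b.SL s σ) (hy : Sm D.M y) : ∀ᶠ t in 𝓝 (0 : ℂ),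
    ∀ t' : ℕ → ℂ, Tendsto t' U (𝓝 t) →
      Tendsto (fun n => s n ((D.E y n).symm (t' n)) / b.ε y n ((D.E y n).symm (t' n))) U
        (𝓝 (L.loc σ y t)) := by
  rw [← nhdsNE_sup_pure, eventually_sup, eventually_pure, LB.loc_zero]
  refine ⟨?_, fun t' ht => h _ _ ((Dg.to_sm hy).2 ?_)⟩
  · filter_upwards [D.to_symm y, Q.ev_ne_iff.1 (chg h y)] with t a2 a3 t' ht using a3 _ (a2 _ ht)
  · obtain ⟨r, hr, a⟩ := D.tgt y
    have c : ∀ᶠ n in U, t' n ∈ (D.E y n).target :=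
      (a.and (ht.eventually (ball_mem_nhds _ hr))).mono fun n c =>
        c.1 (by rw [D.sm y hy, ann_zero]; exact c.2)
    exact ⟨c.mono fun n c => (D.E y n).map_target c,
      ht.congr' (c.mono fun n c => ((D.E y n).right_inv c).symm)⟩

theorem exists_bl (D : Dg U R Q) (B : ∀ n, LB (R n)) (ε : Y → ∀ n, X n → ℂ)
    (fr : ∀ y, ∃ δ > 0, ∀ᶠ n in U, ∀ w ∈ D.rg y n δ, (B n).Sec (ε y n) w ∧ ε y n w ≠ 0)
    (neck : ∀ m ∈ D.M, ∃ δ > 0, ∀ᶠ n in U, ∀ w ∈ D.rg m.1 n δ, ε m.2 n w = ε m.1 n w)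
    (bd : ∀ y, ∀ᶠ z in 𝓝[≠] y, ∀ p, D.To p z → ∃ C : ℝ, ∀ᶠ n in U,
      ‖ε y n (p n) / ε z n (p n)‖ ≤ C ∧ ‖ε z n (p n) / ε y n (p n)‖ ≤ C) :
    ∃ (L : LB Q) (b : BL D B L), b.ε = ε := by
  classical
  have key : ∀ y, ∀ᶠ z in 𝓝[≠] y, ∃ g : ℂ → ℂ, AnalyticAt ℂ g 0 ∧ g 0 ≠ 0 ∧
      (∀ p, D.To p z → Tendsto (fun n => ε y n (p n) / ε z n (p n)) U (𝓝 (g 0))) ∧
      ∀ᶠ t in 𝓝[≠] (0 : ℂ), Tendsto
        (fun n => ε y n ((D.E z n).symm t) / ε z n ((D.E z n).symm t)) U (𝓝 (g t)) := by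
    intro y
    obtain ⟨δ, hδ, h⟩ := fr y
    filter_upwards [bd y, D.near y, self_mem_nhdsWithin, mem_nhdsWithin_of_mem_nhds
      ((Q.src_nhds y).and ((Q.tends_e y).eventually (ball_mem_nhds _ hδ)))] with z a1 a2 a3 a4
    have h1 : ∀ p, D.To p z → ∀ᶠ n in U, (B n).Sec (ε y n) (p n) ∧ ε y n (p n) ≠ 0 := by
      intro p hp
      obtain ⟨b1, b2⟩ := (a2 p).1 hp
      have b3 : 0 < δ * ‖Q.e y z‖ :=
        mul_pos hδ (norm_pos_iff.2 fun e => a3 ((Q.e_eq_zero a4.1).1 e))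
      filter_upwards [h, b1, b2.norm.eventually (gt_mem_nhds (mem_ball_zero_iff.1 a4.2)),
        ((b2.norm.const_mul δ).sub (D.tend y).norm).eventually
          (lt_mem_nhds (show 0 < _ by simpa using b3))] with n c1 c2 c3 c4 using
        c1 _ ⟨c2, c3, Or.inr (sub_pos.1 c4)⟩
    obtain ⟨g, g1, g2, g3⟩ := loc_lim' (D := D) (y := z) (F := fun n w => ε y n w / ε z n w)
      fun p hp => ⟨((h1 p hp).and (fr_to (fr z) hp)).mono fun n a => a.1.1.hol_div a.2.1 a.2.2,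
        let ⟨C, c⟩ := a1 p hp; ⟨C, c.mono fun n a => a.1⟩⟩
    refine ⟨g, g1, fun e => ?_, g2, g3⟩
    obtain ⟨p, hp⟩ := D.exists_to z
    obtain ⟨C, c⟩ := a1 p hp
    have b1 := ((g2 p hp).norm.mul_const C).eventually
      (gt_mem_nhds (show _ < (1 : ℝ) by simp [e]))
    obtain ⟨n, c1, c2, c3, c4⟩ := (b1.and (c.and ((h1 p hp).and (fr_to (fr z) hp)))).exists
    have := mul_le_mul_of_nonneg_left c2.2 (norm_nonneg (ε y n (p n) / ε z n (p n)))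
    rw [← norm_mul, div_mul_div_cancel₀ c4.2, div_self c3.2, norm_one] at this
    exact absurd (this.trans_lt c1) (lt_irrefl _)
  set P : Y → Y → ℂ → Prop := fun y z v =>
    v ≠ 0 ∧ ∀ p, D.To p z → Tendsto (fun n => ε y n (p n) / ε z n (p n)) U (𝓝 v) with hP
  set ψ : Y → Y → ℂ := fun y z => if z = y then 1 else Classical.epsilon (P y z) with hψ
  have h0 : ∀ y, ψ y y = 1 := fun y => if_pos rfl
  have h1 : ∀ y, ∀ᶠ z in 𝓝[≠] y, P y z (ψ y z) := fun y => by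
    filter_upwards [key y, self_mem_nhdsWithin] with z ⟨g, _, g2, g3, _⟩ a
    rw [show ψ y z = _ from if_neg a]
    exact Classical.epsilon_spec ⟨g 0, g2, g3⟩
  have ne : ∀ y, ∀ᶠ z in 𝓝 y, ψ y z ≠ 0 := fun y => by
    rw [← nhdsNE_sup_pure, eventually_sup, eventually_pure, h0]
    exact ⟨(h1 y).mono fun z a => a.1, one_ne_zero⟩
  have hol : ∀ y, ∀ᶠ z in 𝓝 y, Q.Hol (fun w => ψ y w / ψ z w) z := fun y => by
    rw [← nhdsNE_sup_pure, eventually_sup, eventually_pure]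
    refine ⟨?_, (RS.hol_const (1 : ℂ)).congr ((ne y).mono fun z a => (div_self a).symm)⟩
    filter_upwards [key y, h1 y, self_mem_nhdsWithin, eventually_eventually_nhdsWithin.2 (h1 y)]
      with z ⟨g, g1, _, g3, g4⟩ a1 a2 a3
    refine g1.congr ?_
    rw [EventuallyEq, ← nhdsNE_sup_pure, eventually_sup, eventually_pure, Q.i_zero]
    obtain ⟨p, hp⟩ := D.exists_to z
    refine ⟨?_, by simpa only [h0, div_one] using tendsto_nhds_unique (g3 p hp) (a1.2 p hp)⟩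
    rw [isOpen_compl_singleton.nhdsWithin_eq a2] at a3
    filter_upwards [g4, D.to_symm z, Q.ev_ne_iff.1 (h1 z),
      mem_nhdsWithin_of_mem_nhds (Q.ev_iff.1 a3)] with t b1 b2 b3 b4
    have b5 := b2 _ tendsto_const_nhds
    exact tendsto_nhds_unique b1 (((b4.2 _ b5).div (b3.2 _ b5) b3.1).congr'
      ((fr_to (fr _) b5).mono fun n a => div_div_div_cancel_right₀ a.2 _ _))
  refine ⟨LB.of ψ ne hol, ⟨ε, fr, neck, fun y => (h1 y).mono fun z a p hp => ?_⟩, rfl⟩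
  simpa only [LB.of, if_neg a.1, h0, div_one] using a.2 p hp

end Vale.Agent.P269.Cpt
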