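import Vale.Agent.P269.Cpt.Rat
import Vale.Agent.P269.Cpt.Sec
import Vale.Agent.P269.Cpt.Alg
import Vale.Agent.P269.Cpt.Fam

/-!
# Limit line bundles and limit fields from dominant monomials
-/

set_option linter.unusedSectionVars false

namespace Vale.Agent.P269.Cpt

open Set Function Topology Filter Metric Module Vale.Agent.P269.Cv

variable {X : ℕ → Type} [∀ n, TopologicalSpace (X n)] [∀ n, T2Space (X n)]
  [∀ n, CompactSpace (X n)] [∀ n, Nonempty (X n)] {Y : Type} [TopologicalSpace Y] [T2Space Y]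
  [CompactSpace Y] {U : Ultrafilter ℕ} {R : ∀ n, RS (X n)} {Q : RS Y} {D : Dg U R Q}
  {B B' : ∀ n, LB (R n)} {L L' : LB Q} {p q : ∀ n, X n} {x y y' z : Y} {s s' : ∀ n, X n → ℂ}
  {σ σ' : Y → ℂ} {Z : ∀ n, Set (X n)} {ν : Type} [Fintype ν] {N : ∀ n, Finset (X n × X n)}
  {pm : ∀ n, ν → X n} {N₀ N₁ : Finset (Y × Y)} {p₀ : ν → Y}

namespace DomP

variable {ρ J : Type} [Fintype ρ] [Fintype J] [DecidableEq ρ] {w : J → ρ → ℤ}
  {K : ℕ → Set (J → ℂ)} {K' : Set (J → ℂ)} {χ : Option ρ → ρ → ℤ}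
  {T : Option ρ → Finset (J → ℕ)} {v : ℕ → J → ℂ} {t e e' : ℕ → ρ → ℂ} {a b : J → ℂ}
  {al : Option ρ → J → ℕ}

theorem exists_ext {α : Type} (hM : Nd N₀) (r : Y × Y → α) (g : Y → α) :
    ∃ g' : Y → α, (∀ m ∈ N₀, g' m.2 = r m) ∧ ∀ y, (∀ m ∈ N₀, m.2 ≠ y) → g' y = g y :=
  ⟨extend (fun m : N₀ => m.1.2) (fun m => r m) g, fun m hm => Injective.extend_apply
    (fun a b e => Subtype.ext (hM.inj2 a.2 b.2 e)) _ _ ⟨m, hm⟩,
    fun _ hy => extend_apply' _ _ _ fun ⟨m, e⟩ => hy m m.2 e⟩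

theorem ev_le {u : ℕ → ℂ} {c : ℂ} (h : Tendsto u U (𝓝 c)) : ∀ᶠ n in U, ‖u n‖ ≤ ‖c‖ + 1 :=
  h.norm.eventually_le_const (lt_add_one _)

/-- the value of a monomial -/
noncomputable def mon (α : J → ℕ) (v : J → ℂ) : ℂ := ∏ j, v j ^ α j

theorem tendsto_mon (α : J → ℕ) (h : Tendsto v U (𝓝 a)) :
    Tendsto (fun n => mon α (v n)) U (𝓝 (mon α a)) :=
  tendsto_finsetProd _ fun j _ => (tendsto_pi_nhds.1 h j).pow _

theorem ta_ta (t t' : ρ → ℂ) : ta w t (ta w t' a) = ta w (t * t') a :=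
  funext fun j => by simp [ta, mul_zpow, Finset.prod_mul_distrib, mul_assoc]

theorem ta_inv (t : ρ → ℂ) (j : J) : ta w t⁻¹ a j = a j / ∏ i, t i ^ w j i := by
  simp [ta, div_eq_inv_mul]

theorem step (h : Cones U w K K' χ T) {t : ρ → ℂ} (ht : ∀ i, t i ≠ 0) (i : ρ) :
    ∏ k, t k ^ χ (some i) k = (∏ k, t k ^ χ none k) * t i := by
  simp only [h.step, Pi.add_apply, zpow_add₀ (ht _), Finset.prod_mul_distrib]
  congr 1
  rw [Finset.prod_eq_single i (fun k _ e => by simp [e]) (by simp), Pi.single_eq_same, zpow_one]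

theorem bdd (h : Cones U w K K' χ T) (ht : ∀ᶠ n in U, ∀ i, t n i ≠ 0) (ha : a ∈ K') (hb : b ∈ K')
    (h1 : Tendsto v U (𝓝 a)) (h2 : Tendsto (fun n => ta w (t n) (v n)) U (𝓝 b)) :
    ∃ t' : ρ → ℂ, (∀ i, t' i ≠ 0) ∧ Tendsto t U (𝓝 t') := by
  have key : ∀ o, ∃ l ≠ 0, Tendsto (fun n => ∏ i, t n i ^ χ o i) U (𝓝 l) := fun o => by
    have h3 : ∀ α ∈ T o, Tendsto (fun n => (∏ i, t n i ^ χ o i) * mon α (v n)) U (𝓝 (mon α b)) :=
      fun α hα => (tendsto_mon α h2).congr' (ht.mono fun n c => FamP.prod_ta w c _ (h.wt o α hα))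
    obtain ⟨α, h4, h5⟩ := h.ne o a ha
    obtain ⟨β, h6, h7⟩ := h.ne o b hb
    have h8 : Tendsto (fun n => ∏ i, t n i ^ χ o i) U (𝓝 (mon α b / mon α a)) :=
      ((h3 α h4).div (tendsto_mon α h1) h5).congr'
        (((tendsto_mon α h1).eventually_ne h5).mono fun n c => mul_div_cancel_right₀ _ c)
    refine ⟨_, fun c => h7 ((tendsto_nhds_unique (h3 β h6) (h8.mul (tendsto_mon β h1))).trans ?_),
      h8⟩
    rw [c, zero_mul]
  choose l h0 hl using key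
  refine ⟨fun i => l (some i) / l none, fun i => div_ne_zero (h0 _) (h0 _), tendsto_pi_nhds.2
    fun i => ((hl (some i)).div (hl none) (h0 _)).congr' (ht.mono fun n c => ?_)⟩
  simp only [Pi.div_apply, step h c]
  exact mul_div_cancel_left₀ _ (Finset.prod_ne_zero_iff.2 fun k _ => zpow_ne_zero _ (c k))

variable (U w K') in
/-- in the frames `e` the vectors `v` converge to a point of `K'` -/
def Gf (e : ℕ → ρ → ℂ) (v : ℕ → J → ℂ) : Prop :=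
  (∀ᶠ n in U, ∀ i, e n i ≠ 0) ∧ ∃ a ∈ K', Tendsto (fun n => ta w (e n)⁻¹ (v n)) U (𝓝 a)

theorem Gf.of (ht : ∀ n i, t n i ≠ 0) (ha : a ∈ K')
    (h : Tendsto (fun n => ta w (t n) (v n)) U (𝓝 a)) : Gf U w K' t⁻¹ v :=
  ⟨.of_forall fun n i => inv_ne_zero (ht n i), a, ha, by simpa using h⟩

theorem Gf.ratio (h : Cones U w K K' χ T) (g : Gf U w K' e v) (g' : Gf U w K' e' v) :
    ∃ r : ρ → ℂ, (∀ i, r i ≠ 0) ∧ ∀ i, Tendsto (fun n => e n i / e' n i) U (𝓝 (r i)) := by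
  obtain ⟨h1, a, ha, h2⟩ := g
  obtain ⟨h3, b, hb, h4⟩ := g'
  obtain ⟨r, h5, h6⟩ := bdd h (t := e / e') ((h1.and h3).mono fun n c i =>
    div_ne_zero (c.1 i) (c.2 i)) ha hb h2 (h4.congr' (h1.mono fun n c => by
      simp only [ta_ta]
      exact congrArg (ta w · (v n)) (funext fun i => by simp [div_eq_mul_inv, mul_right_comm, c i])))
  exact ⟨r, h5, tendsto_pi_nhds.1 h6⟩

theorem Gf.mul (h : Cones U w K K' χ T) (g : Gf U w K' e v) {r : ρ → ℂ} (hr : ∀ i, r i ≠ 0)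
    (ht : ∀ i, Tendsto (t · i) U (𝓝 (r i))) (he : ∀ᶠ n in U, ∀ i, e' n i = t n i * e n i) :
    Gf U w K' e' v := by
  obtain ⟨h1, a, ha, h2⟩ := g
  refine ⟨((h1.and he).and (eventually_all.2 fun i => (ht i).eventually_ne (hr i))).mono
    fun n c i => c.1.2 i ▸ mul_ne_zero (c.2 i) (c.1.1 i), _,
    h.inv r⁻¹ (fun i => inv_ne_zero (hr i)) a ha, tendsto_pi_nhds.2 fun j =>
      ((tendsto_finsetProd _ fun i _ => ((ht i).inv₀ (hr i)).zpow₀ (w j i)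
        (.inl (inv_ne_zero (hr i)))).mul (tendsto_pi_nhds.1 h2 j)).congr' (he.mono fun n c => ?_)⟩
  have : (e' n)⁻¹ = (t n)⁻¹ * (e n)⁻¹ := funext fun i => by simp [c i, mul_comm]
  simp only [this, ← ta_ta]
  rfl

/-- the frame given by monomials -/
noncomputable def fr (al : Option ρ → J → ℕ) (v : J → ℂ) (i : ρ) : ℂ :=
  mon (al (some i)) v / mon (al none) v

theorem key (h : Cones U w K K' χ T) (hv : ∀ᶠ n in U, v n ∈ K n) (hal : ∀ o, al o ∈ T o)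
    (hd : ∀ o, ∃ C : ℝ, ∀ᶠ n in U, ∀ α ∈ T o, ‖mon α (v n)‖ ≤ C * ‖mon (al o) (v n)‖) :
    Gf U w K' (fun n => fr al (v n)) v := by
  obtain ⟨t, ht, a, ha, h1⟩ := h.cpt v hv
  have h2 : ∀ o n, ∀ α ∈ T o, mon α (ta w (t n) (v n)) = (∏ i, t n i ^ χ o i) * mon α (v n) :=
    fun o n α hα => FamP.prod_ta w (ht n) _ (h.wt o α hα)
  have h3 : ∀ o, mon (al o) a ≠ 0 := fun o c => by
    obtain ⟨C, hC⟩ := hd o
    obtain ⟨α, h4, h5⟩ := h.ne o a ha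
    have := le_of_tendsto_of_tendsto (tendsto_mon α h1).norm
      ((tendsto_mon (al o) h1).norm.const_mul C) (hC.mono fun n d => by
        simp only [h2 o n _ h4, h2 o n _ (hal o), norm_mul, mul_left_comm C]
        exact mul_le_mul_of_nonneg_left (d α h4) (norm_nonneg _))
    rw [c, norm_zero, mul_zero] at this
    exact h5 (norm_le_zero_iff.1 this)
  refine (Gf.of ht ha h1).mul h (fun i => div_ne_zero (h3 (some i)) (h3 none))
    (fun i => (tendsto_mon _ h1).div (tendsto_mon _ h1) (h3 none)) (.of_forall fun n i => ?_)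
  have : ∏ k, t n k ^ χ none k ≠ 0 := Finset.prod_ne_zero_iff.2 fun k _ => zpow_ne_zero _ (ht n k)
  simp only [fr, Pi.div_apply, h2 _ n _ (hal _), step h (ht n), Pi.inv_apply]
  field_simp [ht n i]

end DomP

open DomP

theorem Cones.bdd {ρ J : Type} [Fintype ρ] [Fintype J] [DecidableEq ρ] {w : J → ρ → ℤ}
    {K : ℕ → Set (J → ℂ)} {K' : Set (J → ℂ)} {χ : Option ρ → ρ → ℤ}
    {T : Option ρ → Finset (J → ℕ)} (h : Cones U w K K' χ T) {v : ℕ → J → ℂ} {t : ℕ → ρ → ℂ}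
    (ht : ∀ n i, t n i ≠ 0) {a b : J → ℂ} (ha : a ∈ K') (hb : b ∈ K') (h1 : Tendsto v U (𝓝 a))
    (h2 : Tendsto (fun n => ta w (t n) (v n)) U (𝓝 b)) :
    ∃ t' : ρ → ℂ, (∀ i, t' i ≠ 0) ∧ Tendsto t U (𝓝 t') :=
  DomP.bdd h (.of_forall ht) ha hb h1 h2

theorem Dg.exists_fields {ρ J : Type} [Fintype ρ] [Fintype J] [DecidableEq ρ] {w : J → ρ → ℤ}
    {K : ℕ → Set (J → ℂ)} {K' : Set (J → ℂ)} {χ : Option ρ → ρ → ℤ}
    {T : Option ρ → Finset (J → ℕ)} (h : Cones U w K K' χ T) {A : ∀ n, ρ → LB (R n)}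
    {f : ∀ n, J → X n → ℂ} {d : ℕ} (hZ : D.Av Z)
    (hf : ∀ᶠ n in U, (∀ j, f n j ∈ (bz (A n) (w j)).Γ) ∧ (∀ v, (f n · v) ∈ K n) ∧
      (∀ o, deg (bz (A n) (χ o)) ≤ d) ∧
      (∀ o, ∀ α ∈ T o, ∀ v ∈ Gen (∏ j, f n j ^ α j), (∏ j, f n j ^ α j) v = 0 → v ∈ Z n) ∧
      ∀ o, ∀ α ∈ T o, ∀ α' ∈ T o, ∀ v ∈ Gen (∏ j, f n j ^ α j - ∏ j, f n j ^ α' j),
        (∏ j, f n j ^ α j) v = (∏ j, f n j ^ α' j) v → v ∈ Z n)
    (hN : Nd N₀) (sm : ∀ m ∈ N₀, Sm D.M m.1 ∧ Sm D.M m.2)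
    (pr : ∀ m ∈ N₀, ∃ t : ℕ → ρ → ℂ, (∀ n i, t n i ≠ 0) ∧ ∃ a ∈ K', ∃ b ∈ K',
      Tendsto (fun n => ta w (t n) (f n · (D.c m.1 n))) U (𝓝 a) ∧
      Tendsto (fun n => ta w (t n) (f n · (D.c m.2 n))) U (𝓝 b)) :
    ∃ (A' : ρ → LB Q) (b : ∀ i, BL D (A · i) (A' i)) (f' : J → Y → ℂ), (∀ i, (b i).Pr N₀) ∧
      (∀ j, f' j ∈ (bz A' (w j)).Γ) ∧ (∀ y, (f' · y) ∈ K') ∧ ∀ j p y, D.To p y →
        Tendsto (fun n => f n j (p n) / ∏ i, (b i).ε y n (p n) ^ w j i) U (𝓝 (f' j y)) := by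
  have em : ∀ n α v, (∏ j, f n j ^ α j) v = mon α (f n · v) := fun n α v => by simp [mon]
  have hm : ∀ᶠ n in U, ∀ o, ∀ α ∈ T o, ∏ j, f n j ^ α j ∈ (bz (A n) (χ o)).Γ :=
    hf.mono fun n a o α hα => (mon_mem (M := ∅) (fun j => ⟨a.1 j, by simp⟩) (h.wt o α hα)).1
  have hb : ∀ᶠ n in U, ∀ o v, ∃ α ∈ T o, mon α (f n · v) ≠ 0 := eventually_all.2 fun o => by
    by_contra hn
    obtain ⟨p, hp⟩ := BasP.choice ((Ultrafilter.eventually_not.2 hn).mono fun n => not_forall.1)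
    obtain ⟨t, ht, a, ha, h1⟩ := h.cpt (fun n => (f n · (p n))) (hf.mono fun n c => c.2.1 _)
    obtain ⟨α, h2, h3⟩ := h.ne o a ha
    obtain ⟨n, c, c'⟩ := (hp.and ((tendsto_mon α h1).eventually_ne h3)).exists
    exact c ⟨α, h2, right_ne_zero_of_mul ((FamP.prod_ta w (ht n) _ (h.wt o α h2)).symm.trans_ne c')⟩
  let P : Y → (Option ρ → J → ℕ) → Prop := fun y al => (∀ o, al o ∈ T o) ∧ ∃ δ > 0, ∀ o, ∃ C : ℝ,
    ∀ᶠ n in U, ∀ v ∈ D.rg y n δ, ∀ α ∈ T o, ‖mon α (f n · v)‖ ≤ C * ‖mon (al o) (f n · v)‖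
  have h1 : ∀ y, ∃ al, P y al := fun y => by
    choose al h1 h2 using fun o => Dg.dom (f := fun α n => ∏ j, f n j ^ α j) (d := d)
      (B := fun n => bz (A n) (χ o)) (T := T o)
      (let ⟨_, c⟩ := hb.exists; let ⟨α, c, _⟩ := c o (Classical.arbitrary _); ⟨α, c⟩) hZ
      (((hf.and hm).and hb).mono fun n c => ⟨c.1.2 o, ge_of_bpf fun v =>
        let ⟨α, c1, c2⟩ := c.2 o v; ⟨_, c.1.2 o α c1, (em ..).trans_ne c2⟩, c.1.1.2.2.1 o,
        c.1.1.2.2.2.1 o, c.1.1.2.2.2.2 o⟩) y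
    refine ⟨al, h1, Bas2P.exists_pos_all (fun o δ δ' c ⟨C, hC⟩ =>
      ⟨C, hC.mono fun n c' v hv => c' v (Dg.rg_mono c hv)⟩) fun o => ?_⟩
    obtain ⟨δ, h3, C, -, h4⟩ := h2 o
    exact ⟨δ, h3, C, by simpa only [em] using h4⟩
  choose al₀ h1 using h1
  obtain ⟨al, h2, h3⟩ := exists_ext D.nd (fun m => al₀ m.1) al₀
  have h4 : ∀ y, P y (al y) := fun y => by
    by_cases c : ∃ m ∈ D.M, m.2 = y
    · obtain ⟨m, c, rfl⟩ := c
      obtain ⟨h5, δ, h6, h7⟩ := h1 m.1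
      obtain ⟨r, h8, h9⟩ := Dg.rg_neck (D := D) (y := m.1) (y' := m.2) (.inl c)
      rw [h2 m c]
      exact ⟨h5, _, lt_min h6 h8, fun o => (h7 o).imp fun C hC => (hC.and h9).mono
        fun n c' v hv => c'.1 v (Dg.rg_mono (min_le_left _ _)
          ((c'.2.2.2 _ (min_le_right _ _)).1.le hv))⟩
    · rw [h3 y fun m c1 c2 => c ⟨m, c1, c2⟩]
      exact h1 y
  choose h4 δ h5 h6 using h4
  have g1 : ∀ y (p : ∀ n, X n), (∀ᶠ n in U, p n ∈ D.rg y n (δ y)) →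
      Gf U w K' (fun n => fr (al y) (f n · (p n))) fun n => (f n · (p n)) := fun y p hp =>
    key h (hf.mono fun n c => c.2.1 _) (h4 y) fun o => (h6 y o).imp fun C hC =>
      (hC.and hp).mono fun n c => c.1 _ c.2
  have h7 : ∀ m ∈ N₀, ∃ r : ρ → ℂ, (∀ i, r i ≠ 0) ∧ ∀ i, Tendsto (fun n =>
      fr (al m.1) (f n · (D.c m.1 n)) i / fr (al m.2) (f n · (D.c m.2 n)) i) U (𝓝 (r i)) := by
    intro m c
    obtain ⟨t, ht, a, ha, b, hb, c1, c2⟩ := pr m c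
    obtain ⟨r, d1, d2⟩ := (g1 _ _ (Dg.to_c (sm m c).1 _ (h5 _))).ratio h (.of ht ha c1)
    obtain ⟨r', d3, d4⟩ := (g1 _ _ (Dg.to_c (sm m c).2 _ (h5 _))).ratio h (.of ht hb c2)
    exact ⟨r / r', fun i => div_ne_zero (d1 i) (d3 i), fun i => ((d2 i).div (d4 i) (d3 i)).congr
      fun n => div_div_div_cancel_right₀ (inv_ne_zero (ht n i)) _ _⟩
  choose! r h7 h8 using h7
  obtain ⟨κ, k1, k2⟩ := exists_ext hN r 1
  have k3 : ∀ y i, κ y i ≠ 0 := fun y i => by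
    by_cases c : ∃ m ∈ N₀, m.2 = y
    · obtain ⟨m, c, rfl⟩ := c
      exact k1 m c ▸ h7 m c i
    · rw [k2 y fun m c1 c2 => c ⟨m, c1, c2⟩]
      exact one_ne_zero
  have g2 : ∀ y (p : ∀ n, X n), (∀ᶠ n in U, p n ∈ D.rg y n (δ y)) →
      Gf U w K' (fun n i => κ y i * fr (al y) (f n · (p n)) i) fun n => (f n · (p n)) :=
    fun y p hp => (g1 y p hp).mul h (k3 y) (fun _ => tendsto_const_nhds) (.of_forall fun _ _ => rfl)
  choose A' b hε using fun i => exists_bl D (A · i) (fun y n v => κ y i * fr (al y) (f n · v) i)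
    (fun y => ⟨δ y, h5 y, by
      choose C hC using h6 y
      filter_upwards [eventually_all.2 hC, hm, hb] with n c1 c2 c3 v hv
      have c4 : ∀ o, mon (al y o) (f n · v) ≠ 0 := fun o c => by
        obtain ⟨α, c5, c6⟩ := c3 o v
        exact c6 (norm_le_zero_iff.1 (by simpa [c] using c1 o v hv α c5))
      have c5 := ((c2 (some i) _ (h4 y _) v).div (c2 none _ (h4 y _) v)
        ((em ..).trans_ne (c4 none))).smul (κ y i)
      rw [h.step, bz_add, bz_single, zpow_one, mul_div_cancel_left] at c5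
      exact ⟨c5.congr (.of_forall fun u => by simp only [Pi.smul_apply, Pi.div_apply, em]; rfl),
        mul_ne_zero (k3 y i) (div_ne_zero (c4 _) (c4 _))⟩⟩)
    (fun m c => ⟨1, one_pos, .of_forall fun n v _ => by
      rw [h2 m c, h3 _ fun m' c' => (D.nd.ne m c m' c').symm,
        k2 _ fun m' c' => ((sm m' c').2 m c).1.symm, k2 _ fun m' c' => ((sm m' c').2 m c).2.symm]
      rfl⟩)
    fun y => ((D.ev_rg y (h5 y)).filter_mono nhdsWithin_le_nhds).mono fun z c p hp => by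
      obtain ⟨r, -, c1⟩ := (g2 y p (c p hp)).ratio h (g2 z p (hp _ (h5 z)))
      obtain ⟨r', -, c2⟩ := (g2 z p (hp _ (h5 z))).ratio h (g2 y p (c p hp))
      exact ⟨_, ((ev_le (c1 i)).and (ev_le (c2 i))).mono fun n c3 =>
        ⟨le_max_of_le_left c3.1, le_max_of_le_right c3.2⟩⟩
  have g3 : ∀ p y, D.To p y → ∃ a ∈ K', ∀ j,
      Tendsto (fun n => f n j (p n) / ∏ i, (b i).ε y n (p n) ^ w j i) U (𝓝 (a j)) := fun p y hp => by
    obtain ⟨-, a, ha, c⟩ := g2 y p (hp _ (h5 y))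
    exact ⟨a, ha, fun j => by simpa only [ta_inv, hε] using tendsto_pi_nhds.1 c j⟩
  choose c hc using fun j => exists_bz b (w j)
  choose f' f1 f2 using fun j => (c j).exists_sl (s := fun n => f n j) (hf.mono fun n a => a.1 j)
    fun p y hp => let ⟨a, _, d⟩ := g3 p y hp; ⟨_, by simpa only [hc] using ev_le (d j)⟩
  simp only [BL.SL, hc] at f2
  refine ⟨A', b, f', fun i m c => ?_, f1, fun y => ?_, f2⟩
  · simp only [hε, k1 m c, k2 _ fun m' c' => (hN.ne m c m' c').symm, mul_div_mul_comm]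
    simpa [h7 m c i] using (h8 m c i).const_mul (1 / r m i)
  · obtain ⟨p, hp⟩ := D.exists_to y
    obtain ⟨a, ha, d⟩ := g3 p y hp
    exact (funext fun j => tendsto_nhds_unique (d j) (f2 j p y hp) : a = _) ▸ ha

end Vale.Agent.P269.Cpt
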