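import Vale.Agent.P269.Cpt.LiftA
import Vale.Agent.P269.Cpt.Asm

/-!
# Lifting a degeneration along branched covers
-/

set_option linter.unusedSectionVars false

namespace Vale.Agent.P269.Cpt

open Set Function Topology Filter Metric Module Vale.Agent.P269.Cv

namespace LiftP

theorem exists_linv {t : ℂ} (ht : t ≠ 0) {k : ℕ} (hk : k ≠ 0) : ∃ l : ℂ → ℂ,
    AnalyticAt ℂ l (t ^ k) ∧ deriv l (t ^ k) ≠ 0 ∧ (∀ᶠ s in 𝓝 t, l (s ^ k) = s) ∧
      ∀ᶠ v in 𝓝 (t ^ k), l v ^ k = v := by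
  have a : AnalyticAt ℂ (fun s : ℂ => s ^ k) t := analyticAt_id.pow k
  have b : deriv (fun s : ℂ => s ^ k) t ≠ 0 := by
    rw [deriv_pow_field]
    exact mul_ne_zero (Nat.cast_ne_zero.2 hk) (pow_ne_zero _ ht)
  exact ⟨_, a.analyticAt_localInverse b,
    (a.hasStrictDerivAt.to_localInverse b).hasDerivAt.deriv ▸ inv_ne_zero b,
    a.hasStrictDerivAt.eventually_left_inverse b, a.hasStrictDerivAt.eventually_right_inverse b⟩

theorem exists_inj {t : ℂ} (ht : t ≠ 0) {k : ℕ} (hk : k ≠ 0) :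
    ∃ η > 0, InjOn (fun s : ℂ => s ^ k) (closedBall t η) := by
  obtain ⟨l, -, -, a, -⟩ := exists_linv ht hk
  obtain ⟨η, hη, b⟩ := nhds_basis_closedBall.eventually_iff.1 a
  exact ⟨η, hη, fun s hs s' hs' e => by rw [← b hs, ← b hs']; exact congrArg l e⟩

theorem tendsto_pow_ne {k : ℕ} (hk : k ≠ 0) :
    Tendsto (fun t : ℂ => t ^ k) (𝓝[≠] 0) (𝓝[≠] 0) :=
  tendsto_nhdsWithin_iff.2 ⟨((continuous_pow k).tendsto' 0 0 (zero_pow hk)).mono_left
    nhdsWithin_le_nhds, eventually_mem_nhdsWithin.mono fun _ h => pow_ne_zero k h⟩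

variable {X X₀ : ℕ → Type} [∀ n, TopologicalSpace (X n)] [∀ n, T2Space (X n)]
  [∀ n, CompactSpace (X n)] [∀ n, Nonempty (X n)] [∀ n, TopologicalSpace (X₀ n)]
  [∀ n, T2Space (X₀ n)] [∀ n, CompactSpace (X₀ n)] [∀ n, Nonempty (X₀ n)]
  {Y : Type} [TopologicalSpace Y] [T2Space Y] [CompactSpace Y] {U : Ultrafilter ℕ}
  {R₀ : ∀ n, RS (X₀ n)} {Q : RS Y} {D : Dg U R₀ Q} {R : ∀ n, RS (X n)} {h : ∀ n, X n → X₀ n}

namespace Dat

variable (d : Dat D R h)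

/-- the points of the limit -/
def T : Type := {a : Y × ℕ // a.2 < d.N a.1}

variable {d}

/-- the point below -/
def T.y (a : d.T) : Y := a.1.1

/-- the exponent -/
def T.k (a : d.T) : ℕ := d.k a.1.1 a.1.2

/-- the charts -/
def T.E (a : d.T) : ∀ n, OpenPartialHomeomorph (X n) ℂ := d.E a.1.1 a.1.2

/-- the neck parameters -/
noncomputable def T.σ (a : d.T) (n : ℕ) : ℂ := rt (D.τ a.y n) a.k

/-- convergence -/
def To (p : ∀ n, X n) (a : d.T) : Prop := To₀ U a.E a.σ p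

/-- the sequence lies in the piece -/
def In (p : ∀ n, X n) (a : d.T) : Prop := ∀ᶠ n in U, p n ∈ (a.E n).source

variable {p p' : ∀ n, X n} {a b b' : d.T} {y z : Y} {t : ℂ}

theorem T.k_ne (a : d.T) : a.k ≠ 0 := d.k_ne _ _

theorem T.ev (a : d.T) : ∀ᶠ n in U, (R n).Cmp (a.E n) ∧
    (a.E n).target = {t | t ^ a.k ∈ ann (D.τ a.y n) (d.r a.y)} ∧
    ∀ w ∈ (a.E n).source, h n w ∈ D.rg a.y n (d.r a.y) ∧ D.E a.y n (h n w) = a.E n w ^ a.k :=
  (d.pc a.y).mono fun _ c => ⟨c.cmp _ a.2, c.tgt _ a.2, fun w hw =>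
    ⟨c.sub _ a.2 hw, c.pw _ a.2 w hw⟩⟩

theorem reg_eq (a : d.T) : ∀ᶠ n in U, ∀ δ > 0,
    reg (a.E n) (a.σ n) δ = (a.E n).source ∩ h n ⁻¹' D.rg a.y n (δ ^ a.k) := by
  filter_upwards [a.ev] with n c δ hδ
  ext w
  refine and_congr_right fun hw => ?_
  have e := c.2.2 w hw
  have : h n w ∈ D.rg a.y n (δ ^ a.k) ↔ a.E n w ^ a.k ∈ ann (D.τ a.y n) (δ ^ a.k) := by
    rw [← e.2]; exact ⟨fun x => x.2, fun x => ⟨e.1.1, x⟩⟩
  exact ((pow_mem_ann a.k_ne hδ).symm.trans this.symm :)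

theorem to_iff : To p a ↔ D.To (fun n => h n (p n)) a.y ∧ In p a := by
  constructor
  · intro c
    refine ⟨fun δ hδ => ?_, (c 1 one_pos).mono fun n e => e.1⟩
    obtain ⟨ε, hε, e⟩ := exists_root hδ a.k_ne
    filter_upwards [c ε hε, reg_eq a] with n c1 c2
    rw [c2 ε hε] at c1
    exact Dg.rg_mono e c1.2
  · intro c δ hδ
    filter_upwards [c.1 (δ ^ a.k) (by positivity), c.2, reg_eq a] with n c1 c2 c3
    rw [c3 δ hδ]
    exact ⟨c2, c1⟩

theorem exists_in (hp : ∀ᶠ n in U, h n (p n) ∈ D.rg y n (d.r y)) :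
    ∃ a : d.T, a.y = y ∧ In p a := by
  have : ∀ᶠ n in U, ∃ i ∈ Iio (d.N y), p n ∈ (d.E y i n).source := by
    filter_upwards [hp, d.pc y] with n c1 c2 using c2.cov _ c1
  obtain ⟨i, hi, e⟩ := (Ultrafilter.eventually_exists_mem_iff (finite_Iio _)).1 this
  exact ⟨⟨(y, i), hi⟩, rfl, e⟩

theorem exists_to (hp : D.To (fun n => h n (p n)) y) : ∃ a : d.T, a.y = y ∧ To p a := by
  obtain ⟨a, rfl, e⟩ := exists_in (d := d) (hp _ (d.r_pos y))
  exact ⟨a, rfl, to_iff.2 ⟨hp, e⟩⟩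

theorem ev_eq (e : a.y = b.y) : ∀ᶠ n in U, ∀ w ∈ (a.E n).source, w ∈ (b.E n).source → a = b := by
  obtain ⟨⟨y, i⟩, hi⟩ := a
  obtain ⟨⟨y', j⟩, hj⟩ := b
  obtain rfl : y = y' := e
  filter_upwards [d.pc y] with n c w c1 c2
  obtain rfl : i = j := c.disj i hi j hj w c1 c2
  rfl

theorem In.eq (ha : In p a) (hb : In p b) (e : a.y = b.y) : a = b := by
  obtain ⟨n, c1, c2, c3⟩ := (ha.and (hb.and (ev_eq e))).exists
  exact c3 _ c1 c2

theorem To.eq (ha : To p a) (hb : To p b) (sm : Sm D.M a.y) : a = b :=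
  (to_iff.1 ha).2.eq (to_iff.1 hb).2 ((to_iff.1 ha).1.eq (to_iff.1 hb).1 sm).symm

variable (d) in
/-- `z` is close to `y` -/
structure Gd (y z : Y) : Prop where
  mem : z ∈ (Q.e y).source
  ne : z ≠ y
  sm : Sm D.M z
  lt : ‖Q.e y z‖ < d.r y
  near : ∀ p, D.To p z ↔
    (∀ᶠ n in U, p n ∈ (D.E y n).source) ∧ Tendsto (fun n => D.E y n (p n)) U (𝓝 (Q.e y z))

theorem ev_gd (y : Y) : ∀ᶠ z in 𝓝[≠] y, d.Gd y z := by
  have a : ∀ᶠ z in 𝓝 y, ‖Q.e y z‖ < d.r y :=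
    (Q.tends_e y).norm.eventually (gt_mem_nhds (by rw [norm_zero]; exact d.r_pos y))
  filter_upwards [nhdsWithin_le_nhds (Q.src_nhds y), self_mem_nhdsWithin, D.ev_sm y,
    nhdsWithin_le_nhds a, D.near y] with z c1 c2 c3 c4 c5 using ⟨c1, c2, c3, c4, c5⟩

theorem Gd.e_ne (g : d.Gd y z) : Q.e y z ≠ 0 := (Q.e_eq_zero g.mem).not.2 g.ne

theorem Gd.rg (g : d.Gd y z) {q : ∀ n, X₀ n} (hq : D.To q z) :
    ∀ᶠ n in U, q n ∈ D.rg y n (d.r y) :=
  ((g.near q).1 hq).1.and (ev_ann (D.tend y) ((g.near q).1 hq).2 g.e_ne g.lt)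

theorem σ_zero (sm : Sm D.M b.y) (n : ℕ) : b.σ n = 0 := (rt_eq_zero b.k_ne).2 (D.sm _ sm n)

theorem ev_ball (sm : Sm D.M b.y) {δ : ℝ} (hδ : 0 < δ) (e : δ ^ b.k ≤ d.r b.y) :
    ∀ᶠ n in U, ball 0 δ ⊆ (b.E n).target := by
  filter_upwards [b.ev] with n c u hu
  rw [c.2.1]
  refine ann_mono e ((pow_mem_ann b.k_ne hδ).2 ?_)
  rwa [show rt (D.τ b.y n) b.k = 0 from σ_zero sm n, ann_zero]

theorem to_ctr (sm : Sm D.M b.y) : To (fun n => (b.E n).symm 0) b := by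
  obtain ⟨δ, hδ, e⟩ := exists_root (d.r_pos b.y) b.k_ne
  intro ε hε
  filter_upwards [ev_ball sm hδ e] with n c
  have c0 := c (mem_ball_self hδ)
  refine ⟨(b.E n).map_target c0, ?_⟩
  rw [mem_preimage, (b.E n).right_inv c0, σ_zero sm, ann_zero]
  exact mem_ball_self hε

theorem disc (g : d.Gd a.y b.y) (ht : t ^ a.k = Q.e a.y b.y) (c1 : To p b) (c2 : In p a)
    (c3 : Tendsto (fun n => a.E n (p n)) U (𝓝 t)) {η : ℝ} (hη : 0 < η) :
    ∃ δ > 0, ∀ᶠ n in U, ball 0 δ ⊆ (b.E n).target ∧ ∀ u ∈ ball (0 : ℂ) δ,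
      (b.E n).symm u ∈ (a.E n).source ∧ a.E n ((b.E n).symm u) ∈ ball t η := by
  have t0 : t ≠ 0 := fun e => g.e_ne (by rw [← ht, e, zero_pow a.k_ne])
  obtain ⟨η₀, hη₀, inj⟩ := exists_inj t0 a.k_ne
  set η' := min η η₀ with hη'
  have p0 : 0 < η' := by positivity
  obtain ⟨ε, hε, sp⟩ := (isCompact_sphere t η').exists_forall_le'
    (f := fun s => ‖s ^ a.k - t ^ a.k‖) (by fun_prop) (a := 0) fun s hs => by
      rw [norm_pos_iff, sub_ne_zero]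
      intro e
      have := inj (sphere_subset_closedBall.trans (closedBall_subset_closedBall (min_le_right _ _))
        hs) (mem_closedBall_self hη₀.le) e
      rw [this, mem_sphere, dist_self] at hs
      exact p0.ne hs
  obtain ⟨δ₁, hδ₁, -, un⟩ := Dg.unif (D := D) (y := b.y)
    (P := fun _ n w => w ∈ D.rg a.y n (d.r a.y) ∧ ‖D.E a.y n w - t ^ a.k‖ < ε)
    (fun _ _ _ _ _ e => e) fun q hq => ⟨0, (g.rg hq).and (by
      have := ((g.near q).1 hq).2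
      rw [← ht, tendsto_iff_norm_sub_tendsto_zero] at this
      exact this.eventually (gt_mem_nhds hε))⟩
  obtain ⟨δ, hδ, e⟩ := exists_root (lt_min hδ₁ (d.r_pos b.y)) b.k_ne
  refine ⟨δ, hδ, ?_⟩
  filter_upwards [ev_ball g.sm hδ (e.trans (min_le_right _ _)), un, reg_eq b, d.pc a.y, c1 δ hδ,
    c2, c3.eventually (ball_mem_nhds t p0)] with n k1 k2 k3 k4 k5 k6 k7
  refine ⟨k1, ?_⟩
  have im : (b.E n).symm '' ball 0 δ = reg (b.E n) (b.σ n) δ := by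
    rw [(b.E n).symm_image_eq_source_inter_preimage k1, σ_zero g.sm, reg, ann_zero]
  have pc : IsPreconnected ((b.E n).symm '' ball 0 δ) :=
    (convex_ball _ _).isPreconnected.image _ ((b.E n).continuousOn_symm.mono k1)
  have := pc.subset_left_of_subset_union
    (u := (a.E n).source ∩ a.E n ⁻¹' ball t η')
    (v := (⋃ i ∈ {i | i < d.N a.y ∧ i ≠ a.1.2}, (d.E a.y i n).source) ∪
      (a.E n).source ∩ a.E n ⁻¹' (closedBall t η')ᶜ)
    ((a.E n).isOpen_inter_preimage isOpen_ball)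
    ((isOpen_biUnion fun i _ => (d.E a.y i n).open_source).union
      ((a.E n).isOpen_inter_preimage isClosed_closedBall.isOpen_compl))
    (Set.disjoint_left.2 fun w hw hw' => by
      rcases hw' with hw' | hw'
      · obtain ⟨i, hi, hw'⟩ := mem_iUnion₂.1 hw'
        exact hi.2 (k4.disj _ hi.1 _ a.2 w hw' hw.1)
      · exact hw'.2 (ball_subset_closedBall hw.2))
    (fun w hw => by
      rw [im, k3 δ hδ] at hw
      have l := k2 _ (Dg.rg_mono (e.trans (min_le_left _ _)) hw.2)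
      obtain ⟨i, hi, hw'⟩ := k4.cov w l.1
      by_cases e' : i = a.1.2
      · subst e'
        have l2 := l.2
        rw [k4.pw _ hi w hw'] at l2
        rcases lt_trichotomy (dist (a.E n w) t) η' with r | r | r
        · exact Or.inl ⟨hw', r⟩
        · exact absurd l2 (not_lt.2 (sp _ r))
        · exact Or.inr (Or.inr ⟨hw', not_le.2 r⟩)
      · exact Or.inr (Or.inl (mem_iUnion₂.2 ⟨i, ⟨hi, e'⟩, hw'⟩)))
    ⟨p n, im ▸ k5, k6, k7⟩
  intro u hu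
  have l := this (mem_image_of_mem _ hu)
  exact ⟨l.1, ball_subset_ball (min_le_left _ _) l.2⟩

theorem fwd (g : d.Gd a.y b.y) (ht : t ^ a.k = Q.e a.y b.y) (c1 : To p b) (c2 : In p a)
    (c3 : Tendsto (fun n => a.E n (p n)) U (𝓝 t)) (c : To p' b) :
    In p' a ∧ Tendsto (fun n => a.E n (p' n)) U (𝓝 t) := by
  have key : ∀ η > 0, ∀ᶠ n in U, p' n ∈ (a.E n).source ∧ a.E n (p' n) ∈ ball t η := fun η hη => by
    obtain ⟨δ, hδ, e⟩ := disc g ht c1 c2 c3 hη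
    filter_upwards [e, c δ hδ] with n k1 k2
    have l := k2.2
    rw [σ_zero g.sm, ann_zero] at l
    have := k1.2 _ l
    rwa [(b.E n).left_inv k2.1] at this
  exact ⟨(key 1 one_pos).mono fun _ e => e.1,
    Metric.tendsto_nhds.2 fun η hη => (key η hη).mono fun _ e => e.2⟩

theorem ev_inj (a : d.T) (t0 : t ≠ 0) : ∃ η > 0, ∀ᶠ n in U, ∀ w ∈ (a.E n).source,
    ∀ w' ∈ (a.E n).source, a.E n w ∈ ball t η → a.E n w' ∈ ball t η → h n w = h n w' → w = w' := by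
  obtain ⟨η, hη, inj⟩ := exists_inj t0 a.k_ne
  refine ⟨η, hη, a.ev.mono fun n c w hw w' hw' c1 c2 e => (a.E n).injOn hw hw'
    (inj (ball_subset_closedBall c1) (ball_subset_closedBall c2) ?_)⟩
  simp only
  rw [← (c.2.2 w hw).2, ← (c.2.2 w' hw').2, e]

theorem ev_h (b : d.T) : ∀ᶠ n in U, ∀ u ∈ (b.E n).target,
    h n ((b.E n).symm u) = (D.E b.y n).symm (u ^ b.k) := by
  filter_upwards [b.ev] with n c u hu
  have := c.2.2 _ ((b.E n).map_target hu)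
  rw [(b.E n).right_inv hu] at this
  rw [← this.2, (D.E b.y n).left_inv this.1.1]

theorem uniq (g : d.Gd a.y b.y) (ht : t ^ a.k = Q.e a.y b.y) (c1 : To p b) (c2 : In p a)
    (c3 : Tendsto (fun n => a.E n (p n)) U (𝓝 t)) (e : b'.y = b.y) (c1' : To p' b') (c2' : In p' a)
    (c3' : Tendsto (fun n => a.E n (p' n)) U (𝓝 t)) : b = b' := by
  have t0 : t ≠ 0 := fun e => g.e_ne (by rw [← ht, e, zero_pow a.k_ne])
  obtain ⟨η, hη, inj⟩ := ev_inj a t0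
  obtain ⟨δ, hδ, k⟩ := disc g ht c1 c2 c3 hη
  obtain ⟨δ', hδ', k'⟩ := disc (e.symm ▸ g) (e.symm ▸ ht) c1' c2' c3' hη
  obtain ⟨n, k1, k2, k3, k4, k5, k6⟩ :=
    (inj.and (k.and (k'.and ((ev_h b).and ((ev_h b').and (ev_eq e.symm)))))).exists
  have m := mem_ball_self (x := (0 : ℂ)) hδ
  have m' := mem_ball_self (x := (0 : ℂ)) hδ'
  have := k1 _ (k2.2 0 m).1 _ (k3.2 0 m').1 (k2.2 0 m).2 (k3.2 0 m').2 (by
    rw [k4 0 (k2.1 m), k5 0 (k3.1 m'), zero_pow b.k_ne, zero_pow b'.k_ne, e])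
  exact k6 _ ((b.E n).map_target (k2.1 m)) (this ▸ (b'.E n).map_target (k3.1 m'))

theorem k_one (g : d.Gd a.y b.y) (ht : t ^ a.k = Q.e a.y b.y) (c1 : To p b) (c2 : In p a)
    (c3 : Tendsto (fun n => a.E n (p n)) U (𝓝 t)) : b.k = 1 := by
  by_contra hk
  have t0 : t ≠ 0 := fun e => g.e_ne (by rw [← ht, e, zero_pow a.k_ne])
  obtain ⟨η, hη, inj⟩ := ev_inj a t0
  obtain ⟨δ, hδ, k⟩ := disc g ht c1 c2 c3 hη
  obtain ⟨n, k1, k2, k3⟩ := (inj.and (k.and (ev_h b))).exists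
  have pr := Complex.isPrimitiveRoot_exp b.k b.k_ne
  set ζ := Complex.exp (2 * Real.pi * Complex.I / b.k)
  have m : ((δ / 2 : ℝ) : ℂ) ∈ ball (0 : ℂ) δ := by
    rw [mem_ball_zero_iff, Complex.norm_real, Real.norm_eq_abs, abs_of_pos (by positivity)]
    linarith
  have m' : ζ * ((δ / 2 : ℝ) : ℂ) ∈ ball (0 : ℂ) δ := by
    rw [mem_ball_zero_iff, norm_mul, pr.norm'_eq_one b.k_ne, one_mul]
    exact mem_ball_zero_iff.1 m
  have := k1 _ (k2.2 _ m).1 _ (k2.2 _ m').1 (k2.2 _ m).2 (k2.2 _ m').2 (by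
    rw [k3 _ (k2.1 m), k3 _ (k2.1 m'), mul_pow, pr.pow_eq_one, one_mul])
  have e := (b.E n).symm.injOn (k2.1 m) (k2.1 m') this
  have d0 : ((δ / 2 : ℝ) : ℂ) ≠ 0 := Complex.ofReal_ne_zero.2 (by positivity)
  exact pr.ne_one (by have := b.k_ne; omega) ((left_eq_mul₀ d0).1 (by rw [mul_comm]; exact e))

open Classical in
/-- the local parametrisation of the limit -/
noncomputable def T.g (a : d.T) (t : ℂ) : d.T :=
  if c : t ≠ 0 ∧ ∃ b : d.T, To (fun n => (a.E n).symm t) b then c.2.choose else a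

theorem T.g_zero (a : d.T) : a.g 0 = a := dif_neg fun c => c.1 rfl

/-- good parameters -/
def Good (a : d.T) (t : ℂ) : Prop := t ^ a.k ∈ (Q.e a.y).target ∧ d.Gd a.y (Q.i a.y (t ^ a.k))

theorem ev_good (a : d.T) : ∀ᶠ t in 𝓝[≠] 0, Good a t :=
  (tendsto_pow_ne a.k_ne).eventually
    (Eventually.and (nhdsWithin_le_nhds (Q.tgt_nhds a.y)) (Q.ev_ne_iff.1 (ev_gd a.y)))

theorem Good.ne (g : Good a t) : t ≠ 0 := fun e =>
  g.2.ne (by rw [e, zero_pow a.k_ne, Q.i_zero])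

theorem Good.base (g : Good a t) : In (fun n => (a.E n).symm t) a ∧
    Tendsto (fun n => a.E n ((a.E n).symm t)) U (𝓝 t) := by
  have : ∀ᶠ n in U, t ∈ (a.E n).target := by
    filter_upwards [a.ev, ev_ann (D.tend a.y) (tendsto_const_nhds (x := t ^ a.k))
      (pow_ne_zero _ g.ne) (Q.e_i g.1 ▸ g.2.lt)] with n c1 c2
    rw [c1.2.1]; exact c2
  exact ⟨this.mono fun n c => (a.E n).map_target c,
    tendsto_const_nhds.congr' (this.mono fun n c => ((a.E n).right_inv c).symm)⟩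

theorem Good.down (g : Good a t) (c2 : In p a) (c3 : Tendsto (fun n => a.E n (p n)) U (𝓝 t)) :
    D.To (fun n => h n (p n)) (Q.i a.y (t ^ a.k)) := by
  refine (g.2.near _).2 ⟨(c2.and a.ev).mono fun n c => (c.2.2.2 _ c.1).1.1, ?_⟩
  rw [Q.e_i g.1]
  exact (c3.pow a.k).congr' ((c2.and a.ev).mono fun n c => (c.2.2.2 _ c.1).2.symm)

theorem Good.spec (g : Good a t) :
    To (fun n => (a.E n).symm t) (a.g t) ∧ (a.g t).y = Q.i a.y (t ^ a.k) := by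
  have dn := g.down g.base.1 g.base.2
  obtain ⟨b, -, c⟩ := exists_to (d := d) dn
  have c' : t ≠ 0 ∧ ∃ b : d.T, To (fun n => (a.E n).symm t) b := ⟨g.ne, b, c⟩
  have e : To (fun n => (a.E n).symm t) (a.g t) := by
    rw [T.g, dif_pos c']; exact c'.2.choose_spec
  exact ⟨e, dn.eq (to_iff.1 e).1 g.2.sm⟩

theorem Good.gd (g : Good a t) : d.Gd a.y (a.g t).y := g.spec.2 ▸ g.2

theorem Good.pw (g : Good a t) : t ^ a.k = Q.e a.y (a.g t).y := by rw [g.spec.2, Q.e_i g.1]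

theorem Good.near (g : Good a t) :
    To p (a.g t) ↔ In p a ∧ Tendsto (fun n => a.E n (p n)) U (𝓝 t) := by
  refine ⟨fwd g.gd g.pw g.spec.1 g.base.1 g.base.2, fun c => ?_⟩
  obtain ⟨b, e, c'⟩ := exists_to (d := d) (g.down c.1 c.2)
  rwa [uniq g.gd g.pw g.spec.1 g.base.1 g.base.2 (e.trans g.spec.2.symm) c' c.1 c.2]

theorem g_eq {s : ℂ} (ga : t = 0 ∨ Good a t) (gb : s = 0 ∨ Good b s) (e : a.y = b.y)
    (e' : a.g t = b.g s) : a = b ∧ t = s := by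
  rcases ga with rfl | ga <;> rcases gb with rfl | gb
  · exact ⟨by rwa [T.g_zero, T.g_zero] at e', rfl⟩
  · rw [T.g_zero] at e'
    exact (gb.gd.ne (by rw [← e', e])).elim
  · rw [T.g_zero] at e'
    exact (ga.gd.ne (by rw [e', e])).elim
  · have c := gb.near.1 (e' ▸ ga.spec.1)
    obtain rfl := ga.base.1.eq c.1 e
    exact ⟨rfl, tendsto_nhds_unique ga.base.2 c.2⟩

theorem ev_good' (a : d.T) : ∀ᶠ t in 𝓝 0, t = 0 ∨ Good a t :=
  (eventually_nhdsWithin_iff.1 (ev_good a)).mono fun _ c => or_iff_not_imp_left.2 c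

theorem trans (g : ∀ᶠ s in 𝓝 t, Good a s) : ∃ ψ : ℂ → ℂ, AnalyticAt ℂ ψ 0 ∧ ψ 0 = t ∧
    deriv ψ 0 ≠ 0 ∧ ∀ᶠ u in 𝓝 (0 : ℂ), (a.g t).g u = a.g (ψ u) := by
  have g0 := g.self_of_nhds
  set b := a.g t with hb
  obtain ⟨l, l1, l2, l3, l4⟩ := exists_linv g0.ne a.k_ne
  have tr := Q.hol a.y b.y g0.gd.mem
  have e0 : Q.e a.y (Q.i b.y 0) = t ^ a.k := by rw [Q.i_zero, g0.pw]
  have an : AnalyticAt ℂ (fun u => l (Q.e a.y (Q.i b.y u))) 0 := l1.comp_of_eq tr.1 e0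
  have v0 : l (Q.e a.y (Q.i b.y 0)) = t := by rw [e0, l3.self_of_nhds]
  refine ⟨fun u => l (Q.e a.y (Q.i b.y u)), an, v0, ?_, ?_⟩
  · have := deriv_comp (h₂ := l) (h := fun u => Q.e a.y (Q.i b.y u)) 0
      (by rw [e0]; exact l1.differentiableAt) tr.1.differentiableAt
    rw [e0] at this
    exact this ▸ mul_ne_zero l2 tr.2
  · obtain ⟨η, hη, lb⟩ := Metric.eventually_nhds_iff_ball.1 l3
    obtain ⟨δ, hδ, dc⟩ := disc g0.gd g0.pw g0.spec.1 g0.base.1 g0.base.2 hη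
    have k1 := k_one g0.gd g0.pw g0.spec.1 g0.base.1 g0.base.2
    have t1 : Tendsto (fun u => Q.e a.y (Q.i b.y u)) (𝓝 0) (𝓝 (t ^ a.k)) :=
      e0 ▸ tr.1.continuousAt.tendsto
    have t2 : Tendsto (fun u => l (Q.e a.y (Q.i b.y u))) (𝓝 0) (𝓝 t) :=
      v0 ▸ an.continuousAt.tendsto
    filter_upwards [ev_good' b, t2.eventually g, t1.eventually l4,
      t1.eventually l1.eventually_analyticAt, ball_mem_nhds (0 : ℂ) hδ,
      (Q.tends_i b.y).eventually (Q.src_nhds' g0.gd.mem)] with u c1 c2 c3 c4 c5 c6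
    rcases c1 with rfl | c1
    · rw [T.g_zero, v0]
    · have s1 := c1.spec
      rw [k1, pow_one] at s1
      have gd := c2.2
      rw [c3, Q.i_e c6] at gd
      have dn := (gd.near _).1 (s1.2 ▸ (to_iff.1 s1.1).1)
      refine s1.1.eq (c2.near.2 ⟨dc.mono fun n c => (c.2 u c5).1, ?_⟩) (s1.2 ▸ gd.sm)
      refine (c4.continuousAt.tendsto.comp dn.2).congr' ((dc.and a.ev).mono fun n c => ?_)
      have m := c.1.2 u c5
      simp only [comp]
      rw [(c.2.2.2 _ m.1).2, lb _ m.2]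

theorem exists_par (g : d.Gd y b.y) : ∃ a : d.T, a.y = y ∧ ∃ t, t ^ a.k = Q.e y b.y ∧ b = a.g t := by
  have c := to_ctr g.sm
  have dn := (to_iff.1 c).1
  obtain ⟨a, rfl, ia⟩ := exists_in (d := d) (g.rg dn)
  have pw : Tendsto (fun n => a.E n ((b.E n).symm 0) ^ a.k) U (𝓝 (Q.e a.y b.y)) :=
    ((g.near _).1 dn).2.congr' ((ia.and a.ev).mono fun n c => (c.2.2.2 _ c.1).2)
  obtain ⟨t, -, ht⟩ := (isCompact_closedBall (0 : ℂ) (max 1 (d.r a.y))).ultrafilter_le_nhds'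
    (U.map fun n => a.E n ((b.E n).symm 0)) (Ultrafilter.mem_map.2 (by
      filter_upwards [pw.norm.eventually (gt_mem_nhds g.lt)] with n hn
      rw [norm_pow] at hn
      rw [mem_preimage, mem_closedBall_zero_iff]
      by_contra hc
      rw [not_le, max_lt_iff] at hc
      exact absurd (hc.2.trans_le (le_self_pow₀ hc.1.le a.k_ne)) (not_lt.2 hn.le)))
  have ht' : Tendsto (fun n => a.E n ((b.E n).symm 0)) U (𝓝 t) := ht
  have e : t ^ a.k = Q.e a.y b.y := tendsto_nhds_unique (ht'.pow a.k) pw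
  have gd : Good a t := by
    rw [Good, e, Q.i_e g.mem]; exact ⟨(Q.e a.y).map_source g.mem, g⟩
  exact ⟨a, rfl, t, e, c.eq (gd.near.2 ⟨ia, ht'⟩) g.sm⟩

theorem fin_T (y : Y) : {a : d.T | a.y = y}.Finite :=
  Finite.of_finite_image (f := fun a : d.T => a.1.2)
    ((finite_Iio (d.N y)).subset (by rintro _ ⟨a, rfl, rfl⟩; exact a.2))
    fun a ha b hb e => Subtype.ext (Prod.ext (ha.trans hb.symm) e)

variable (d) in
theorem fin_M : {m : d.T × d.T | (m.1.y, m.2.y) ∈ D.M ∧ m.1.1.2 = m.2.1.2}.Finite :=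
  (D.M.finite_toSet.biUnion fun m _ => (fin_T m.1).prod (fin_T m.2)).subset fun _ hm =>
    mem_iUnion₂.2 ⟨_, hm.1, rfl, rfl⟩

theorem nk_in (hm : (a.y, b.y) ∈ D.M) (c : In p a) (c' : In p b) : a.1.2 = b.1.2 := by
  obtain ⟨e, -, k⟩ := d.nk _ hm
  have hb : b.1.2 < d.N a.y := e ▸ b.2
  have := c.eq (b := ⟨(a.y, b.1.2), hb⟩) ((c'.and k).mono fun n c => (c.2 _ hb).1 ▸ c.1) rfl
  exact (congrArg (fun x : d.T => x.1.2) this :)

variable (d) in
theorem main : ∃ (_ : TopologicalSpace d.T) (_ : T2Space d.T) (_ : CompactSpace d.T)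
    (Q' : RS d.T), Nonempty (Dg U R Q') := by
  obtain ⟨_, S, hn, hS⟩ := exists_rs (W := d.T) T.g T.g_zero
    (fun a => ⟨_, ev_good' a, fun t ht s hs e => (g_eq ht hs rfl e).2⟩) fun a => by
      have := eventually_nhdsWithin_iff.1 (eventually_eventually_nhdsWithin.2 (ev_good a))
      filter_upwards [this] with t ht
      by_cases t0 : t = 0
      · exact ⟨id, analyticAt_id, t0.symm, by simp, .of_forall fun u => by rw [t0, T.g_zero]; rfl⟩
      · exact trans (isOpen_compl_singleton.nhdsWithin_eq t0 ▸ ht t0)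
  have cy : Continuous (T.y : d.T → Y) := continuous_iff_continuousAt.2 fun a => by
    rw [ContinuousAt, hn, tendsto_map'_iff]
    refine ((Q.tends_i a.y).comp ((continuous_pow a.k).tendsto' 0 0 (zero_pow a.k_ne))).congr'
      ((ev_good' a).mono fun t ht => ?_)
    rcases ht with rfl | ht
    · simp only [comp, T.g_zero, zero_pow a.k_ne, Q.i_zero]
    · exact ht.spec.2.symm
  have t2 : T2Space d.T := t2Space_iff_disjoint_nhds.2 fun a b hab => by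
    change Disjoint (𝓝 a) (𝓝 b)
    by_cases e : a.y = b.y
    · rw [hn, hn]
      refine disjoint_of_disjoint_of_mem (Set.disjoint_left.2 ?_) (image_mem_map (ev_good' a))
        (image_mem_map (ev_good' b))
      rintro _ ⟨t, ht, rfl⟩ ⟨s, hs, e'⟩
      exact hab (g_eq ht hs e e'.symm).1
    · exact (cy.tendsto a).disjoint (disjoint_nhds_nhds.2 e) (cy.tendsto b)
  have cp : CompactSpace d.T := ⟨isCompact_iff_ultrafilter_le_nhds.2 fun F _ => by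
    obtain ⟨y, -, hy⟩ := isCompact_univ.ultrafilter_le_nhds (F.map T.y) (by simp)
    have hy' : Tendsto (T.y (d := d)) F (𝓝 y) := hy
    have e : ∀ᶠ b in F, ∃ a ∈ {a : d.T | a.y = y}, ∃ t, t ^ a.k = Q.e y b.y ∧ b = a.g t := by
      filter_upwards [hy'.eventually (eventually_nhdsWithin_iff.1 (ev_gd (d := d) y))] with b hb
      by_cases e : b.y = y
      · exact ⟨b, e, 0, by rw [zero_pow b.k_ne, e, Q.zero], b.g_zero.symm⟩
      · exact exists_par (hb e)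
    obtain ⟨a, -, e⟩ := (Ultrafilter.eventually_exists_mem_iff (fin_T y)).1 e
    let t : d.T → ℂ := fun b => Classical.epsilon fun t => t ^ a.k = Q.e y b.y ∧ b = a.g t
    have e' : ∀ᶠ b in F, t b ^ a.k = Q.e y b.y ∧ b = a.g (t b) :=
      e.mono fun b hb => Classical.epsilon_spec hb
    have ht : Tendsto t F (𝓝 0) := tendsto_of_pow (k := a.k)
      (((Q.tends_e y).comp hy').congr' (e'.mono fun b hb => hb.1.symm))
    refine ⟨a, mem_univ _, ?_⟩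
    rw [hn]
    exact (tendsto_map.comp ht).congr' (f₂ := id) (e'.mono fun b hb => hb.2.symm)⟩
  refine ⟨inferInstance, t2, cp, S, ⟨⟨T.E, T.σ, d.fin_M.toFinset, D.le, ⟨?_, ?_, ?_⟩,
    fun a => a.ev.mono fun _ c => c.1, fun a => ?_, fun a => ?_, fun a sm => σ_zero ?_, ?_,
    fun p => ?_, fun p a b ca cb => ?_, fun a => ?_⟩⟩⟩
  · intro m hm m' hm' e
    rw [Finite.mem_toFinset] at hm hm'
    exact D.nd.ne _ hm.1 _ hm'.1 (congrArg T.y e)
  · intro m hm m' hm' e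
    rw [Finite.coe_toFinset] at hm hm'
    have := D.nd.inj1 hm.1 hm'.1 (congrArg T.y e)
    refine Prod.ext e (Subtype.ext (Prod.ext (congrArg Prod.snd this) ?_))
    rw [← hm.2, ← hm'.2, e]
  · intro m hm m' hm' e
    rw [Finite.coe_toFinset] at hm hm'
    have := D.nd.inj2 hm.1 hm'.1 (congrArg T.y e)
    refine Prod.ext (Subtype.ext (Prod.ext (congrArg Prod.fst this :) ?_)) e
    rw [hm.2, hm'.2, e]
  · obtain ⟨δ, hδ, e⟩ := exists_root (d.r_pos a.y) a.k_ne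
    refine ⟨δ, hδ, a.ev.mono fun n c u hu => ?_⟩
    rw [c.2.1]
    exact ann_mono e ((pow_mem_ann a.k_ne hδ).2 hu)
  · exact tendsto_of_pow (k := a.k) ((D.tend a.y).congr fun n => (rt_pow _ a.k_ne).symm)
  · rintro ⟨x, y⟩ hm
    have e : d.N y = d.N x := (d.nk _ hm).1
    constructor
    · rintro (rfl : x = a.y)
      exact (sm (a, ⟨(y, a.1.2), e ▸ a.2⟩) (d.fin_M.mem_toFinset.2 ⟨hm, rfl⟩)).1 rfl
    · rintro (rfl : y = a.y)
      exact (sm (⟨(x, a.1.2), e ▸ a.2⟩, a) (d.fin_M.mem_toFinset.2 ⟨hm, rfl⟩)).2 rfl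
  · rintro ⟨⟨⟨x, i⟩, hi⟩, ⟨⟨y, j⟩, hj⟩⟩ hm
    obtain ⟨hm, rfl : i = j⟩ := d.fin_M.mem_toFinset.1 hm
    obtain ⟨-, ek, k⟩ := d.nk _ hm
    have ek' : T.k (⟨(y, i), hj⟩ : d.T) = T.k (⟨(x, i), hi⟩ : d.T) := congrFun ek i
    obtain ⟨r, hr, nk⟩ := Dg.rg_neck (Or.inl hm)
    obtain ⟨δ, hδ, e⟩ := exists_root hr (T.k_ne (⟨(x, i), hi⟩ : d.T))
    refine ⟨δ, hδ, ?_⟩
    filter_upwards [k, nk, reg_eq (⟨(x, i), hi⟩ : d.T), reg_eq (⟨(y, i), hj⟩ : d.T)]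
      with n c1 c2 c3 c4
    refine ⟨(rt_eq_zero (T.k_ne _)).not.2 c2.1, ?_, ?_, fun w hw => (c1 i hi).2 w hw.1⟩
    · simp only [T.σ, ek']; rw [c2.2.1]
    · rw [c3 δ hδ, c4 δ hδ, ek', (c2.2.2 _ e).1]
      exact congrArg (· ∩ _) (c1 i hi).1
  · obtain ⟨y, hy⟩ := D.cover fun n => h n (p n)
    exact (exists_to (d := d) hy).imp fun a c => c.2
  · have ca := to_iff.1 ca
    have cb := to_iff.1 cb
    rcases D.sep _ _ _ ca.1 cb.1 with e | e | e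
    · exact Or.inl (ca.2.eq cb.2 e)
    · exact Or.inr (Or.inl (d.fin_M.mem_toFinset.2 ⟨e, nk_in e ca.2 cb.2⟩))
    · exact Or.inr (Or.inr (d.fin_M.mem_toFinset.2 ⟨e, nk_in e cb.2 ca.2⟩))
  · rw [S.ev_ne_iff]
    filter_upwards [ev_good a, nhdsWithin_le_nhds (hS a)] with t c1 c2 p
    rw [c2.1, c2.2]
    exact c1.near

end Dat

end LiftP

variable {X : ℕ → Type} [∀ n, TopologicalSpace (X n)] [∀ n, T2Space (X n)]
  [∀ n, CompactSpace (X n)] [∀ n, Nonempty (X n)] {Y : Type} [TopologicalSpace Y] [T2Space Y]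
  [CompactSpace Y] {U : Ultrafilter ℕ} {Q : RS Y}

theorem Dg.lift {X₀ : ℕ → Type} [∀ n, TopologicalSpace (X₀ n)] [∀ n, T2Space (X₀ n)]
    [∀ n, CompactSpace (X₀ n)] [∀ n, Nonempty (X₀ n)] {R₀ : ∀ n, RS (X₀ n)} (D₀ : Dg U R₀ Q)
    (R : ∀ n, RS (X n)) {h : ∀ n, X n → X₀ n} (hh : ∀ n, HM (R n) (R₀ n) (h n)) {m : ℕ}
    (fib : ∀ n v, (h n ⁻¹' {v}).encard ≤ m) {Z₀ : ∀ n, Set (X₀ n)} (hZ : D₀.Av Z₀)
    (cr : ∀ n w, (R n).d (fun v => (R₀ n).e (h n w) (h n v)) w = 0 → h n w ∈ Z₀ n) :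
    ∃ (Y' : Type) (_ : TopologicalSpace Y') (_ : T2Space Y') (_ : CompactSpace Y') (Q' : RS Y'),
      Nonempty (Dg U R Q') := by
  obtain ⟨d⟩ := LiftP.exists_dat D₀ R hh fib hZ cr
  exact ⟨d.T, d.main⟩

end Vale.Agent.P269.Cpt
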