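import Vale.Agent.P269.Cpt.Bas
import Vale.Agent.P269.Cpt.Cov

/-!
# Lifting a degeneration along branched covers: the cyclic pieces
-/

set_option linter.unusedSectionVars false

namespace Vale.Agent.P269.Cpt.LiftP

open Set Function Topology Filter Metric Vale.Agent.P269.Cv

/-- a `k`-th root -/
noncomputable def rt (τ : ℂ) (k : ℕ) : ℂ := τ ^ ((k : ℂ)⁻¹)

theorem rt_pow (τ : ℂ) {k : ℕ} (hk : k ≠ 0) : rt τ k ^ k = τ := Complex.cpow_nat_inv_pow τ hk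

theorem rt_eq_zero {τ : ℂ} {k : ℕ} (hk : k ≠ 0) : rt τ k = 0 ↔ τ = 0 := by
  conv_rhs => rw [← rt_pow τ hk]
  exact (pow_eq_zero_iff hk).symm

theorem pow_mem_ann {τ t : ℂ} {k : ℕ} (hk : k ≠ 0) {δ : ℝ} (hδ : 0 < δ) :
    t ^ k ∈ ann τ (δ ^ k) ↔ t ∈ ann (rt τ k) δ := by
  have e : ‖τ‖ = ‖rt τ k‖ ^ k := by rw [← norm_pow, rt_pow τ hk]
  simp only [ann, mem_ofPred_eq, norm_pow, rt_eq_zero hk, e, ← mul_pow]
  rw [pow_lt_pow_iff_left₀ (norm_nonneg _) hδ.le hk,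
    pow_lt_pow_iff_left₀ (norm_nonneg _) (by positivity) hk]

theorem div_mem_ann {τ t : ℂ} (hτ : τ ≠ 0) {r : ℝ} :
    t ∈ ann τ r ↔ t ≠ 0 ∧ τ / t ∈ ann τ r := by
  have h0 : 0 < ‖τ‖ := norm_pos_iff.2 hτ
  simp only [ann, mem_ofPred_eq, hτ, false_or, norm_div]
  constructor
  · rintro ⟨a, b⟩
    have ht : t ≠ 0 := fun e => by rw [e, norm_zero, mul_zero] at b; linarith
    have h1 : 0 < ‖t‖ := norm_pos_iff.2 ht
    refine ⟨ht, by rwa [div_lt_iff₀ h1], ?_⟩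
    rw [← mul_div_assoc, lt_div_iff₀ h1]
    nlinarith
  · rintro ⟨ht, a, b⟩
    have h1 : 0 < ‖t‖ := norm_pos_iff.2 ht
    rw [← mul_div_assoc, lt_div_iff₀ h1] at b
    exact ⟨by nlinarith, by rwa [div_lt_iff₀ h1] at a⟩

theorem ev_ann {α : Type} {l : Filter α} {τ u : α → ℂ} {v : ℂ} {r : ℝ} (hτ : Tendsto τ l (𝓝 0))
    (hu : Tendsto u l (𝓝 v)) (h0 : v ≠ 0) (hr : ‖v‖ < r) : ∀ᶠ n in l, u n ∈ ann (τ n) r := by
  have h1 : 0 < ‖v‖ := norm_pos_iff.2 h0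
  have a := hu.norm.eventually (gt_mem_nhds hr)
  have b : ∀ᶠ n in l, ‖τ n‖ < r * ‖u n‖ :=
    hτ.norm.eventually_lt (hu.norm.const_mul r) (by rw [norm_zero]; nlinarith)
  filter_upwards [a, b] with n a b using ⟨a, Or.inr b⟩

theorem exists_root {r : ℝ} (hr : 0 < r) {k : ℕ} (hk : k ≠ 0) : ∃ δ > 0, δ ^ k ≤ r :=
  ⟨min 1 r, by positivity, (pow_le_of_le_one (by positivity) (min_le_left _ _) hk).trans
    (min_le_right _ _)⟩

theorem tendsto_of_pow {α : Type} {l : Filter α} {u : α → ℂ} {k : ℕ}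
    (h : Tendsto (fun n => u n ^ k) l (𝓝 0)) : Tendsto u l (𝓝 0) := by
  rw [NormedAddGroup.tendsto_nhds_zero] at h ⊢
  intro ε hε
  filter_upwards [h (ε ^ k) (by positivity)] with n hn
  rw [norm_pow] at hn
  exact lt_of_pow_lt_pow_left₀ k hε.le hn

open Classical in
/-- the map `t ↦ c / t` -/
noncomputable def iv (c : ℂ) : OpenPartialHomeomorph ℂ ℂ :=
  if hc : c = 0 then OpenPartialHomeomorph.refl ℂ else
  { toFun := fun t => c / t
    invFun := fun t => c / t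
    source := {0}ᶜ
    target := {0}ᶜ
    map_source' := fun _ h => div_ne_zero hc h
    map_target' := fun _ h => div_ne_zero hc h
    left_inv' := fun t h => by
      have : t ≠ 0 := h
      field_simp
    right_inv' := fun t h => by
      have : t ≠ 0 := h
      field_simp
    open_source := isOpen_compl_singleton
    open_target := isOpen_compl_singleton
    continuousOn_toFun := continuousOn_const.div continuousOn_id fun _ h => h
    continuousOn_invFun := continuousOn_const.div continuousOn_id fun _ h => h }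

theorem iv_spec {c : ℂ} (hc : c ≠ 0) : (iv c).source = {0}ᶜ ∧ (iv c).target = {0}ᶜ ∧
    (∀ t, iv c t = c / t) ∧ ∀ t, (iv c).symm t = c / t := by
  unfold iv
  rw [dif_neg hc]
  exact ⟨rfl, rfl, fun _ => rfl, fun _ => rfl⟩

/-- `Ω` is the disjoint union of cyclic covers of the disc or the annulus -/
structure Pc {W : Type} [TopologicalSpace W] (S : RS W) (Ω : Set W) (f : W → ℂ) (τ : ℂ) (r : ℝ)
    (N : ℕ) (k : ℕ → ℕ) (E : ℕ → OpenPartialHomeomorph W ℂ) : Prop where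
  cmp : ∀ i < N, S.Cmp (E i)
  tgt : ∀ i < N, (E i).target = {t | t ^ k i ∈ ann τ r}
  sub : ∀ i < N, (E i).source ⊆ Ω
  pw : ∀ i < N, ∀ w ∈ (E i).source, f w = E i w ^ k i
  disj : ∀ i < N, ∀ j < N, ∀ w ∈ (E i).source, w ∈ (E j).source → i = j
  cov : ∀ w ∈ Ω, ∃ i < N, w ∈ (E i).source

section

variable {W : Type} [TopologicalSpace W] {S : RS W} {Ω : Set W} {f f' : W → ℂ} {τ : ℂ} {r : ℝ}
  {N : ℕ} {k : ℕ → ℕ} {E : ℕ → OpenPartialHomeomorph W ℂ}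

theorem Pc.neck (h : Pc S Ω f τ r N k E) (hτ : τ ≠ 0) (hk : ∀ i, k i ≠ 0)
    (e : ∀ w ∈ Ω, f w * f' w = τ) :
    Pc S Ω f' τ r N k (fun i => (E i).trans (iv (rt τ (k i)))) ∧
      ∀ i < N, ((E i).trans (iv (rt τ (k i)))).source = (E i).source ∧ ∀ w ∈ (E i).source,
        E i w * ((E i).trans (iv (rt τ (k i)))) w = rt τ (k i) := by
  have hc : ∀ i, rt τ (k i) ≠ 0 := fun i => (rt_eq_zero (hk i)).not.2 hτ
  have hne : ∀ i < N, ∀ w ∈ (E i).source, E i w ≠ 0 := fun i hi w hw h0 => by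
    have := (E i).map_source hw
    rw [h.tgt i hi, mem_ofPred_eq, div_mem_ann hτ, h0, zero_pow (hk i)] at this
    exact this.1 rfl
  have hs : ∀ i < N, ((E i).trans (iv (rt τ (k i)))).source = (E i).source := fun i hi => by
    rw [OpenPartialHomeomorph.trans_source, (iv_spec (hc i)).1]
    exact inter_eq_left.2 fun w hw => hne i hi w hw
  have hv : ∀ i, (((E i).trans (iv (rt τ (k i))) : OpenPartialHomeomorph W ℂ) : W → ℂ) =
      fun w => rt τ (k i) / E i w := fun i => funext fun w => (iv_spec (hc i)).2.2.1 _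
  refine ⟨⟨fun i hi w hw => ?_, fun i hi => ?_, fun i hi => (hs i hi).symm ▸ h.sub i hi,
    fun i hi w hw => ?_, fun i hi j hj w a b => h.disj i hi j hj w (hs i hi ▸ a) (hs j hj ▸ b),
    fun w hw => (h.cov w hw).imp fun i ⟨a, b⟩ => ⟨a, (hs i a).symm ▸ b⟩⟩,
    fun i hi => ⟨hs i hi, fun w hw => ?_⟩⟩
  · rw [hs i hi] at hw
    have a := h.cmp i hi w hw
    have b := hne i hi w hw
    rw [hv]
    refine ⟨(RS.hol_const _).div a.1 b, ?_⟩
    have an : AnalyticAt ℂ (fun t => rt τ (k i) / t) (E i w) :=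
      analyticAt_const.div analyticAt_id b
    rw [RS.d_comp an a.1]
    refine mul_ne_zero ?_ a.2
    have := ((hasDerivAt_inv b).const_mul (rt τ (k i))).deriv
    simp only [div_eq_mul_inv]
    rw [this]
    exact mul_ne_zero (hc i) (neg_ne_zero.2 (inv_ne_zero (pow_ne_zero _ b)))
  · ext t
    rw [OpenPartialHomeomorph.trans_target, (iv_spec (hc i)).2.1, h.tgt i hi]
    simp only [mem_inter_iff, mem_compl_iff, mem_singleton_iff, mem_preimage, mem_ofPred_eq,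
      (iv_spec (hc i)).2.2.2, div_pow, rt_pow τ (hk i)]
    rw [div_mem_ann (t := t ^ k i) hτ, pow_ne_zero_iff (hk i)]
  · rw [hs i hi] at hw
    have a := e w (h.sub i hi hw)
    rw [h.pw i hi w hw] at a
    rw [hv]
    simp only [div_pow, rt_pow τ (hk i)]
    rw [eq_div_iff (pow_ne_zero _ (hne i hi w hw)), mul_comm, a]
  · rw [hv]
    exact mul_div_cancel₀ _ (hne i hi w hw)

theorem exists_pc [T2Space W] [CompactSpace W] [Nonempty W] {W₀ : Type} [TopologicalSpace W₀]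
    [T2Space W₀] {S₀ : RS W₀} {h : W → W₀} (hh : HM S S₀ h) {m : ℕ}
    (fib : ∀ v, (h ⁻¹' {v}).encard ≤ m) {E₀ : OpenPartialHomeomorph W₀ ℂ} (hc : S₀.Cmp E₀)
    (hr : 0 < r) (hτ : ‖τ‖ < r ^ 2) (ht : ann τ r ⊆ E₀.target)
    (cr : ∀ w, S.d (fun v => S₀.e (h w) (h v)) w = 0 → h w ∈ reg E₀ τ r → E₀ (h w) = 0) :
    ∃ (N : ℕ) (k : ℕ → ℕ) (E : ℕ → OpenPartialHomeomorph W ℂ), N ≤ m ∧
      (∀ i, k i ≠ 0 ∧ k i ≤ m + 1) ∧ (∀ i, m ≤ i → k i = 1) ∧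
      Pc S (h ⁻¹' reg E₀ τ r) (fun w => E₀ (h w)) τ r N k E := by
  have ev : ∀ w, (fun v => E₀ (S₀.i (h w) (S₀.e (h w) (h v)))) =ᶠ[𝓝 w] fun v => E₀ (h v) :=
    fun w => (hh.cont.continuousAt.eventually (S₀.src_nhds (h w))).mono fun v hv =>
      congrArg E₀ (S₀.i_e hv)
  have an : ∀ w, h w ∈ E₀.source →
      AnalyticAt ℂ (fun t => E₀ (S₀.i (h w) t)) (S₀.e (h w) (h w)) := fun w hw => by
    rw [S₀.zero]; exact (hc _ hw).1
  obtain ⟨n, k, E, hn, hE, hd, hu⟩ := exists_cov S (Ω := h ⁻¹' reg E₀ τ r)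
    ((E₀.isOpen_inter_preimage isOpen_ann).preimage hh.cont) (f := fun w => E₀ (h w)) hr hτ
    (fun w hw => (RS.Hol.comp (f := fun v => S₀.e (h w) (h v)) (x := w) (an w hw.1)
      (hh.hol w)).congr (ev w)) (fun w hw => hw.2)
    (fun K hK cK => by
      have e : h ⁻¹' reg E₀ τ r ∩ (fun w => E₀ (h w)) ⁻¹' K = h ⁻¹' (E₀.symm '' K) := by
        rw [E₀.symm_image_eq_source_inter_preimage (hK.trans ht)]
        ext w
        exact ⟨fun a => ⟨a.1.1, a.2⟩, fun a => ⟨⟨a.1, hK a.2⟩, a.2⟩⟩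
      rw [e]
      exact ((cK.image_of_continuousOn (E₀.continuousOn_symm.mono (hK.trans ht))).isClosed.preimage
        hh.cont).isCompact)
    (fun w hw h0 => by
      rw [← RS.d_congr (ev w), RS.d_comp (f := fun v => S₀.e (h w) (h v)) (x := w) (an w hw.1)
        (hh.hol w), S₀.zero]
      exact mul_ne_zero (hc _ hw.1).2 fun a => h0 (cr w a hw))
    (m := m) (fun v => (encard_le_encard (t := h ⁻¹' {E₀.symm v}) fun w hw => by
      have : E₀ (h w) = v := hw.2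
      exact (this ▸ E₀.left_inv hw.1.1 : E₀.symm v = h w).symm).trans (fib _))
  refine ⟨n, fun i => if hi : i < n then k ⟨i, hi⟩ else 1,
    fun i => if hi : i < n then E ⟨i, hi⟩ else S.e (Classical.arbitrary W), hn, fun i => ?_,
    fun i hi => dif_neg (by omega), ⟨fun i hi => ?_, fun i hi => ?_, fun i hi => ?_,
      fun i hi => ?_, fun i hi j hj w => ?_, fun w hw => ?_⟩⟩
  · dsimp only
    split_ifs with hi
    · have := hE ⟨i, hi⟩; omega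
    · omega
  · simp only [dif_pos hi]; exact (hE _).2.2.1
  · simp only [dif_pos hi]; exact (hE _).2.2.2.1
  · simp only [dif_pos hi]; exact (hE _).2.2.2.2.1
  · simp only [dif_pos hi]; exact (hE _).2.2.2.2.2
  · simp only [dif_pos hi, dif_pos hj]
    intro a b
    by_contra hne
    exact Set.disjoint_left.1 (hd (i := ⟨i, hi⟩) (j := ⟨j, hj⟩) fun e => hne (Fin.mk.inj e)) a b
  · obtain ⟨i, hi⟩ := mem_iUnion.1 (hu hw)
    exact ⟨i, i.2, by simp only [dif_pos i.2]; exact hi⟩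

end

variable {X X₀ : ℕ → Type} [∀ n, TopologicalSpace (X n)] [∀ n, T2Space (X n)]
  [∀ n, CompactSpace (X n)] [∀ n, Nonempty (X n)] [∀ n, TopologicalSpace (X₀ n)]
  [∀ n, T2Space (X₀ n)] [∀ n, CompactSpace (X₀ n)] [∀ n, Nonempty (X₀ n)]
  {Y : Type} [TopologicalSpace Y] [T2Space Y] [CompactSpace Y] {U : Ultrafilter ℕ}
  {R₀ : ∀ n, RS (X₀ n)} {Q : RS Y}

/-- the pieces over all points of the limit -/
structure Dat (D : Dg U R₀ Q) (R : ∀ n, RS (X n)) (h : ∀ n, X n → X₀ n) where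
  /-- the number of pieces -/
  N : Y → ℕ
  /-- the exponents -/
  k : Y → ℕ → ℕ
  /-- the charts -/
  E : Y → ℕ → ∀ n, OpenPartialHomeomorph (X n) ℂ
  /-- the radii -/
  r : Y → ℝ
  r_pos : ∀ y, 0 < r y
  k_ne : ∀ y i, k y i ≠ 0
  pc : ∀ y, ∀ᶠ n in U, Pc (R n) (h n ⁻¹' D.rg y n (r y)) (fun w => D.E y n (h n w)) (D.τ y n)
    (r y) (N y) (k y) fun i => E y i n
  nk : ∀ m ∈ D.M, N m.2 = N m.1 ∧ k m.2 = k m.1 ∧ ∀ᶠ n in U, ∀ i < N m.1,
    (E m.2 i n).source = (E m.1 i n).source ∧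
      ∀ w ∈ (E m.1 i n).source, E m.1 i n w * E m.2 i n w = rt (D.τ m.1 n) (k m.1 i)

variable (D : Dg U R₀ Q) (R : ∀ n, RS (X n)) {h : ∀ n, X n → X₀ n}

theorem exists_one (hh : ∀ n, HM (R n) (R₀ n) (h n)) {m : ℕ}
    (fib : ∀ n v, (h n ⁻¹' {v}).encard ≤ m) {Z₀ : ∀ n, Set (X₀ n)} (hZ : D.Av Z₀)
    (cr : ∀ n w, (R n).d (fun v => (R₀ n).e (h n w) (h n v)) w = 0 → h n w ∈ Z₀ n) (y : Y)
    {ρ : ℝ} (hρ : 0 < ρ) : ∃ (r : ℝ) (N : ℕ) (k : ℕ → ℕ)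
      (E : ℕ → ∀ n, OpenPartialHomeomorph (X n) ℂ), 0 < r ∧ r ≤ ρ ∧ (∀ i, k i ≠ 0) ∧
      ∀ᶠ n in U, Pc (R n) (h n ⁻¹' D.rg y n r) (fun w => D.E y n (h n w)) (D.τ y n) r N k
        fun i => E i n := by
  classical
  obtain ⟨δ, hδ, h1⟩ := hZ y
  obtain ⟨δ', hδ', h2⟩ := D.tgt y
  set r := min ρ (min δ δ') with hr
  have r0 : 0 < r := by positivity
  have h3 : ∀ᶠ n in U, ‖D.τ y n‖ < r ^ 2 :=
    (D.tend y).norm.eventually (gt_mem_nhds (by rw [norm_zero]; positivity))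
  have h4 : ∀ᶠ n in U, ∃ (c : ℕ × (ℕ → ℕ) × (ℕ → OpenPartialHomeomorph (X n) ℂ)), c.1 ≤ m ∧
      (∀ i, c.2.1 i ≠ 0 ∧ c.2.1 i ≤ m + 1) ∧ (∀ i, m ≤ i → c.2.1 i = 1) ∧
      Pc (R n) (h n ⁻¹' D.rg y n r) (fun w => D.E y n (h n w)) (D.τ y n) r c.1 c.2.1 c.2.2 := by
    filter_upwards [h1, h2, h3, D.cmp y] with n h1 h2 h3 h4
    obtain ⟨N, k, E, a⟩ := exists_pc (hh n) (fib n) h4 r0 h3
      ((ann_mono ((min_le_right _ _).trans (min_le_right _ _))).trans h2) fun w a b =>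
        h1 _ (cr n w a) (Dg.rg_mono ((min_le_right _ _).trans (min_le_left _ _)) b)
    exact ⟨(N, k, E), a⟩
  have : ∀ n, Nonempty (ℕ × (ℕ → ℕ) × (ℕ → OpenPartialHomeomorph (X n) ℂ)) := fun n =>
    ⟨(0, 0, fun _ => (R n).e (Classical.arbitrary _))⟩
  let c : ∀ n, ℕ × (ℕ → ℕ) × (ℕ → OpenPartialHomeomorph (X n) ℂ) := fun n =>
    Classical.epsilon fun c => c.1 ≤ m ∧
      (∀ i, c.2.1 i ≠ 0 ∧ c.2.1 i ≤ m + 1) ∧ (∀ i, m ≤ i → c.2.1 i = 1) ∧
      Pc (R n) (h n ⁻¹' D.rg y n r) (fun w => D.E y n (h n w)) (D.τ y n) r c.1 c.2.1 c.2.2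
  have h5 : ∀ᶠ n in U, (c n).1 ≤ m ∧ (∀ i, (c n).2.1 i ≠ 0 ∧ (c n).2.1 i ≤ m + 1) ∧
      (∀ i, m ≤ i → (c n).2.1 i = 1) ∧ Pc (R n) (h n ⁻¹' D.rg y n r)
        (fun w => D.E y n (h n w)) (D.τ y n) r (c n).1 (c n).2.1 (c n).2.2 :=
    h4.mono fun n hn => Classical.epsilon_spec hn
  let g : ℕ → ℕ × (Fin m → ℕ) := fun n => ((c n).1, fun i => (c n).2.1 i)
  have fin : (Iic m ×ˢ Set.pi univ fun _ : Fin m => Iic (m + 1)).Finite :=
    (finite_Iic m).prod (Finite.pi fun _ => finite_Iic _)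
  obtain ⟨v, -, hv⟩ := (U.map g).eq_pure_of_finite_mem fin
    (Ultrafilter.mem_map.2 (h5.mono fun n hn => ⟨hn.1, fun i _ => (hn.2.1 i).2⟩))
  have h6 : ∀ᶠ n in U, g n = v := by
    have : {v} ∈ U.map g := by rw [hv]; exact Ultrafilter.mem_pure.2 rfl
    exact this
  obtain ⟨n₀, a₀, b₀⟩ := (h5.and h6).exists
  refine ⟨r, (c n₀).1, (c n₀).2.1, fun i n => (c n).2.2 i, r0, min_le_left _ _,
    fun i => (a₀.2.1 i).1, ?_⟩
  filter_upwards [h5, h6] with n a b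
  have e := b₀.trans b.symm
  have e1 : (c n₀).1 = (c n).1 := congrArg Prod.fst e
  have e2 : (c n₀).2.1 = (c n).2.1 := funext fun i => by
    rcases lt_or_ge i m with hi | hi
    · exact congrFun (congrArg Prod.snd e) ⟨i, hi⟩
    · exact (a₀.2.2.1 i hi).trans (a.2.2.1 i hi).symm
  rw [e1, e2]
  exact a.2.2.2

theorem exists_dat (hh : ∀ n, HM (R n) (R₀ n) (h n)) {m : ℕ}
    (fib : ∀ n v, (h n ⁻¹' {v}).encard ≤ m) {Z₀ : ∀ n, Set (X₀ n)} (hZ : D.Av Z₀)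
    (cr : ∀ n w, (R n).d (fun v => (R₀ n).e (h n w) (h n v)) w = 0 → h n w ∈ Z₀ n) :
    Nonempty (Dat D R h) := by
  classical
  have rad : ∀ y, ∃ ρ > 0, ∀ y', (y, y') ∈ D.M → ∀ᶠ n in U, D.τ y n ≠ 0 ∧
      D.τ y' n = D.τ y n ∧ ∀ δ ≤ ρ, D.rg y' n δ = D.rg y n δ ∧
        ∀ w ∈ D.rg y n δ, D.E y n w * D.E y' n w = D.τ y n := fun y => by
    by_cases hy : ∃ y', (y, y') ∈ D.M
    · obtain ⟨y', hy⟩ := hy
      obtain ⟨ρ, hρ, a⟩ := Dg.rg_neck (Or.inl hy)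
      refine ⟨ρ, hρ, fun y'' b => ?_⟩
      obtain rfl : y'' = y' := congrArg Prod.snd (D.nd.inj1 b hy rfl)
      exact a
    · exact ⟨1, one_pos, fun y' b => (hy ⟨y', b⟩).elim⟩
  choose ρ hρ nk using rad
  choose r N k E r0 rρ k0 pc using fun y => exists_one D R hh fib hZ cr y (hρ y)
  let b : Y → Y := fun y => if hy : ∃ x, (x, y) ∈ D.M then hy.choose else y
  have b1 : ∀ x y, (x, y) ∈ D.M → b x = x ∧ b y = x ∧ ¬∃ z, (z, x) ∈ D.M := fun x y hm => by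
    have n1 : ¬∃ z, (z, x) ∈ D.M := fun ⟨z, hz⟩ => D.nd.ne _ hm _ hz rfl
    have e1 : ∃ x, (x, y) ∈ D.M := ⟨x, hm⟩
    exact ⟨dif_neg n1, (dif_pos e1).trans
      (congrArg Prod.fst (D.nd.inj2 e1.choose_spec hm rfl)), n1⟩
  let E' : Y → ℕ → ∀ n, OpenPartialHomeomorph (X n) ℂ := fun y i n =>
    if ∃ x, (x, y) ∈ D.M then (E (b y) i n).trans (iv (rt (D.τ (b y) n) (k (b y) i)))
    else E y i n
  have key : ∀ x y, (x, y) ∈ D.M → ∀ᶠ n in U,
      Pc (R n) (h n ⁻¹' D.rg y n (r x)) (fun w => D.E y n (h n w)) (D.τ y n) (r x) (N x) (k x)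
        (fun i => (E x i n).trans (iv (rt (D.τ x n) (k x i)))) ∧
      ∀ i < N x, ((E x i n).trans (iv (rt (D.τ x n) (k x i)))).source = (E x i n).source ∧
        ∀ w ∈ (E x i n).source, E x i n w * ((E x i n).trans (iv (rt (D.τ x n) (k x i)))) w =
          rt (D.τ x n) (k x i) := fun x y hm => by
    filter_upwards [pc x, nk x y hm] with n a c
    rw [c.2.1, (c.2.2 _ (rρ x)).1]
    exact a.neck c.1 (k0 x) fun w hw => (c.2.2 _ (rρ x)).2 _ hw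
  refine ⟨⟨fun y => N (b y), fun y => k (b y), E', fun y => r (b y), fun y => r0 _,
    fun y => k0 _, fun y => ?_, fun m hm => ?_⟩⟩
  · by_cases hy : ∃ x, (x, y) ∈ D.M
    · obtain ⟨x, hx⟩ := id hy
      simp only [E', if_pos hy, (b1 x y hx).2.1]
      exact (key x y hx).mono fun n a => a.1
    · have : b y = y := dif_neg hy
      simp only [E', if_neg hy, this]
      exact pc y
  · obtain ⟨x, y⟩ := m
    obtain ⟨e1, e2, e3⟩ := b1 x y hm
    simp only [E', if_pos (⟨x, hm⟩ : ∃ x, (x, y) ∈ D.M), if_neg e3, e1, e2, true_and]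
    exact (key x y hm).mono fun n a => a.2

end Vale.Agent.P269.Cpt.LiftP
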