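import Vale.Agent.P269.Cpt.Deg
import Vale.Agent.P269.Cpt.Alg
import Vale.Agent.P269.Cpt.Bas2
import Vale.Agent.P269.Cpt.Sec
import Vale.Agent.P269.Pt.Uniq

/-!
# Restriction to the stable part gives weak convergence
-/

set_option linter.unusedSectionVars false

namespace Vale.Agent.P269.Cpt

open Set Function Topology Filter Metric Module Vale.Agent.P269.Cv

variable {X : ℕ → Type} [∀ n, TopologicalSpace (X n)] [∀ n, T2Space (X n)]
  [∀ n, CompactSpace (X n)] [∀ n, Nonempty (X n)] {Y : Type} [TopologicalSpace Y] [T2Space Y]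
  [CompactSpace Y] {U : Ultrafilter ℕ} {R : ∀ n, RS (X n)} {Q : RS Y} {D : Dg U R Q}
  {B B' : ∀ n, LB (R n)} {L L' : LB Q} {p q : ∀ n, X n} {x y y' z : Y} {s s' : ∀ n, X n → ℂ}
  {σ σ' : Y → ℂ} {Z : ∀ n, Set (X n)} {ν : Type} [Fintype ν] {N : ∀ n, Finset (X n × X n)}
  {pm : ∀ n, ν → X n} {N₀ N₁ : Finset (Y × Y)} {p₀ : ν → Y}

namespace ResP

theorem comap {W W' : Type} [TopologicalSpace W] [TopologicalSpace W'] (S : RS W)
    {f : W' → W} (hf : IsOpenEmbedding f) : ∃ S' : RS W', LIso S' S f ∧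
      (∀ w v, S'.e w v = S.e (f w) (f v)) ∧ (∀ w, ∀ᶠ t in 𝓝 (0 : ℂ), f (S'.i w t) = S.i (f w) t) ∧
      ∀ w, S'.d (fun v => S.e (f w) (f v)) w = 1 := by
  let e : W' → OpenPartialHomeomorph W' ℂ := fun x =>
    (@IsOpenEmbedding.toOpenPartialHomeomorph _ _ _ _ f hf ⟨x⟩).trans (S.e (f x))
  have k : ∀ y, ∀ᶠ t in 𝓝 (0 : ℂ), f ((e y).symm t) = S.i (f y) t := fun y =>
    Eventually.mono (S.tends_i (f y) (hf.isOpen_range.mem_nhds ⟨y, rfl⟩)) fun t ht =>
      @IsOpenEmbedding.toOpenPartialHomeomorph_right_inv _ _ _ _ f hf ⟨y⟩ _ ht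
  let S' : RS W' := ⟨e, fun x => ⟨mem_univ x, S.mem _⟩, fun x => S.zero _, fun x y hy => by
    have a : (fun t => S.e (f x) (S.i (f y) t)) =ᶠ[𝓝 0] fun t => e x ((e y).symm t) :=
      (k y).mono fun t ht => congrArg (S.e (f x)) ht.symm
    exact ⟨(S.hol _ _ hy.2).1.congr a, a.deriv_eq ▸ (S.hol _ _ hy.2).2⟩⟩
  exact ⟨S', ⟨hf.continuous, fun x => RS.hol_e (S'.mem x), fun x => RS.d_e_ne (S'.mem x)⟩,
    fun _ _ => rfl, k, fun w => S'.d_e_self w⟩

theorem fin_sm (N : Finset (Y × Y)) : {y | ¬Sm N y}.Finite :=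
  ((N.finite_toSet.image Prod.fst).union (N.finite_toSet.image Prod.snd)).subset fun _ h =>
    let ⟨n, a, b⟩ := not_sm.1 h
    b.imp (fun c => ⟨n, a, c⟩) fun c => ⟨n, a, c⟩

theorem ev_not_mem {T : Set Y} (hT : T.Finite) (y : Y) : ∀ᶠ z in 𝓝[≠] y, z ∉ T := by
  have : (T \ {y})ᶜ ∈ 𝓝 y := (hT.subset sdiff_subset).isClosed.isOpen_compl.mem_nhds (by simp)
  filter_upwards [mem_nhdsWithin_of_mem_nhds this, self_mem_nhdsWithin] with z a b c using a ⟨c, b⟩

theorem mu_ne {ρ : Type} [Fintype ρ] {u : Y → ℂ} {γ : Y → ρ → ℂ} (hu : u y ≠ 0)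
    (hγ : ∀ i, γ y i ≠ 0) (a : ℤ) (χ : ρ → ℤ) : mu u γ a χ y ≠ 0 :=
  mul_ne_zero (zpow_ne_zero _ hu) (Finset.prod_ne_zero_iff.2 fun i _ => zpow_ne_zero _ (hγ i))

theorem mu_one {ρ : Type} [Fintype ρ] {u : Y → ℂ} {γ : Y → ρ → ℂ} (hu : u y = 1)
    (hγ : γ y = 1) (a : ℤ) (χ : ρ → ℤ) : mu u γ a χ y = 1 := by simp [mu, hu, hγ]

end ResP

open ResP SecP

open Classical in
theorem St.exists_wk {ρ ι : Type} [Fintype ρ] (ho : D.Old N pm N₀ p₀ N₁) {A : ∀ n, ρ → LB (R n)}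
    {A₁ : ρ → LB Q} (b : ∀ r, BL D (A · r) (A₁ r)) (hb : ∀ r, (b r).Pr N₀) {W : LB Q}
    (bw : BL D (fun n => omega (R n) (N n) (Finset.univ.image (pm n))) W) (hw : bw.Pr N₀)
    {θ : ρ → ℤ} {S : Set Y} {N' : Finset (Y × Y)} {p' : ν → Y} {u : Y → ℂ} {γ : Y → ρ → ℂ}
    (st : St N₁ p₀ A₁ θ W S N' p' u γ)
    (hε : ∀ y ∈ S, Sm N₁ y → (∀ k, p₀ k ≠ y) → ∀ n, bw.ε y n = (R n).d (D.E y n))
    (hm : ∀ k, ∀ᶠ n in U, bw.ε (p₀ k) n (pm n k) = 1)
    (pos : ∀ C, IsClopen C → C ⊆ S → C.Nonempty → 1 ≤ degOn (W * bz A₁ θ) C) (a : ι → ℤ)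
    (c : ι → ρ → ℤ) :
    ∃ (Q' : RS S) (N'' : Finset (S × S)) (p'' : ν → S) (A' : ρ → LB Q')
      (wk : Wk U R Q' fun n i =>
        omega (R n) (N n) (Finset.univ.image (pm n)) ^ a i * bz (A n) (c i)),
      Nd N'' ∧ (∀ k, Sm N'' (p'' k)) ∧ Injective p'' ∧ (∀ k, (p'' k : Y) = p' k) ∧
      (∀ᶠ n in U, gen (R n) (N n) = gen Q' N'' ∧ ∀ r, deg (A n r) = deg (A' r)) ∧
      Ge (omega Q' N'' (Finset.univ.image p'') * bz A' θ) 1 ∧
      (∀ χ, ∀ f ∈ H0 N₁ (bz A₁ χ), (fun y : S => f y * ∏ r, γ y r ^ χ r) ∈ H0 N'' (bz A' χ)) ∧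
      (∀ y : S, wk.E y = D.E y) ∧
      (∀ (y : S) n v i, wk.ε y n v i = (R n).d (D.E y n) v ^ a i * ∏ r, (b r).ε y n v ^ c i r) ∧
      (∀ y ∈ wk.Gd, γ y = 1 ∧ Sm N₁ (y : Y) ∧ ∀ k, p₀ k ≠ y) ∧
      wk.LS N pm (fun n k i => ∏ r, (b r).ε (p₀ k) n (pm n k) ^ c i r)
        (fun i => omega Q' N'' (Finset.univ.image p'') ^ a i * bz A' (c i)) N'' p'' := by
  have : CompactSpace S := isCompact_iff_compactSpace.1 st.clopen.isClosed.isCompact
  obtain ⟨Q', hl, he, hi, hd⟩ := comap Q st.clopen.isOpen.isOpenEmbedding_subtypeVal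
  have vi : Injective (Subtype.val : S → Y) := Subtype.val_injective
  obtain ⟨N'', hN⟩ : ∃ N'' : Finset (S × S), ∀ m, m ∈ N'' ↔ ((m.1 : Y), (m.2 : Y)) ∈ N' :=
    ⟨N'.preimage (Prod.map Subtype.val Subtype.val) (vi.prodMap vi).injOn,
      fun m => Finset.mem_preimage⟩
  set p'' : ν → S := fun k => ⟨p' k, st.mem k⟩ with hp''
  set A' : ρ → LB Q' := fun r => hl.pb (A₁ r * LB.cst Q (γ · r) (st.γne · r)) with hA'
  have lift : ∀ m ∈ N', ∃ m' ∈ N'', (m'.1 : Y) = m.1 ∧ (m'.2 : Y) = m.2 := fun m h =>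
    ⟨(⟨_, (st.sub m h).1⟩, ⟨_, (st.sub m h).2⟩), (hN _).2 h, rfl, rfl⟩
  have nd : Nd N'' := ⟨fun m h m' h' e =>
      st.nd.ne _ ((hN m).1 h) _ ((hN m').1 h') (congrArg Subtype.val e),
    fun m h m' h' e => Prod.ext e (vi (congrArg Prod.snd
      (st.nd.inj1 ((hN m).1 h) ((hN m').1 h') (congrArg Subtype.val e)))),
    fun m h m' h' e => Prod.ext (vi (congrArg Prod.fst
      (st.nd.inj2 ((hN m).1 h) ((hN m').1 h') (congrArg Subtype.val e)))) e⟩
  have sm : ∀ y : S, Sm N'' y ↔ Sm N' y := fun y => ⟨fun h m a =>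
    let ⟨m', b, c, d⟩ := lift m a
    ⟨fun e => (h m' b).1 (vi (c.trans e)), fun e => (h m' b).2 (vi (d.trans e))⟩,
    fun h m a => ⟨fun e => (h _ ((hN m).1 a)).1 (congrArg Subtype.val e),
      fun e => (h _ ((hN m).1 a)).2 (congrArg Subtype.val e)⟩⟩
  have sm' : ∀ k, Sm N'' (p'' k) := fun k => (sm _).2 (st.sm k)
  have inj : Injective p'' := fun k k' e => st.inj (congrArg Subtype.val e)
  have mk : ∀ y : S, y ∈ Finset.univ.image p'' ↔ (y : Y) ∈ Finset.univ.image p' := fun y => by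
    simp only [Finset.mem_image, Finset.mem_univ, true_and, hp'', Subtype.ext_iff]
  have smP : ∀ p ∈ Finset.univ.image p'', Sm N'' p := fun p h => by
    obtain ⟨k, -, rfl⟩ := Finset.mem_image.1 h
    exact sm' k
  set ω := omega Q' N'' (Finset.univ.image p'') with hω
  have hu : (fun y : S => u y) ∈ (ω / hl.pb W).Γ := by
    obtain ⟨v, v1, -, v2, v3⟩ := hl.exists_omega vi nd st.nd smP
      (P' := Finset.univ.image p') (fun p h => by
        obtain ⟨k, -, rfl⟩ := Finset.mem_image.1 h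
        exact st.sm k) (fun x y h => h.imp (hN _).1 (hN _).1) fun y => by rw [sm, mk]
    obtain rfl : v = 1 := funext fun y => by
      by_cases h : Sm N'' y ∧ y ∉ Finset.univ.image p''
      · exact (v2 y h).trans (hd y)
      · have e : (∃ m ∈ N'', m.2 = y) ↔ ∃ m ∈ N', m.2 = y :=
          ⟨fun ⟨m, a, e⟩ => ⟨_, (hN m).1 a, congrArg Subtype.val e⟩, fun ⟨m, a, e⟩ =>
            let ⟨m', b, _, d⟩ := lift m a; ⟨m', b, vi (d.trans e)⟩⟩
        rw [v3 y h, show Xi.sg N'' y = Xi.sg N' y by simp only [Xi.sg, e]]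
        exact Xi.sg_sq _
    have := LB.mul_mem v1.1 (L' := hl.pb (omega Q N' (Finset.univ.image p') / W))
      (s' := fun y : S => u y) fun y => hl.sec_pb.2 (st.usec y y.2)
    rwa [one_mul, map_div, div_mul_div_cancel] at this
  have hmu : ∀ (a : ℤ) χ, (fun y : S => mu u γ a χ y) ∈
      (ω ^ a * bz A' χ / hl.pb (W ^ a * bz A₁ χ)).Γ := fun a χ => by
    have := LB.mul_mem (LB.zpow_mem hu (fun y => st.une y) a) (LB.prod_mem (T := Finset.univ)
      fun r _ => LB.zpow_mem (hl.pb_mem (LB.cst_mem (st.γne · r))) (fun y => st.γne y r) (χ r))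
    convert this using 2
    · simp only [bz, hA', map_mul, map_zpow, map_prod, mul_zpow, div_zpow, Finset.prod_mul_distrib,
        mul_div_mul_comm, mul_div_cancel_left]
    · simp [mu]
  have mne : ∀ (a : ℤ) χ y, mu u γ a χ y ≠ 0 := fun a χ y => mu_ne (st.une y) (st.γne y) a χ
  have hΦ : ∀ (a : ℤ) χ, ∀ f ∈ H0 N₁ (W ^ a * bz A₁ χ),
      (fun y : S => f y * mu u γ a χ y) ∈ H0 N'' (ω ^ a * bz A' χ) := fun a χ f hf => by
    refine ⟨?_, fun m h => st.node a χ f hf _ ((hN m).1 h)⟩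
    have := LB.mul_mem (hl.pb_mem hf.1) (hmu a χ)
    rwa [mul_div_cancel] at this
  have dpb : ∀ L : LB Q, degOn L Sᶜ = 0 → deg (hl.pb L) = deg L := fun L h => by
    rw [← degOn_univ, hl.degOn_pb vi isClopen_univ, image_univ, Subtype.range_val,
      ← degOn_add_compl st.clopen, h, add_zero]
  have smM : ∀ {y}, Sm N₁ y → Sm D.M y := fun h m a => h m ((ho.mem m).2 (Or.inr a))
  set T : Set Y := {y | ¬Sm N₁ y} ∪ range p₀ ∪ ({y | ¬Sm N' y} ∪ range p') ∪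
    {y | u y ≠ 1 ∨ γ y ≠ 1} with hT
  have Tf : T.Finite := (((fin_sm _).union (finite_range _)).union
    ((fin_sm _).union (finite_range _))).union st.fin
  have Tm : ∀ y ∉ T, (Sm N₁ y ∧ ∀ k, p₀ k ≠ y) ∧ (Sm N' y ∧ y ∉ Finset.univ.image p') ∧
      u y = 1 ∧ γ y = 1 := fun y h => by
    simpa [hT, not_or, and_assoc] using h
  refine ⟨Q', N'', p'', A', ⟨{y | (y : Y) ∉ T}, ?_, fun y => D.E y,
    fun y n v i => (R n).d (D.E y n) v ^ a i * ∏ r, (b r).ε y n v ^ c i r, fun y hy => ?_⟩,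
    nd, sm', inj, fun _ => rfl, ?_, ?_, fun χ f hf => ?_, fun _ => rfl, fun _ _ _ _ => rfl,
    fun y hy => ⟨(Tm y hy).2.2.2, (Tm y hy).1⟩, fun i s hs => ?_⟩
  · exact (Tf.preimage vi.injOn).subset fun y h => not_not.1 h
  · obtain ⟨r₀, h0, ht⟩ := D.tgt y
    obtain ⟨r, ⟨h1, h2⟩, h3, h4⟩ := (((small' (bw.fr y)).and
      (eventually_all.2 fun r => small' ((b r).fr y))).and
      (((gt_mem_nhds h0).filter_mono nhdsWithin_le_nhds).and self_mem_nhdsWithin)).exists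
    have h5 : 0 < r := h4
    refine ⟨r, h5, ?_⟩
    filter_upwards [D.cmp y, ht, h1, eventually_all.2 h2] with n a1 a2 a3 a4
    rw [D.sm y (smM (Tm y hy).1.1), ann_zero] at a2
    have a5 := (ball_subset_ball (le_of_lt h3)).trans a2
    refine ⟨a1, a5, fun t h i => ?_⟩
    have a6 : (D.E y n).symm t ∈ D.rg y n (2 * r) := ⟨(D.E y n).map_target (a5 h), by
      rw [mem_preimage, (D.E y n).right_inv (a5 h), D.sm y (smM (Tm y hy).1.1), ann_zero]
      exact ball_subset_ball (by linarith) h⟩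
    have a7 := a3 _ a6
    rw [hε y y.2 (Tm y hy).1.1 (Tm y hy).1.2] at a7
    refine ⟨?_, mul_ne_zero (zpow_ne_zero _ a7.2)
      (Finset.prod_ne_zero_iff.2 fun r _ => zpow_ne_zero _ (a4 r _ a6).2)⟩
    exact ((a7.1.zpow a7.2 (a i)).mul (LB.Sec.prod (T := Finset.univ) fun r _ =>
      (a4 r _ a6).1.zpow (a4 r _ a6).2 (c i r))).congr (.of_forall fun w => by simp)
  · have e : deg ω = deg W := by
      have := deg_of_ne hu fun y => st.une y
      rw [deg_div, dpb W (st.degW _ st.clopen.compl disjoint_compl_left)] at this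
      exact sub_eq_zero.1 this
    filter_upwards [bw.deg_eq, ho.ev, eventually_all.2 fun r => (b r).deg_eq] with n a1 a2 a3
    refine ⟨?_, fun r => ?_⟩
    · rw [← e, deg_omega, deg_omega, Finset.card_image_of_injective _ a2.2.2,
        Finset.card_image_of_injective _ inj] at a1
      omega
    · rw [a3 r, dpb _ (by
        rw [degOn_mul, degOn_cst, st.degL _ st.clopen.compl disjoint_compl_left, add_zero]),
        deg_mul, deg_cst, add_zero]
  · refine Ge.iso (L := hl.pb (W * bz A₁ θ)) (fun C h1 h2 => ?_) (by simpa using hmu 1 θ)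
      fun y => mne 1 θ y
    rw [hl.degOn_pb vi h1]
    exact pos _ (hl.isClopen_image h1) (Subtype.coe_image_subset _ _) (h2.image _)
  · simpa [mu] using hΦ 0 χ f (by simpa using hf)
  · obtain ⟨b1, e1⟩ := bw.exists_zpow (a i)
    obtain ⟨b2, e2⟩ := exists_bz b (c i)
    obtain ⟨bb, e3⟩ := b1.exists_mul b2
    simp only [e1, e2] at e3
    have pr : bb.Pr N₀ := fun m h => by
      have := ((hw m h).zpow₀ (a i) (Or.inl one_ne_zero)).mul
        (tendsto_finsetProd Finset.univ fun r _ => (hb r m h).zpow₀ (c i r) (Or.inl one_ne_zero))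
      simpa only [one_zpow, Finset.prod_const_one, mul_one, e3, div_zpow, Finset.prod_div_distrib,
        mul_div_mul_comm] using this
    obtain ⟨l, σ, s1, s2, s3⟩ := bb.exists_norm (hs.mono fun n h => ⟨h.1.1, h.2⟩)
    have s4 := s3.mem s1 ho pr (hs.mono fun n h => Submodule.smul_mem _ _ h.1)
    refine ⟨l, _, hΦ _ _ σ s4, fun e => s2 (st.zero _ _ σ s4 fun y hy =>
      (mul_eq_zero.1 (congrFun e ⟨y, hy⟩)).resolve_right (mne _ _ _)), fun y hy => ?_, fun k => ?_⟩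
    · obtain ⟨y1, y2, y3, y4⟩ := Tm y hy
      have e : ∀ᶠ t in 𝓝 (0 : ℂ), (W ^ a i * bz A₁ (c i)).loc σ y t =
          (ω ^ a i * bz A' (c i)).loc (fun y : S => σ y * mu u γ (a i) (c i) y) y t := by
        rw [← nhdsNE_sup_pure, eventually_sup, eventually_pure, LB.loc_zero, LB.loc_zero,
          mu_one y3 y4, mul_one]
        refine ⟨?_, rfl⟩
        filter_upwards [Q.ev_ne_iff.1 ((ev_not_mem Tf y).and ((bw.cv y).and (D.tendsto_d y))),
          Xi.omega_φ nd smP y, mem_nhdsWithin_of_mem_nhds ((hi y).and (Q.tgt_nhds y))]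
          with t ⟨a1, a2, a3⟩ a4 ⟨a5, a6⟩
        obtain ⟨z1, -, z3, z4⟩ := Tm _ a1
        obtain ⟨p, hp⟩ := D.exists_to (Q.i y t)
        have b1 := a2 p hp
        simp only [hε y y.2 y1.1 y1.2, hε _ (a5 ▸ (Q'.i y t).2) z1.1 z1.2] at b1
        rw [Xi.lg, if_pos ⟨(sm y).2 y2.1, fun h => y2.2 ((mk y).1 h)⟩, mul_one,
          show (Q'.e y : S → ℂ) = fun v : S => Q.e y v from funext (he y),
          hl.d_comp (RS.hol_e (a5 ▸ Q.i_mem a6)), hd, one_mul, a5,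
          ← tendsto_nhds_unique b1 (a3 p hp)] at a4
        simp only [LB.loc, a5, mu_one z3 z4, mul_one, LB.mul_φ, LB.zpow_φ, bz, LB.prod_φ, hA',
          LIso.pb_φ, LB.cst, z4, y4, Pi.one_apply, div_one, hω, a4]
      filter_upwards [s3.loc (smM y1.1), e] with t a1 a2 t' ht
      have := a1 t' ht
      simp only [a2, e3, hε y y.2 y1.1 y1.2] at this
      exact this
    · rw [show σ (p'' k) * mu u γ (a i) (c i) (p'' k) = σ (p₀ k) from st.mark _ _ σ s4 k]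
      refine (s3 _ _ (Dg.to_c (ho.sm_mark k))).congr' ?_
      filter_upwards [ho.mark, hm k] with n a1 a2
      rw [← a1 k, e3, a2, one_zpow, one_mul]
      rfl

end Vale.Agent.P269.Cpt
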