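import Vale.Agent.P269.Cpt.Defs
import Vale.Agent.P269.Cv.Rat

/-!
# Removing rational tails

Components on which the polarised twisted dualising bundle has negative degree are rational tails;
they are removed one at a time, twisting the bundle at the node.
-/

set_option linter.unusedSectionVars false

namespace Vale.Agent.P269.Cpt

open Set Function Topology Filter Metric Module Vale.Agent.P269.Cv

variable {Y : Type} [TopologicalSpace Y] [T2Space Y] [CompactSpace Y] {Q : RS Y} {L L' : LB Q}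
  {ν : Type} [Fintype ν] {N₁ : Finset (Y × Y)} {p₀ : ν → Y}

namespace TailP

open Classical

theorem degOn_congr {C : Set Y} (h : ∀ z ∈ C, L.φ z = L'.φ z) : degOn L C = degOn L' C := by
  by_cases hC : IsClopen C
  · rw [degOn_eq hC, degOn_eq hC]
    refine congrArg deg (LB.ext (funext₂ fun x y => ?_))
    by_cases a : x ∈ C
    · rw [LB.res_φ hC a, LB.res_φ hC a, h x a]
    · rw [LB.res_φ' hC a, LB.res_φ' hC a]
  · simp [degOn, hC]

theorem nonneg_of_comp {C : Set Y} (hC : IsClopen C)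
    (h : ∀ z ∈ C, 0 ≤ degOn L (connectedComponent z)) : 0 ≤ degOn L C := by
  have k : Ge (L.res hC) 0 := (ge_iff_comp le_rfl).2 fun z => by
    by_cases a : z ∈ C
    · exact (h z a).trans_eq (degOn_congr fun w hw => funext fun _ =>
        (LB.res_φ hC (hC.connectedComponent_subset a hw)).symm)
    · refine (degOn_of_ne (L := 1) (fun x _ => LB.one_mem x) fun _ _ => one_ne_zero).ge.trans_eq
        (degOn_congr fun w hw => funext fun _ => (LB.res_φ' hC fun b => a ?_).symm)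
      exact hC.connectedComponent_subset b (connectedComponent_eq hw ▸ mem_connectedComponent)
  exact (k.nonneg C).trans_eq (degOn_congr fun w hw => funext fun _ => LB.res_φ hC hw)

theorem ext_zero {S : Set Y} {y : Y} (h0 : degOn L (connectedComponent y) = 0)
    (h : ∀ C, IsClopen C → Disjoint C S → degOn L C = 0) (C : Set Y) (hC : IsClopen C)
    (d : Disjoint C (S \ connectedComponent y)) : degOn L C = 0 := by
  have hT := (exists_comp (R := Q) y).1
  rw [← degOn_inter_add_diff hC hT, h _ (hC.diff hT) (disjoint_left.2 fun z a b =>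
    disjoint_left.1 d a.1 ⟨b, a.2⟩), add_zero]
  by_cases a : y ∈ C
  · rwa [inter_eq_right.2 (hC.connectedComponent_subset a)]
  · rw [eq_empty_of_forall_notMem fun z (b : z ∈ C ∩ connectedComponent y) => a
      (hC.connectedComponent_subset b.1 (connectedComponent_eq b.2 ▸ mem_connectedComponent)),
      degOn_empty]

/-- the nodes with both branches in `S` -/
noncomputable def ns (N : Finset (Y × Y)) (S : Set Y) : Finset (Y × Y) :=
  N.filter fun m => m.1 ∈ S ∧ m.2 ∈ S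

theorem mem_ns {S : Set Y} {m : Y × Y} : m ∈ ns N₁ S ↔ m ∈ N₁ ∧ m.1 ∈ S ∧ m.2 ∈ S :=
  Finset.mem_filter

/-- the sign in the definition of the dualising bundle -/
noncomputable def sg (N : Finset (Y × Y)) (x : Y) : ℂ := if ∃ n ∈ N, n.2 = x then -1 else 1

theorem sg_ne (N : Finset (Y × Y)) (x : Y) : sg N x ≠ 0 := by
  unfold sg
  split_ifs <;> simp

variable (Q) in
/-- the dualising bundle of `N'` with the signs of `N` -/
noncomputable def om (N N' : Finset (Y × Y)) (p : ν → Y) : LB Q :=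
  Q.K * (∏ n ∈ N', Q.pt n.1 * Q.pt n.2) * (∏ p ∈ Finset.univ.image p, Q.pt p) *
    LB.cst Q (sg N) (sg_ne N)

theorem omega_eq_om (N : Finset (Y × Y)) : omega Q N (Finset.univ.image p₀) = om Q N N p₀ := rfl

variable {ρ : Type} [Fintype ρ] {A : ρ → LB Q} {θ : ρ → ℤ} {M : Finset (Y × Y)}
  {G : Set Y → LB Q → Prop} {S : Set Y} {W : LB Q}

variable (N₁ p₀ A G S W) in
/-- the invariants of the induction -/
structure Iv : Prop where
  g : G S W
  clopen : IsClopen S
  mem : ∀ a, p₀ a ∈ S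
  fr : ∀ z ∈ S, W.φ z = (om Q N₁ (ns N₁ S) p₀).φ z
  zero : ∀ B : LB Q, (∀ C, IsClopen C → Disjoint C S → degOn B C = 0) →
    ∀ s ∈ H0 N₁ B, (∀ y ∈ S, s y = 0) → s = 0
  degW : ∀ C, IsClopen C → Disjoint C S → degOn W C = 0
  degL : ∀ i C, IsClopen C → Disjoint C S → degOn (A i) C = 0
  ext : ∀ V, IsClopen V → V ⊆ S → ∃ C, IsClopen C ∧ (∀ z ∈ S, z ∈ C ↔ z ∈ V) ∧
    ∀ m ∈ N₁, m ∉ ns N₁ S → (m.1 ∈ C ↔ m.2 ∈ C)
  deg : ∀ C, IsClopen C → (∀ m ∈ N₁, m ∉ ns N₁ S → (m.1 ∈ C ↔ m.2 ∈ C)) →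
    degOn W C = degOn (om Q N₁ N₁ p₀) C

theorem iv_univ (g0 : G univ (om Q N₁ N₁ p₀)) : Iv N₁ p₀ A G univ (om Q N₁ N₁ p₀) where
  g := g0
  clopen := isClopen_univ
  mem _ := mem_univ _
  fr z _ := by rw [show ns N₁ univ = N₁ from Finset.ext fun _ => by simp [mem_ns]]
  zero _ _ s _ h := funext fun y => h y (mem_univ y)
  degW C _ h := by rw [disjoint_univ.1 h, degOn_empty]
  degL i C _ h := by rw [disjoint_univ.1 h, degOn_empty]
  ext V hV _ := ⟨V, hV, fun _ _ => Iff.rfl, fun m a b => (b (mem_ns.2 ⟨a, trivial, trivial⟩)).elim⟩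
  deg _ _ _ := rfl

theorem Iv.degB (h : Iv N₁ p₀ A G S W) (a : ℤ) (χ : ρ → ℤ) (C : Set Y) (hC : IsClopen C)
    (d : Disjoint C S) : degOn (W ^ a * bz A χ) C = 0 := by
  simp [degOn_mul, degOn_zpow, degOn_bz, h.degW C hC d, h.degL _ C hC d]

theorem Iv.pos (h : Iv N₁ p₀ A G S W)
    (pos : ∀ C, IsClopen C → C.Nonempty → (∀ m ∈ M, m.1 ∈ C ↔ m.2 ∈ C) →
      1 ≤ degOn (om Q N₁ N₁ p₀ * bz A θ) C) {V C : Set Y} (hV : V ⊆ S) (ne : V.Nonempty)
    (hC : IsClopen C) (c1 : ∀ z ∈ S, z ∈ C ↔ z ∈ V)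
    (c2 : ∀ m ∈ N₁, m ∉ ns N₁ S → (m.1 ∈ C ↔ m.2 ∈ C)) (c3 : ∀ m ∈ M, m.1 ∈ C ↔ m.2 ∈ C) :
    1 ≤ degOn (W * bz A θ) V := by
  have e : C ∩ S = V := Set.ext fun z =>
    ⟨fun a => (c1 z a.2).1 a.1, fun a => ⟨(c1 z (hV a)).2 a, hV a⟩⟩
  have a := pos C hC (ne.mono (e ▸ inter_subset_left)) c3
  have b := h.degB 1 θ _ (hC.diff h.clopen) disjoint_sdiff_left
  rw [degOn_mul, ← h.deg C hC c2, ← degOn_mul, ← degOn_inter_add_diff hC h.clopen, e] at a
  rw [zpow_one] at b
  omega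

theorem Iv.pos' (h : Iv N₁ p₀ A G S W) (hM : M ⊆ N₁)
    (pos : ∀ C, IsClopen C → C.Nonempty → (∀ m ∈ M, m.1 ∈ C ↔ m.2 ∈ C) →
      1 ≤ degOn (om Q N₁ N₁ p₀ * bz A θ) C) (V : Set Y) (cV : IsClopen V) (hV : V ⊆ S)
    (ne : V.Nonempty) (sat : ∀ m ∈ ns N₁ S, m.1 ∈ V ↔ m.2 ∈ V) : 1 ≤ degOn (W * bz A θ) V := by
  obtain ⟨C, a, b, c⟩ := h.ext V cV hV
  refine h.pos pos hV ne a b c fun m hm => ?_
  by_cases d : m ∈ ns N₁ S
  · rw [b _ (mem_ns.1 d).2.1, b _ (mem_ns.1 d).2.2, sat m d]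
  · exact c m (hM hm) d

theorem Iv.st (h : Iv N₁ p₀ A G S W) (hN : Nd N₁) (hM : M ⊆ N₁) (sm : ∀ a, Sm N₁ (p₀ a))
    (inj : Injective p₀)
    (pos : ∀ C, IsClopen C → C.Nonempty → (∀ m ∈ M, m.1 ∈ C ↔ m.2 ∈ C) →
      1 ≤ degOn (om Q N₁ N₁ p₀ * bz A θ) C) :
    St N₁ p₀ A θ W S (ns N₁ S) p₀ (fun y => sg (ns N₁ S) y / sg N₁ y) 1 := by
  have sub : ns N₁ S ⊆ N₁ := Finset.filter_subset _ _
  have one : ∀ y, (∀ n ∈ N₁, n.2 = y → n ∈ ns N₁ S) → sg (ns N₁ S) y / sg N₁ y = 1 := fun y a => by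
    rw [div_eq_one_iff_eq (sg_ne _ _), sg, sg]
    exact if_congr ⟨fun ⟨n, b, c⟩ => ⟨n, sub b, c⟩, fun ⟨n, b, c⟩ => ⟨n, a n b c, c⟩⟩ rfl rfl
  refine ⟨h.clopen, hN.mono sub, fun m a => (mem_ns.1 a).2, h.mem, fun a n b => sm a n (sub b), inj,
    (N₁.finite_toSet.image Prod.snd).subset fun y a => by_contra fun b => ?_,
    fun y => div_ne_zero (sg_ne _ _) (sg_ne _ _), fun _ _ => one_ne_zero, fun y hy => ?_,
    fun a χ s hs m hm => ?_, fun a χ s hs k => ?_, fun a χ => h.zero _ (h.degB a χ), h.degW,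
    fun C a b i => h.degL i C a b, h.pos' hM pos⟩
  · exact a.elim (fun c => c (one y fun n d e => (b ⟨n, d, e⟩).elim)) fun c => c rfl
  · have := (LB.cst_mem (R := Q) (sg_ne (ns N₁ S)) y).div (LB.cst_mem (R := Q) (sg_ne N₁) y)
      (sg_ne _ _)
    rw [LB.sec_iff] at this ⊢
    refine this.congr (.of_forall fun z => ?_)
    simp only [omega_eq_om, LB.div_φ, h.fr y hy, om, LB.mul_φ, Pi.div_apply]
    rw [mul_div_mul_left _ _ (mul_ne_zero (mul_ne_zero (LB.ne _ _ _) (LB.ne _ _ _)) (LB.ne _ _ _))]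
  · simp only [mu, Pi.one_apply, one_zpow, Finset.prod_const_one, mul_one]
    rw [one m.1 fun n b c => (hN.ne m (sub hm) n b c.symm).elim,
      one m.2 fun n b c => hN.inj2 b (sub hm) c ▸ hm, hs.2 m (sub hm)]
  · simp only [mu, Pi.one_apply, one_zpow, Finset.prod_const_one, mul_one]
    rw [one _ fun n b c => ((sm k n b).2 c).elim, one_zpow, mul_one]

/-- removing a tail -/
theorem Iv.step (h : Iv N₁ p₀ A G S W) {x y : Y} {n : Y × Y} (hn : n ∈ ns N₁ S)
    (e : n = (x, y) ∨ n = (y, x)) (hx : x ∉ connectedComponent y)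
    (un : ∀ m ∈ ns N₁ S, m ≠ n → m.1 ∉ connectedComponent y ∧ m.2 ∉ connectedComponent y)
    (hp : ∀ a, p₀ a ∉ connectedComponent y) (dW : degOn W (connectedComponent y) = -1)
    (dL : ∀ i, degOn (A i) (connectedComponent y) = 0)
    (g : G (S \ connectedComponent y) (W * (Q.pt y / Q.pt x))) :
    Iv N₁ p₀ A G (S \ connectedComponent y) (W * (Q.pt y / Q.pt x)) ∧
      ns N₁ (S \ connectedComponent y) = (ns N₁ S).erase n := by
  have hT := (exists_comp (R := Q) y).1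
  have hy : y ∈ connectedComponent y := mem_connectedComponent
  obtain ⟨xS, yS⟩ : x ∈ S ∧ y ∈ S := by
    rcases e with rfl | rfl
    exacts [(mem_ns.1 hn).2, (mem_ns.1 hn).2.symm]
  have TS := h.clopen.connectedComponent_subset yS
  have er : ns N₁ (S \ connectedComponent y) = (ns N₁ S).erase n := Finset.ext fun m => by
    rw [Finset.mem_erase, mem_ns]
    refine ⟨fun a => ⟨fun b => ?_, mem_ns.2 ⟨a.1, a.2.1.1, a.2.2.1⟩⟩, fun a =>
      ⟨(mem_ns.1 a.2).1, ⟨(mem_ns.1 a.2).2.1, (un m a.2 a.1).1⟩,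
        (mem_ns.1 a.2).2.2, (un m a.2 a.1).2⟩⟩
    subst b
    rcases e with rfl | rfl
    exacts [a.2.2.2 hy, a.2.1.2 hy]
  have dp : ∀ C, IsClopen C → degOn (W * (Q.pt y / Q.pt x)) C =
      degOn W C + ((if y ∈ C then 1 else 0) - if x ∈ C then 1 else 0) := fun C a => by
    rw [degOn_mul, degOn_div, degOn_pt a, degOn_pt a]
  refine ⟨⟨g, h.clopen.diff hT, fun a => ⟨h.mem a, hp a⟩, fun z hz => funext fun t => ?_,
    fun B hB s hs h0 => ?_, ext_zero ?_ fun C a b => ?_, fun i => ext_zero (dL i) (h.degL i),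
    fun V a b => ?_, fun C a b => ?_⟩, er⟩
  · have e' : Q.pt n.1 * Q.pt n.2 = Q.pt x * Q.pt y := by
      rcases e with rfl | rfl
      exacts [rfl, mul_comm _ _]
    have zy : z ≠ y := fun a => hz.2 (a ▸ hy)
    rw [er, LB.mul_φ, h.fr z hz.1, om, om, ← Finset.mul_prod_erase _ _ hn, e']
    simp only [LB.mul_φ, LB.div_φ, Q.pt_φ_ne zy]
    field_simp [LB.ne]
  · refine h.zero B (fun C a b => hB C a (b.mono_right sdiff_subset)) s hs fun z hz => ?_
    by_cases a : z ∈ connectedComponent y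
    · refine eq_zero_of_gen hs.1 fun b => ?_
      have sy : s y = 0 := by
        have := hs.2 n (mem_ns.1 hn).1
        have := h0 x ⟨xS, hx⟩
        rcases e with rfl | rfl <;> simp_all
      have := card_le_degOn hT (fun x _ => hs.1 x) (connectedComponent_eq a ▸
        (isClopen_gen hs.1).connectedComponent_subset b) (T := {y}) (by simpa using ⟨hy, sy⟩)
      rw [hB _ hT disjoint_sdiff_right] at this
      simp at this
    · exact h0 z ⟨hz, a⟩
  · rw [dp _ hT, dW, if_pos hy, if_neg hx]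
    rfl
  · rw [dp C a, h.degW C a b, if_neg (disjoint_right.1 b yS), if_neg (disjoint_right.1 b xS)]
    rfl
  · obtain ⟨C, c1, c2, c3⟩ := h.ext (if x ∈ V then V ∪ connectedComponent y else V)
      (by split_ifs; exacts [a.union hT, a])
      (by split_ifs; exacts [union_subset (b.trans sdiff_subset) TS, b.trans sdiff_subset])
    refine ⟨C, c1, fun z hz => ?_, fun m c d => ?_⟩
    · rw [c2 z hz.1]
      split_ifs
      exacts [or_iff_left hz.2, Iff.rfl]
    · by_cases f : m ∈ ns N₁ S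
      · have : x ∈ C ↔ y ∈ C := by
          rw [c2 x xS, c2 y yS]
          split_ifs with k
          exacts [iff_of_true (.inl k) (.inr hy), iff_of_false k fun l => (b l).2 hy]
        rw [er, Finset.mem_erase, not_and', not_not] at d
        obtain rfl := d f
        rcases e with rfl | rfl
        exacts [this, this.symm]
      · exact c3 m c f
  · rw [er] at b
    have : x ∈ C ↔ y ∈ C := by
      have := b n (mem_ns.1 hn).1 (Finset.notMem_erase _ _)
      rcases e with rfl | rfl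
      exacts [this, this.symm]
    rw [dp C a, h.deg C a fun m c d => b m c fun f => d (Finset.mem_of_mem_erase f)]
    simp [this]

theorem Iv.degOn_eq (h : Iv N₁ p₀ A G S W) {T : Set Y} (hT : IsClopen T) (TS : T ⊆ S) :
    degOn W T = degOn Q.K T +
      ∑ n ∈ ns N₁ S, ((if n.1 ∈ T then 1 else 0) + if n.2 ∈ T then 1 else 0) +
        ∑ p ∈ Finset.univ.image p₀, if p ∈ T then 1 else 0 := by
  rw [degOn_congr fun z hz => h.fr z (TS hz)]
  simp only [om, degOn_mul, degOn_prod, degOn_cst, add_zero, degOn_pt hT]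

/-- a component of negative degree is a tail -/
theorem Iv.exists_step (h : Iv N₁ p₀ A G S W) (hM : M ⊆ N₁) (amp : Amp A θ)
    (pos : ∀ C, IsClopen C → C.Nonempty → (∀ m ∈ M, m.1 ∈ C ↔ m.2 ∈ C) →
      1 ≤ degOn (om Q N₁ N₁ p₀ * bz A θ) C)
    (g1 : ∀ S W x y C, G S W → ((x, y) ∈ M ∨ (y, x) ∈ M) → IsClopen C → y ∈ C → x ∉ C →
      (∀ m ∈ N₁, m ≠ (x, y) → m ≠ (y, x) → (m.1 ∈ C ↔ m.2 ∈ C)) →
        G (S \ C) (W * (Q.pt y / Q.pt x))) {z : Y} (hz : z ∈ S)
    (neg : degOn (W * bz A θ) (connectedComponent z) < 0) :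
    ∃ S' W', Iv N₁ p₀ A G S' W' ∧ (ns N₁ S').card < (ns N₁ S).card := by
  have hT := (exists_comp (R := Q) z).1
  have TS := h.clopen.connectedComponent_subset hz
  have ne : (connectedComponent z).Nonempty := ⟨z, mem_connectedComponent⟩
  obtain ⟨n, hn, sat⟩ : ∃ n ∈ ns N₁ S, ¬(n.1 ∈ connectedComponent z ↔ n.2 ∈ connectedComponent z) := by
    by_contra! a
    have := h.pos' hM pos _ hT TS ne a
    omega
  obtain ⟨x, y, e, hx, hy⟩ : ∃ x y, (n = (x, y) ∨ n = (y, x)) ∧ x ∉ connectedComponent z ∧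
      y ∈ connectedComponent z := by
    by_cases a : n.1 ∈ connectedComponent z
    · exact ⟨n.2, n.1, .inr rfl, fun b => sat (iff_of_true a b), a⟩
    · exact ⟨n.1, n.2, .inl rfl, a, by_contra fun b => sat (iff_of_false a b)⟩
  rw [connectedComponent_eq hy] at neg hT TS ne hx hy
  have d := h.degOn_eq hT TS
  have k := (degOn_K_ge (R := Q) hT isConnected_connectedComponent).1
  have nn : ∀ (c : Prop) [Decidable c], (0 : ℤ) ≤ if c then 1 else 0 := fun c _ => by
    split_ifs <;> simp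
  have s1 := Finset.sum_nonneg (s := (ns N₁ S).erase n) fun m _ => add_nonneg
    (nn (m.1 ∈ connectedComponent y)) (nn (m.2 ∈ connectedComponent y))
  have s2 := Finset.sum_nonneg (s := Finset.univ.image p₀) fun p _ => nn (p ∈ connectedComponent y)
  have s3 : ((if n.1 ∈ connectedComponent y then 1 else 0) +
      if n.2 ∈ connectedComponent y then 1 else 0 : ℤ) = 1 := by
    rcases e with rfl | rfl <;> simp [hx, hy]
  rw [← Finset.add_sum_erase _ _ hn, s3] at d
  rw [degOn_mul] at neg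
  have dL := (amp y).resolve_left fun a => by omega
  have dB : degOn (bz A θ) (connectedComponent y) = 0 := by simp [degOn_bz, dL]
  have un : ∀ m ∈ ns N₁ S, m ≠ n → m.1 ∉ connectedComponent y ∧ m.2 ∉ connectedComponent y :=
    fun m a b => by
      have := (Finset.sum_eq_zero_iff_of_nonneg fun m _ => add_nonneg
        (nn (m.1 ∈ connectedComponent y)) (nn (m.2 ∈ connectedComponent y))).1
          (le_antisymm (by omega) s1) m (Finset.mem_erase.2 ⟨b, a⟩)
      split_ifs at this <;> simp_all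
  have hp : ∀ a, p₀ a ∉ connectedComponent y := fun a b => by
    have := (Finset.sum_eq_zero_iff_of_nonneg fun p _ => nn (p ∈ connectedComponent y)).1
      (le_antisymm (by omega) s2) _ (Finset.mem_image_of_mem p₀ (Finset.mem_univ a))
    simp [b] at this
  obtain ⟨C, c1, c2, c3⟩ := h.ext _ hT TS
  have c4 : ∀ m ∈ N₁, m ≠ n → (m.1 ∈ C ↔ m.2 ∈ C) := fun m a b => by
    by_cases f : m ∈ ns N₁ S
    · rw [c2 _ (mem_ns.1 f).2.1, c2 _ (mem_ns.1 f).2.2]
      exact iff_of_false (un m f b).1 (un m f b).2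
    · exact c3 m a f
  have nM : n ∈ M := by_contra fun a => by
    have := h.pos pos TS ne c1 c2 c3 fun m b => c4 m (hM b) fun c => a (c ▸ b)
    rw [degOn_mul] at this
    omega
  have xS : x ∈ S := by
    rcases e with rfl | rfl
    exacts [(mem_ns.1 hn).2.1, (mem_ns.1 hn).2.2]
  have g := g1 S W x y C h.g (e.elim (fun a => .inl (a ▸ nM)) fun a => .inr (a ▸ nM)) c1
    ((c2 y (TS hy)).2 hy) (fun a => hx ((c2 x xS).1 a)) fun m a b c => c4 m a fun f => e.elim (b <| f.trans ·)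
      (c <| f.trans ·)
  rw [show S \ C = S \ connectedComponent y from Set.ext fun w =>
    and_congr_right fun a => not_congr (c2 w a)] at g
  obtain ⟨a, b⟩ := h.step hn e hx un hp (by omega) dL g
  exact ⟨_, _, a, b ▸ Finset.card_erase_lt_of_mem hn⟩

end TailP

open Classical in
theorem exists_tail {ρ : Type} [Fintype ρ] {A : ρ → LB Q} {θ : ρ → ℤ} {M : Finset (Y × Y)}
    (hN : Nd N₁) (hM : M ⊆ N₁) (sm : ∀ a, Sm N₁ (p₀ a)) (inj : Injective p₀) (amp : Amp A θ)
    (pos : ∀ C, IsClopen C → C.Nonempty → (∀ m ∈ M, m.1 ∈ C ↔ m.2 ∈ C) →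
      1 ≤ degOn (omega Q N₁ (Finset.univ.image p₀) * bz A θ) C)
    {G : Set Y → LB Q → Prop} (g0 : G univ (omega Q N₁ (Finset.univ.image p₀)))
    (g1 : ∀ S W x y C, G S W → ((x, y) ∈ M ∨ (y, x) ∈ M) → IsClopen C → y ∈ C → x ∉ C →
      (∀ m ∈ N₁, m ≠ (x, y) → m ≠ (y, x) → (m.1 ∈ C ↔ m.2 ∈ C)) →
        G (S \ C) (W * (Q.pt y / Q.pt x))) :
    ∃ S W N' u, G S W ∧ St N₁ p₀ A θ W S N' p₀ u 1 ∧
      ∀ C, IsClopen C → C ⊆ S → 0 ≤ degOn (W * bz A θ) C := by
  have key : ∀ k S W, (TailP.ns N₁ S).card < k → TailP.Iv N₁ p₀ A G S W →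
      ∃ S W, TailP.Iv N₁ p₀ A G S W ∧
        ∀ z ∈ S, 0 ≤ degOn (W * bz A θ) (connectedComponent z) := fun k => by
    induction k with
    | zero => exact fun _ _ a => absurd a (Nat.not_lt_zero _)
    | succ k ih =>
      intro S W a h
      by_cases b : ∀ z ∈ S, 0 ≤ degOn (W * bz A θ) (connectedComponent z)
      · exact ⟨S, W, h, b⟩
      · push Not at b
        obtain ⟨z, hz, b⟩ := b
        obtain ⟨S', W', c, d⟩ := h.exists_step hM amp pos g1 hz b
        exact ih S' W' (by omega) c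
  obtain ⟨S, W, h, b⟩ := key _ _ _ (Nat.lt_succ_self _) (TailP.iv_univ g0)
  exact ⟨S, W, _, _, h.g, h.st hN hM sm inj pos, fun C c d =>
    TailP.nonneg_of_comp c fun z hz => b z (d hz)⟩

end Vale.Agent.P269.Cpt
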