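import Vale.Agent.P269.Cpt.Pen
import Vale.Agent.P269.Cpt.Dom
import Vale.Agent.P269.Cpt.Tail
import Vale.Agent.P269.Cpt.Brid
import Vale.Agent.P269.Cpt.Res
import Vale.Agent.P269.Cpt.Fam
import Vale.Agent.P269.Cv.Emb2

/-!
# Compactness for abstract stable maps
-/

set_option linter.unusedSectionVars false

namespace Vale.Agent.P269.Cpt

open Set Function Topology Filter Metric Module Vale.Agent.P269.Cv

variable {X : ℕ → Type} [∀ n, TopologicalSpace (X n)] [∀ n, T2Space (X n)]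
  [∀ n, CompactSpace (X n)] [∀ n, Nonempty (X n)] {Y : Type} [TopologicalSpace Y] [T2Space Y]
  [CompactSpace Y] {U : Ultrafilter ℕ} {R : ∀ n, RS (X n)} {Q : RS Y} {D : Dg U R Q}
  {ν : Type} [Fintype ν] {N : ∀ n, Finset (X n × X n)}
  {pm : ∀ n, ν → X n} {N₀ N₁ : Finset (Y × Y)} {p₀ : ν → Y}

namespace LimP

theorem encard_biUnion_le {α β : Type} (T : Finset α) (Z : α → Set β) {m : ℕ}
    (h : ∀ a ∈ T, (Z a).encard ≤ m) : (⋃ a ∈ T, Z a).encard ≤ (T.card * m : ℕ) := by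
  classical
  induction T using Finset.induction_on with
  | empty => simp
  | insert a T ha ih =>
    rw [Finset.set_biUnion_insert, Finset.card_insert_of_notMem ha]
    refine (encard_union_le _ _).trans ((add_le_add (h a (Finset.mem_insert_self _ _))
      (ih fun b hb => h b (Finset.mem_insert_of_mem hb))).trans (le_of_eq ?_))
    push_cast
    ring

/-- a uniform bound for the cardinalities of a finite family of sequences of sets -/
theorem exists_bound {α : Type} [Fintype α] {Z : α → ∀ n, Set (X n)}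
    (h : ∀ a, ∃ m : ℕ, ∀ n, (Z a n).encard ≤ m) : ∃ m : ℕ, ∀ n, (⋃ a, Z a n).encard ≤ m := by
  choose m hm using h
  refine ⟨(Finset.univ : Finset α).card * Finset.univ.sup m, fun n => ?_⟩
  have := encard_biUnion_le Finset.univ (fun a => Z a n) (m := Finset.univ.sup m) fun a _ =>
    (hm a n).trans (by exact_mod_cast Finset.le_sup (f := m) (Finset.mem_univ a))
  simpa using this

theorem exists_bound₂ {Z Z' : ∀ n, Set (X n)} (h : ∃ m : ℕ, ∀ n, (Z n).encard ≤ m)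
    (h' : ∃ m : ℕ, ∀ n, (Z' n).encard ≤ m) : ∃ m : ℕ, ∀ n, (Z n ∪ Z' n).encard ≤ m := by
  obtain ⟨m, hm⟩ := h
  obtain ⟨m', hm'⟩ := h'
  exact ⟨m + m', fun n => (encard_union_le _ _).trans (by push_cast; exact add_le_add (hm n) (hm' n))⟩

theorem ls_congr {ι : Type} {A : ∀ n, ι → LB (R n)} {w : Wk U R Q A} {η η' : ℕ → ν → ι → ℂ}
    {A' : ι → LB Q} (h : w.LS N pm η A' N₁ p₀) (hη : ∀ a i, ∀ᶠ n in U, η n a i ≠ 0)
    (e : ∀ a i, Tendsto (fun n => η n a i / η' n a i) U (𝓝 1)) : w.LS N pm η' A' N₁ p₀ := by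
  intro i s hs
  obtain ⟨l, σ, h1, h2, h3, h4⟩ := h i s hs
  refine ⟨l, σ, h1, h2, h3, fun a => ?_⟩
  have := (h4 a).mul (e a i)
  rw [mul_one] at this
  exact this.congr' ((hη a i).mono fun n hn => by field_simp)

theorem pr_mul {B B' : ∀ n, LB (R n)} {L L' : LB Q} {b : BL D B L} {b' : BL D B' L'}
    {B'' : ∀ n, LB (R n)} {L'' : LB Q} {c : BL D B'' L''}
    (h : ∀ y n w, c.ε y n w = b.ε y n w * b'.ε y n w) (h1 : b.Pr N₀) (h2 : b'.Pr N₀) :
    c.Pr N₀ := fun m hm => by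
  have := (h1 m hm).mul (h2 m hm)
  rw [mul_one] at this
  exact this.congr fun n => by rw [h, h, mul_div_mul_comm]

theorem ε_ne {B : ∀ n, LB (R n)} {L : LB Q} (b : BL D B L) {y : Y} (hy : Sm D.M y) :
    ∀ᶠ n in U, b.ε y n (D.c y n) ≠ 0 := by
  obtain ⟨δ, hδ, h⟩ := b.fr y
  filter_upwards [h, Dg.to_c hy δ hδ] with n h1 h2 using (h1 _ h2).2

theorem mon_ta {ρ J : Type} [Fintype ρ] [Fintype J] (w : J → ρ → ℤ) (t : ρ → ℂ) (v : J → ℂ)
    (α : J → ℕ) : ∏ j, ta w t v j ^ α j = (∏ j, (∏ i, t i ^ w j i) ^ α j) * ∏ j, v j ^ α j := by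
  simp only [ta, mul_pow, Finset.prod_mul_distrib]

theorem ev_ne {ρ J : Type} [Fintype ρ] [Fintype J] [DecidableEq ρ] {w : J → ρ → ℤ}
    {K : ℕ → Set (J → ℂ)} {K' : Set (J → ℂ)} {χ : Option ρ → ρ → ℤ}
    {T : Option ρ → Finset (J → ℕ)} (h : Cones U w K K' χ T) :
    ∀ᶠ n in U, ∀ o, ∀ v ∈ K n, ∃ α ∈ T o, ∏ j, v j ^ α j ≠ 0 := by
  refine eventually_all.2 fun o => ?_
  by_contra hc
  have h1 := (Ultrafilter.eventually_not.2 hc).mono fun n hn => by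
    push Not at hn
    exact hn
  obtain ⟨v, hv⟩ := h1.choice
  obtain ⟨t, -, v', h2, h3⟩ := h.cpt v (hv.mono fun _ a => a.1)
  obtain ⟨α, h4, h5⟩ := h.ne o v' h2
  have h6 : Tendsto (fun n => ∏ j, ta w (t n) (v n) j ^ α j) U (𝓝 (∏ j, v' j ^ α j)) :=
    tendsto_finsetProd _ fun j _ => (tendsto_pi_nhds.1 h3 j).pow _
  exact h5 (tendsto_nhds_unique h6 (tendsto_const_nhds.congr' (hv.mono fun n a => by
    simp only [mon_ta, a.2 α h4, mul_zero])))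

/-- the pairs that have to be matched: old nodes and pairs of marked points -/
theorem nd_pairs {κ : Type} [Fintype κ] [DecidableEq Y] (ho : D.Old N pm N₀ p₀ N₁) {e₁ e₂ : κ → ν}
    (he : Injective (Sum.elim e₁ e₂)) :
    Nd (N₀ ∪ Finset.univ.image fun q => (p₀ (e₁ q), p₀ (e₂ q))) := by
  have hs : N₀ ⊆ N₁ := fun m hm => (ho.mem m).2 (.inl hm)
  have h0 := ho.nd.mono hs
  have i1 : Injective e₁ := fun a b e => Sum.inl_injective (he (a₁ := .inl a) (a₂ := .inl b) e)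
  have i2 : Injective e₂ := fun a b e => Sum.inr_injective (he (a₁ := .inr a) (a₂ := .inr b) e)
  have i3 : ∀ a b, e₁ a ≠ e₂ b := fun a b e => Sum.inl_ne_inr (he (a₁ := .inl a) (a₂ := .inr b) e)
  refine ⟨?_, ?_, ?_⟩ <;> simp only [InjOn, Finset.coe_union, Finset.coe_image, Finset.coe_univ,
    image_univ, mem_union, Finset.mem_coe, mem_range, Finset.mem_union, Finset.mem_image,
    Finset.mem_univ, true_and]
  · rintro m (hm | ⟨q, rfl⟩) m' (hm' | ⟨q', rfl⟩)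
    exacts [h0.ne m hm m' hm', (ho.sm _ m (hs hm)).1, (ho.sm _ m' (hs hm')).2.symm,
      fun e => i3 _ _ (ho.inj e)]
  · rintro m (hm | ⟨q, rfl⟩) m' (hm' | ⟨q', rfl⟩) e
    exacts [h0.inj1 hm hm' e, absurd e (ho.sm _ m (hs hm)).1,
      absurd e.symm (ho.sm _ m' (hs hm')).1, by rw [i1 (ho.inj e)]]
  · rintro m (hm | ⟨q, rfl⟩) m' (hm' | ⟨q', rfl⟩) e
    exacts [h0.inj2 hm hm' e, absurd e (ho.sm _ m (hs hm)).2,
      absurd e.symm (ho.sm _ m' (hs hm')).2, by rw [i2 (ho.inj e)]]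

open Classical in
/-- removing tails and bridges -/
theorem exists_st {ρ : Type} [Fintype ρ] (ho : D.Old N pm N₀ p₀ N₁) {A : ∀ n, ρ → LB (R n)}
    {A₁ : ρ → LB Q} (b : ∀ r, BL D (A · r) (A₁ r)) {θ : ρ → ℤ} (amp : Amp A₁ θ)
    (st : ∀ n, Ge (omega (R n) (N n) (Finset.univ.image (pm n)) * bz (A n) θ) 1) :
    ∃ (W : LB Q) (bw : BL D (fun n => omega (R n) (N n) (Finset.univ.image (pm n))) W)
      (S : Set Y) (N' : Finset (Y × Y)) (p' : ν → Y) (u : Y → ℂ) (γ : Y → ρ → ℂ), bw.Pr N₀ ∧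
      St N₁ p₀ A₁ θ W S N' p' u γ ∧
      (∀ y ∈ S, Sm N₁ y → (∀ k, p₀ k ≠ y) → ∀ n, bw.ε y n = (R n).d (D.E y n)) ∧
      (∀ k, ∀ᶠ n in U, bw.ε (p₀ k) n (pm n k) = 1) ∧
      ∀ C, IsClopen C → C ⊆ S → C.Nonempty → 1 ≤ degOn (W * bz A₁ θ) C := by
  obtain ⟨b₀, h1, h2, h3⟩ := exists_omega ho
  obtain ⟨bθ, -⟩ := exists_bz b θ
  obtain ⟨bs, -⟩ := b₀.exists_mul bθ
  have hM : D.M ⊆ N₁ := fun m hm => (ho.mem m).2 (.inr hm)
  have smM : ∀ y, Sm N₁ y → Sm D.M y := fun y hy m hm => hy m (hM hm)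
  obtain ⟨S, W, N', u, ⟨bw, g1, g2⟩, s1, s2⟩ := exists_tail (θ := θ) (A := A₁)
    (G := fun S W => ∃ bw : BL D (fun n => omega (R n) (N n) (Finset.univ.image (pm n))) W,
      bw.Pr N₀ ∧ ∀ y ∈ S, Sm D.M y → bw.ε y = b₀.ε y) ho.nd hM ho.sm ho.inj amp
    (fun C h4 h5 h6 => bs.le_degOn (.of_forall st) h4 h5 h6) ⟨b₀, h1, fun _ _ _ => rfl⟩ (by
      rintro S W x y C ⟨bw, g1, g2⟩ h4 h5 h6 h7 h8
      obtain ⟨bt, t1, t2⟩ := exists_tw h4 h5 h6 h7 fun m hm => h8 m (hM hm)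
      obtain ⟨bm, e1⟩ := bw.exists_mul bt
      obtain ⟨bc, e2⟩ := bm.exists_congr
        (B' := fun n => omega (R n) (N n) (Finset.univ.image (pm n)))
        (.of_forall fun n => (mul_one _).symm)
      have hx : ¬Sm D.M x := fun a => h4.elim (fun m => (a _ m).1 rfl) fun m => (a _ m).2 rfl
      refine ⟨bc, pr_mul (fun y n v => by rw [e2, e1]) g1 (t2 _ fun m hm => ?_), fun z hz a => ?_⟩
      · have := ho.sm_fst hm
        refine ⟨this.1, this.2, h8 m ((ho.mem m).2 (.inl hm)) ?_ ?_⟩ <;> rintro rfl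
        exacts [hx this.1, hx this.2]
      · funext n v
        rw [e2, e1, t1 z hz.2 (fun e => hx (e ▸ a)), mul_one, g2 z hz.1 a])
  obtain ⟨S', hS, N'', p'', u', γ', s3, s4⟩ := s1.exists_stable amp s2
  refine ⟨W, bw, S', N'', p'', u', γ', g1, s3, fun y hy a e n => ?_, fun k => ?_, s4⟩
  · rw [g2 y (hS hy) (smM y a), h2 y a e]
  · rw [g2 _ (s1.mem k) (ho.sm_mark k)]
    exact h3 k

end LimP

open LimP

open Classical in
theorem LimP.exists_lim {ρ J κ : Type} [Fintype ρ] [Fintype J] [DecidableEq ρ] [Fintype κ] {w : J → ρ → ℤ}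
    {K : ℕ → Set (J → ℂ)} {K' : Set (J → ℂ)} {χ : Option ρ → ρ → ℤ}
    {T : Option ρ → Finset (J → ℕ)} (hU : (U : Filter ℕ) ≤ atTop) (h : Cones U w K K' χ T)
    {θ : ρ → ℤ} {A : ∀ n, ρ → LB (R n)} {f : ∀ n, J → X n → ℂ} {g : ℤ}
    {d : ρ → ℤ} (hN : ∀ n, Nd (N n)) (sm : ∀ n k, Sm (N n) (pm n k)) (inj : ∀ n, Injective (pm n))
    (hg : ∀ n, gen (R n) (N n) = g) (hd : ∀ n r, deg (A n r) = d r)
    (st : ∀ n, Ge (omega (R n) (N n) (Finset.univ.image (pm n)) * bz (A n) θ) 1) {k : ℕ}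
    (hk : k ≠ 0) (bpf : ∀ n v,
      ∃ s ∈ ((omega (R n) (N n) (Finset.univ.image (pm n)) * bz (A n) θ) ^ k).Γ, s v ≠ 0)
    (hf : ∀ n j, f n j ∈ H0 (N n) (bz (A n) (w j))) (hv : ∀ n v, (f n · v) ∈ K n)
    {e₁ e₂ : κ → ν} (he : Injective (Sum.elim e₁ e₂))
    (pr : ∀ q, ∃ t : ℕ → ρ → ℂ, (∀ n i, t n i ≠ 0) ∧ ∃ a ∈ K', ∃ b ∈ K',
      Tendsto (fun n => ta w (t n) (f n · (pm n (e₁ q)))) U (𝓝 a) ∧
      Tendsto (fun n => ta w (t n) (f n · (pm n (e₂ q)))) U (𝓝 b)) :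
    ∃ (Y : Type) (_ : TopologicalSpace Y) (_ : T2Space Y) (_ : CompactSpace Y) (Q : RS Y)
      (D : Dg U R Q) (N₀ : Finset (Y × Y)) (p₀ : ν → Y) (N₁ : Finset (Y × Y)) (A₁ : ρ → LB Q)
      (b : ∀ r, BL D (A · r) (A₁ r)) (f₁ : J → Y → ℂ), D.Old N pm N₀ p₀ N₁ ∧
      (∀ r, (b r).Pr (N₀ ∪ Finset.univ.image fun q => (p₀ (e₁ q), p₀ (e₂ q)))) ∧
      (∀ j, f₁ j ∈ H0 N₁ (bz A₁ (w j))) ∧ (∀ y, (f₁ · y) ∈ K') ∧ ∀ j p y, D.To p y →
        Tendsto (fun n => f n j (p n) / ∏ r, (b r).ε y n (p n) ^ w j r) U (𝓝 (f₁ j y)) := by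
  have hω : ∀ n, deg (omega (R n) (N n) (Finset.univ.image (pm n))) =
      2 * g - 2 + Fintype.card ν := fun n => by
    rw [deg_omega, hg, Finset.card_image_of_injective _ (inj n), Finset.card_univ]
  have hχ : ∀ n x, deg (bz (A n) x) = ∑ r, x r * d r := fun n x => by simp only [deg_bz, hd]
  let mon : ∀ n, (J → ℕ) → X n → ℂ := fun n α => ∏ j, f n j ^ α j
  have hmon : ∀ n o, ∀ α ∈ T o, mon n α ∈ (bz (A n) (χ o)).Γ := fun n o α hα =>
    (mon_mem (hf n) (h.wt o α hα)).1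
  have hge : ∀ᶠ n in U, ∀ o, Ge (bz (A n) (χ o)) 0 := (ev_ne h).mono fun n hn o =>
    ge_of_bpf fun v => let ⟨α, h1, h2⟩ := hn o _ (hv n v)
      ⟨_, hmon n o α h1, by simpa [mon, Finset.prod_apply] using h2⟩
  let zs : ∀ n, Option ρ → (X n → ℂ) → Set (X n) := fun n o s =>
    {v | Ge (bz (A n) (χ o)) 0 ∧ v ∈ Gen s ∧ s v = 0}
  have hzs : ∀ n o, ∀ s ∈ (bz (A n) (χ o)).Γ,
      (zs n o s).encard ≤ (∑ r, χ o r * d r).toNat := fun n o s hs => by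
    by_cases e : Ge (bz (A n) (χ o)) 0
    · simpa only [zs, e, true_and, hχ] using encard_zeros_le e hs
    · simp [zs, e]
  have hc : ∀ n, (N n).card ≤ (g - 1 + (2 * g - 2 + Fintype.card ν + ∑ r, θ r * d r)).toNat :=
    fun n => by
      have := card_le (st n) (N n)
      rw [hg, deg_mul, hω, hχ] at this
      omega
  have hc' : ∀ n, (N n : Set (X n × X n)).encard ≤
      (g - 1 + (2 * g - 2 + Fintype.card ν + ∑ r, θ r * d r)).toNat := fun n => by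
    rw [encard_coe_eq_coe_finsetCard]
    exact_mod_cast hc n
  let Z : ∀ n, Set (X n) := fun n =>
    (((⋃ x : Σ o, T o, zs n x.1 (mon n x.2)) ∪
      ⋃ x : Σ o, T o × T o, zs n x.1 (mon n x.2.1 - mon n x.2.2)) ∪
      (Prod.fst '' (N n : Set (X n × X n)) ∪ Prod.snd '' (N n : Set (X n × X n)))) ∪ range (pm n)
  obtain ⟨m, hm⟩ : ∃ m : ℕ, ∀ n, (Z n).encard ≤ m := by
    refine exists_bound₂ (exists_bound₂ (exists_bound₂ (exists_bound fun x => ⟨_, fun n =>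
      hzs n x.1 _ (hmon n _ _ x.2.2)⟩) (exists_bound fun x => ⟨_, fun n =>
      hzs n x.1 _ (sub_mem (hmon n _ _ x.2.1.2) (hmon n _ _ x.2.2.2))⟩))
      (exists_bound₂ ⟨_, fun n => (encard_image_le _ _).trans (hc' n)⟩
        ⟨_, fun n => (encard_image_le _ _).trans (hc' n)⟩)) ⟨Fintype.card ν, fun n => ?_⟩
    rw [← image_univ]
    exact (encard_image_le _ _).trans (by simp)
  obtain ⟨Y, _, _, _, Q, D, hZ⟩ := exists_dg (Z := Z) hU R
    (fun n => (omega (R n) (N n) (Finset.univ.image (pm n)) * bz (A n) θ) ^ k)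
    (fun n => ((st n).pow k).mono (by omega)) bpf
    (m := m + (k * (2 * g - 2 + Fintype.card ν + ∑ r, θ r * d r)).toNat +
      (2 * g - 2 + Fintype.card ν).toNat)
    (fun n => by
      rw [deg_pow, deg_mul, hω, hχ]
      omega)
    (fun n => by
      have := degOn_K_le_omega (R := R n) (N n) (Finset.univ.image (pm n)) univ
      rw [degOn_univ, degOn_univ, hω] at this
      omega)
    fun n => (hm n).trans (by exact_mod_cast (by omega))
  obtain ⟨N₀, p₀, N₁, ho⟩ := hZ.exists_old (N := N) (pm := pm) (.of_forall fun n =>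
    ⟨hN n, hc n, sm n, inj n, fun e he => ⟨.inl (.inr (.inl ⟨e, he, rfl⟩)),
      .inl (.inr (.inr ⟨e, he, rfl⟩))⟩, fun k => .inr ⟨k, rfl⟩⟩)
  obtain ⟨A₁, b, f₁, b1, b2, b3, b4⟩ := Dg.exists_fields h (A := A) (f := f)
    (d := ∑ o, (∑ r, χ o r * d r).toNat) hZ (hge.mono fun n hn => ⟨fun j => (hf n j).1, hv n,
      fun o => by
        have := Finset.single_le_sum (f := fun o => (∑ r, χ o r * d r).toNat)
          (fun _ _ => Nat.zero_le _) (Finset.mem_univ o)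
        rw [hχ]
        omega,
      fun o α hα v h1 h2 => .inl (.inl (.inl (mem_iUnion.2 ⟨⟨o, α, hα⟩, hn o, h1, h2⟩))),
      fun o α hα α' hα' v h1 h2 => .inl (.inl (.inr (mem_iUnion.2
        ⟨⟨o, ⟨α, hα⟩, α', hα'⟩, hn o, h1, sub_eq_zero.2 h2⟩)))⟩) (nd_pairs ho he)
    (fun m hm => (Finset.mem_union.1 hm).elim ho.sm_fst fun e => by
      obtain ⟨q, -, rfl⟩ := Finset.mem_image.1 e
      exact ⟨ho.sm_mark _, ho.sm_mark _⟩)
    (fun m hm => (Finset.mem_union.1 hm).elim (fun e => by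
      obtain ⟨t, h1, v, h2, h3⟩ := h.cpt (fun n => (f n · (D.c m.1 n))) (.of_forall fun n => hv n _)
      refine ⟨t, h1, v, h2, v, h2, h3, h3.congr' (ho.node.mono fun n hn => ?_)⟩
      exact congrArg _ (funext fun j => (hf n j).2 _ ((hn _).2 ⟨m, e, rfl⟩))) fun e => by
      obtain ⟨q, -, rfl⟩ := Finset.mem_image.1 e
      obtain ⟨t, h1, v, h2, v', h3, h4, h5⟩ := pr q
      exact ⟨t, h1, v, h2, v', h3, h4.congr' (ho.mark.mono fun n hn => by rw [hn]),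
        h5.congr' (ho.mark.mono fun n hn => by rw [hn])⟩)
  have b0 : ∀ r, (b r).Pr N₀ := fun r m hm => b1 r m (Finset.mem_union_left _ hm)
  have hf₁ : ∀ j, f₁ j ∈ H0 N₁ (bz A₁ (w j)) := fun j => by
    obtain ⟨bj, e⟩ := exists_bz b (w j)
    refine BL.SL.mem (b := bj) (s := fun n => f n j) (fun p y hp => ?_) (b2 j) ho (fun m hm => ?_)
      (.of_forall fun n => hf n j)
    · simpa only [e] using b4 j p y hp
    · have := tendsto_finsetProd Finset.univ fun r _ => (b0 r m hm).zpow₀ (w j r) (.inl one_ne_zero)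
      simpa only [e, div_zpow, Finset.prod_div_distrib, one_zpow, Finset.prod_const_one] using this
  exact ⟨Y, _, ‹_›, ‹_›, Q, D, N₀, p₀, N₁, A₁, b, f₁, ho, b1, hf₁, b3, b4⟩

open Classical in
theorem lim {ρ J κ ι : Type} [Fintype ρ] [Fintype J] [DecidableEq ρ] [Fintype κ] {w : J → ρ → ℤ}
    {K : ℕ → Set (J → ℂ)} {K' : Set (J → ℂ)} {χ : Option ρ → ρ → ℤ}
    {T : Option ρ → Finset (J → ℕ)} (hU : (U : Filter ℕ) ≤ atTop) (h : Cones U w K K' χ T)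
    {θ : ρ → ℤ} (amp : AmpK w K' θ) {A : ∀ n, ρ → LB (R n)} {f : ∀ n, J → X n → ℂ} {g : ℤ}
    {d : ρ → ℤ} (hN : ∀ n, Nd (N n)) (sm : ∀ n k, Sm (N n) (pm n k)) (inj : ∀ n, Injective (pm n))
    (hg : ∀ n, gen (R n) (N n) = g) (hd : ∀ n r, deg (A n r) = d r)
    (st : ∀ n, Ge (omega (R n) (N n) (Finset.univ.image (pm n)) * bz (A n) θ) 1) {k : ℕ}
    (hk : k ≠ 0) (bpf : ∀ n v,
      ∃ s ∈ ((omega (R n) (N n) (Finset.univ.image (pm n)) * bz (A n) θ) ^ k).Γ, s v ≠ 0)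
    (hf : ∀ n j, f n j ∈ H0 (N n) (bz (A n) (w j))) (hv : ∀ n v, (f n · v) ∈ K n)
    {e₁ e₂ : κ → ν} (he : Injective (Sum.elim e₁ e₂))
    (pr : ∀ q, ∃ t : ℕ → ρ → ℂ, (∀ n i, t n i ≠ 0) ∧ ∃ a ∈ K', ∃ b ∈ K',
      Tendsto (fun n => ta w (t n) (f n · (pm n (e₁ q)))) U (𝓝 a) ∧
      Tendsto (fun n => ta w (t n) (f n · (pm n (e₂ q)))) U (𝓝 b))
    (a : ι → ℤ) (c : ι → ρ → ℤ) :
    ∃ (Y : Type) (_ : TopologicalSpace Y) (_ : T2Space Y) (_ : CompactSpace Y) (Q : RS Y)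
      (N' : Finset (Y × Y)) (p' : ν → Y) (A' : ρ → LB Q) (f' : J → Y → ℂ)
      (wk : Wk U R Q fun n i =>
        omega (R n) (N n) (Finset.univ.image (pm n)) ^ a i * bz (A n) (c i))
      (ε : Y → ∀ n, X n → ρ → ℂ) (η : ℕ → ν → ρ → ℂ),
      Nd N' ∧ (∀ k, Sm N' (p' k)) ∧ Injective p' ∧ gen Q N' = g ∧ (∀ r, deg (A' r) = d r) ∧
      Ge (omega Q N' (Finset.univ.image p') * bz A' θ) 1 ∧
      (∀ j, f' j ∈ H0 N' (bz A' (w j))) ∧ (∀ y, (f' · y) ∈ K') ∧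
      (∀ y n v i, wk.ε y n v i = (R n).d (wk.E y n) v ^ a i * ∏ r, ε y n v r ^ c i r) ∧
      (∀ n k r, η n k r ≠ 0) ∧ (∀ n q, η n (e₁ q) = η n (e₂ q)) ∧
      wk.LS N pm (fun n k i => ∏ r, η n k r ^ c i r)
        (fun i => omega Q N' (Finset.univ.image p') ^ a i * bz A' (c i)) N' p' ∧
      (∀ y ∈ wk.Gd, ∀ᶠ n in U, (Sm (N n) (wk.c y n) ∧ ∀ k, pm n k ≠ wk.c y n) ∧
        (R n).d (wk.E y n) (wk.c y n) ≠ 0 ∧ ∀ r, ε y n (wk.c y n) r ≠ 0) ∧
      ∀ j, ∀ y ∈ wk.Gd, Tendsto (fun n => f n j (wk.c y n) / ∏ r, ε y n (wk.c y n) r ^ w j r) U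
        (𝓝 (f' j y)) := by
  obtain ⟨Y, _, _, _, Q, D, N₀, p₀, N₁, A₁, b, f₁, ho, b1, hf₁, b3, b4⟩ :=
    exists_lim hU h hN sm inj hg hd st hk bpf hf hv he pr
  have b0 : ∀ r, (b r).Pr N₀ := fun r m hm => b1 r m (Finset.mem_union_left _ hm)
  obtain ⟨W, bw, S, N', p', u, γ, w1, s1, w2, w3, w4⟩ := exists_st ho b (amp.amp (fun j => (hf₁ j).1) b3) st
  obtain ⟨Q', N'', p'', A', wk, r1, r2, r3, -, r5, r6, r7, r8, r9, r10, r11⟩ :=
    s1.exists_wk ho b b0 bw w1 w2 w3 w4 a c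
  have : CompactSpace S := isCompact_iff_compactSpace.1 s1.clopen.isClosed.isCompact
  let σ : ν → ν := fun k => if e : ∃ q, e₂ q = k then e₁ e.choose else k
  have σ1 : ∀ q, σ (e₁ q) = e₁ q := fun q => dif_neg fun ⟨q', e⟩ =>
    Sum.inr_ne_inl (he (a₁ := .inr q') (a₂ := .inl q) e)
  have σ2 : ∀ q, σ (e₂ q) = e₁ q := fun q => by
    have e : ∃ q', e₂ q' = e₂ q := ⟨q, rfl⟩
    rw [show σ (e₂ q) = e₁ e.choose from dif_pos e, Sum.inr_injective
      (he (a₁ := .inr e.choose) (a₂ := .inr q) e.choose_spec)]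
  let η₀ : ℕ → ν → ρ → ℂ := fun n k r => (b r).ε (p₀ k) n (pm n k)
  have η1 : ∀ k r, ∀ᶠ n in U, η₀ n k r ≠ 0 := fun k r =>
    ((ε_ne (b r) (ho.sm_mark k)).and ho.mark).mono fun n hn => by
      simpa only [η₀, hn.2 k] using hn.1
  have η2 : ∀ k r, Tendsto (fun n => η₀ n k r / η₀ n (σ k) r) U (𝓝 1) := fun k r => by
    by_cases e : ∃ q, e₂ q = k
    · obtain ⟨q, rfl⟩ := e
      have := (b1 r (p₀ (e₁ q), p₀ (e₂ q)) (Finset.mem_union_right _
        (Finset.mem_image_of_mem _ (Finset.mem_univ q)))).inv₀ one_ne_zero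
      rw [inv_one] at this
      exact this.congr' (ho.mark.mono fun n hn => by simp only [η₀, σ2, hn, inv_div])
    · rw [show σ k = k from dif_neg e]
      exact tendsto_const_nhds.congr' ((η1 k r).mono fun n hn => (div_self hn).symm)
  have hc' : ∀ y : S, wk.c y = D.c y := fun y => funext fun n => by rw [Wk.c, r8, Dg.c]
  have smM : ∀ y, Sm N₁ y → Sm D.M y := fun y hy m hm => hy m ((ho.mem m).2 (.inr hm))
  obtain ⟨n₀, g1, g2⟩ := r5.exists
  have hP : Finset.univ.image p'' =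
      @Finset.image ν S (fun a b => propDecidable (a = b)) p'' Finset.univ := by
    congr
    exact Subsingleton.elim _ _
  rw [hP] at r6 r11
  refine ⟨S, inferInstance, inferInstance, inferInstance, Q', N'', p'', A',
    fun j y => f₁ j y * ∏ r, γ y r ^ w j r, wk, fun y n v r => (b r).ε y n v,
    fun n k r => if η₀ n (σ k) r = 0 then 1 else η₀ n (σ k) r, r1, r2, r3, g1 ▸ hg n₀,
    fun r => g2 r ▸ hd n₀ r, r6, fun j => r7 _ _ (hf₁ j), fun y => ?_, fun y n v i => ?_,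
    fun n k r => ?_, fun n q => ?_, ls_congr r11 (fun k i => ?_) fun k i => ?_, fun y hy => ?_,
    fun j y hy => ?_⟩
  · have := h.inv (γ y) (s1.γne y) _ (b3 y)
    rwa [show ta w (γ y) (f₁ · y) = fun j => f₁ j y * ∏ r, γ y r ^ w j r from
      funext fun j => mul_comm _ _] at this
  · rw [r9, r8]
  · dsimp only
    split_ifs with e
    exacts [one_ne_zero, e]
  · simp only [σ1, σ2]
  · exact (eventually_all.2 (η1 k)).mono fun n hn =>
      Finset.prod_ne_zero_iff.2 fun r _ => zpow_ne_zero _ (hn r)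
  · have := tendsto_finsetProd Finset.univ fun r _ => (η2 k r).zpow₀ (c i r) (.inl one_ne_zero)
    simp only [div_zpow, Finset.prod_div_distrib, one_zpow, Finset.prod_const_one] at this
    refine this.congr' ((eventually_all.2 (η1 (σ k))).mono fun n hn => ?_)
    simp only [hn, if_false, η₀]
  · obtain ⟨-, h1, h2⟩ := r10 y hy
    obtain ⟨δ, hδ, h3⟩ := ho.good h1 h2
    rw [hc', r8]
    filter_upwards [h3, Dg.to_c (smM _ h1) δ hδ, D.cmp y, Dg.ev_c (smM _ h1),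
      eventually_all.2 fun r => ε_ne (b r) (smM _ h1)] with n a1 a2 a3 a4 a5
    exact ⟨a1 _ a2, (a3 _ a4.1).2, a5⟩
  · obtain ⟨h0, h1, -⟩ := r10 y hy
    simpa only [hc', h0, Pi.one_apply, one_zpow, Finset.prod_const_one, mul_one] using
      b4 j _ _ (Dg.to_c (smM _ h1))

end Vale.Agent.P269.Cpt
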