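import Vale.Agent.P269.Cpt.Lim
import Vale.Agent.P269.Cpt.Conv
import Vale.Agent.P269.Pt.Std
import Vale.Agent.P269.Pt.Act
import Vale.Agent.P269.Gen.Act

/-!
# Gromov compactness in the standard charts
-/

set_option linter.unusedSectionVars false

namespace Vale.Agent.P269.Cpt

open Set Function Topology Filter Module Vale.Agent.P269.Cv Ch

variable {S Λ ρ J K ν κ : Type} [Fintype S] [Fintype Λ] [Fintype ρ] [DecidableEq ρ] [Fintype J]
  [Fintype K] [Fintype ν] [Fintype κ] {F : Fam S Λ ρ J K} {g : ℤ} {n₀ : ℕ} {d : ρ → ℤ} {k D : ℕ}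

/-- the residues at the marked points `a`, `b` match -/
def Ld {ι : Type} [Fintype ι] [DecidableEq ι] {ch : Ch ι J} (x : ch.W ν) (a b : ν) : Prop :=
  ∀ γ₁ γ₂ ρ₁ ρ₂, IsBranch ch.o (crv x) γ₁ → IsBranch ch.o (crv x) γ₂ → γ₁ 0 = x.p a →
    γ₂ 0 = x.p b → Lead x γ₁ ρ₁ → Lead x γ₂ ρ₂ → ρ₁ = (-1) ^ ch.k * ρ₂

namespace MainP

/-- the exponents of the bundles of the standard chart -/
noncomputable def ex (θ : ρ → ℤ) (k : ℕ) (o : Option ρ) : ρ → ℤ :=
  (k : ℤ) • θ + o.elim 0 (Pi.single · 1)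

theorem stdA_eq {X : Type} [TopologicalSpace X] {R : RS X} (W : LB R) (L : ρ → LB R) (θ : ρ → ℤ)
    (k : ℕ) : stdA ((W * bz L θ) ^ k) L = fun o => W ^ (k : ℤ) * bz L (ex θ k o) := funext fun o => by
  rw [ex, bz_add, bz_smul]
  cases o <;> simp [stdA, bz_single, mul_pow, mul_assoc]

theorem prod_ex {e : ρ → ℂ} (he : ∀ r, e r ≠ 0) (θ : ρ → ℤ) (k : ℕ) (o : Option ρ) :
    ∏ r, e r ^ ex θ k o r = (∏ r, e r ^ θ r) ^ k * o.elim 1 e := by
  simp only [ex, Pi.add_apply, zpow_add₀ (he _), Finset.prod_mul_distrib, Pi.smul_apply,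
    smul_eq_mul, mul_comm (k : ℤ), zpow_mul, zpow_natCast, Finset.prod_pow]
  congr 1
  cases o with
  | none => simp
  | some i => exact (Finset.prod_eq_single i (fun b _ h => by simp [h]) (by simp)).trans (by simp)

theorem hat_ex {e : ρ → ℂ} (he : ∀ r, e r ≠ 0) {a : ℂ} (ha : a ≠ 0) (θ w : ρ → ℤ) (k : ℕ) :
    ∏ o, (a * ∏ r, e r ^ ex θ k o r) ^ Tgt.hat w o = ∏ r, e r ^ w r := by
  have := prod_zpow_ne he θ
  rw [prod_hat _ (mul_ne_zero ha (prod_zpow_ne he _))]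
  refine Finset.prod_congr rfl fun r _ => ?_
  rw [prod_ex he, prod_ex he]
  congr 1
  simp only [Option.elim]
  field_simp

theorem chi_ex (hD : F.BigD k D) {e : ρ → ℂ} (he : ∀ r, e r ≠ 0) {a : ℂ} (ha : a ≠ 0) :
    ∏ o, (a * ∏ r, e r ^ ex F.θ k o r) ^ (F.chart g n₀ d k D).χ o = a := by
  have h0 := fun o => mul_ne_zero ha (prod_zpow_ne he (ex F.θ k o))
  have := prod_zpow_ne he F.θ
  simp only [chart_χ g n₀ d hD, Pi.sub_apply, zpow_sub₀ (h0 _), Finset.prod_div_distrib,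
    Pi.smul_apply]
  simp only [nsmul_eq_mul, mul_comm (k : ℤ), zpow_mul, zpow_natCast, Finset.prod_pow, hat_ex he ha]
  rw [Finset.prod_eq_single none (fun b _ h => by simp [h]) (by simp), prod_ex he]
  simp only [Pi.single_eq_same, zpow_one, Option.elim]
  field_simp

theorem prod_chi (hD : F.BigD k D) {a : ℂ} (ha : a ≠ 0) :
    ∏ o, a ^ (F.chart g n₀ d k D).χ o = a := by
  rw [← zpow_sum_ne ha, sum_χ g n₀ d hD, zpow_one]

theorem prod_wd {a : ℂ} (ha : a ≠ 0) (j : J) : ∏ o, a ^ (F.chart g n₀ d k D).wd j o = 1 := by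
  rw [← zpow_sum_ne ha, chart_wd, sum_hat, zpow_zero]

theorem stdA_div (hD : F.BigD k D) {X : Type} [TopologicalSpace X] [T2Space X] [CompactSpace X]
    {R : RS X} (W : LB R) (A : Option ρ → LB R) (o : Option ρ) :
    ((W ^ k)⁻¹ * bz A (F.chart g n₀ d k D).χ)⁻¹ =
      stdA ((W * bz (fun r => A (some r) / A none) F.θ) ^ k) (fun r => A (some r) / A none) o /
        A o := by
  rw [chart_χ g n₀ d hD, bz_sub, bz_single, ← natCast_zsmul, bz_smul, bz_hat, stdA]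
  generalize bz (fun r => A (some r) / A none) F.θ = B
  cases o <;> simp [mul_pow, div_eq_mul_inv, mul_comm, mul_left_comm]

open Classical in
theorem exists_cr_mark {ι : Type} [Fintype ι] [DecidableEq ι] {ch : Ch ι J} {x : ch.W ν}
    (hx : x ∈ ch.base ν) : ∃ (X : Type) (_ : TopologicalSpace X) (_ : T2Space X)
    (_ : CompactSpace X) (R : RS X) (N : Finset (X × X)) (A : ι → LB R) (π : _) (u : _)
    (p : ν → X) (ξ : X → ℂ), Cr N A x π u p ξ ∧ ∀ n, x.p n = π (p n) := by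
  obtain ⟨X, _, _, _, R, N, A, π, u, p, ξ, h⟩ := exists_cr hx
  choose t ht e using h.mark
  let c : X → ι → ℂ := fun z => if e : ∃ n, p n = z then t e.choose else 1
  have c1 : ∀ n, c (p n) = t n := fun n => by
    have e : ∃ n', p n' = p n := ⟨n, rfl⟩
    rw [show c (p n) = t e.choose from dif_pos e, h.inj e.choose_spec]
  have c0 : ∀ z o, c z o ≠ 0 := fun z o => by
    simp only [c]
    split_ifs
    exacts [ht _ _, one_ne_zero]
  refine ⟨X, _, ‹_›, ‹_›, R, N, _, _, _, p, _, h.of_iso (c := c)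
    (B := fun o => A o * LB.cst R (c · o) (c0 · o)) (fun o => ?_) c0, fun n => by rw [c1, e]⟩
  rw [mul_div_cancel_left]
  refine cst_mem0 _ fun m hm => ?_
  rw [show c m.1 = 1 from dif_neg fun ⟨n, e⟩ => (h.sm n m hm).1 e.symm,
    show c m.2 = 1 from dif_neg fun ⟨n, e⟩ => (h.sm n m hm).2 e.symm]

open Classical in
/-- a normal form for the solutions -/
theorem exists_nf (hD : F.BigD k D) {x : (F.chart g n₀ d k D).W ν} {T : Tgt ρ J K}
    (hx : x ∈ sol _ ν T) : ∃ (X : Type) (_ : TopologicalSpace X) (_ : T2Space X)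
    (_ : CompactSpace X) (R : RS X) (N : Finset (X × X)) (L : ρ → LB R) (π : _) (u : _)
    (p : ν → X) (y : J → X → ℂ) (t : ν → ℂ),
      Cr N (stdA ((omega R N (Finset.univ.image p) * bz L F.θ) ^ k) L) x π u p 1 ∧
      (∀ j, Ind x π u j (y j)) ∧ (∀ z, (y · z) ∈ T.cone) ∧ (∀ n, t n ≠ 0) ∧
      (∀ n, x.p n = (fun _ : Option ρ => t n) • π (p n)) ∧ (∀ n, fld x (x.p n) = (y · (p n))) ∧
      ∀ a b, Ld x a b → t a = (-1) ^ k * t b := by
  obtain ⟨X, _, _, _, R, N, A, π, u, p, ξ, h, e⟩ := exists_cr_mark hx.1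
  let L : ρ → LB R := fun r => A (some r) / A none
  have h2 := h.of_iso (c := fun z _ => (ξ z)⁻¹)
    (B := stdA ((omega R N (Finset.univ.image p) * bz L F.θ) ^ k) L)
    (fun o => stdA_div hD _ A o ▸ H0.inv_mem h.xi h.ne) fun z _ => inv_ne_zero (h.ne z)
  rw [show (fun y => ξ y * ∏ o, (ξ y)⁻¹ ^ (F.chart g n₀ d k D).χ o) = 1 from funext fun y => by
    rw [prod_chi hD (inv_ne_zero (h.ne y)), mul_inv_cancel₀ (h.ne y), Pi.one_apply]] at h2
  obtain ⟨y, hy, hc⟩ := h2.mem_sol.1 hx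
  have e2 : ∀ n, x.p n = (fun _ : Option ρ => ξ (p n)) •
      (fun _ : Option ρ => (ξ (p n))⁻¹) • π (p n) := fun n => by
    rw [e, smul_smul]
    exact (one_smul _ _).symm.trans (congrArg (· • _) (funext fun _ =>
      (mul_inv_cancel₀ (h.ne _)).symm))
  refine ⟨X, _, ‹_›, ‹_›, R, N, L, _, _, p, y, fun n => ξ (p n), h2, hy,
    fun z => by simpa using hc z 1 fun _ => one_ne_zero, fun n => h.ne _, e2,
    fun n => funext fun j => ?_, fun a b hab => ?_⟩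
  · rw [e2, h2.fld_smul (hy j) _ fun _ => h.ne _, prod_wd (h.ne _), one_mul]
  · simpa using (h.lead_iff (t := 1) (t' := 1) ((e a).trans (one_smul _ _).symm)
      ((e b).trans (one_smul _ _).symm) ((-1) ^ k)).1 hab

theorem actF_one_S {ι : Type} [Fintype ι] [DecidableEq ι] {ch : Ch ι J} (F : Wt S Λ ρ J)
    (s : ch.A (ν ⊕ κ)) (x : ch.WF ν κ Λ) : actF F (1, s) x = (x.1, act (dup s) x.2) :=
  Prod.ext (F.actL_one _) (congrArg (act (dup s)) ((congrArg (scl · x.2)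
    (funext fun j => by simp)).trans (scl_one _)))

end MainP

open MainP

open Classical in
/-- **Gromov compactness**, with pairs `(e₁ q, e₂ q)` of marked points that are rescaled together -/
theorem exists_lim_pairs (hF : F.Good) (hk : F.Big k) (hD : F.BigD k D) (hn : Fintype.card ν = n₀)
    {x : ℕ → (F.chart g n₀ d k D).W ν} {l : ℕ → Λ → ℂ} (hx : ∀ n, x n ∈ sol _ ν (F.fib (l n)))
    (hl : ∀ n, l n ∈ F.B) {l' : Λ → ℂ} (hl' : l' ∈ F.B) (ht : Tendsto l atTop (𝓝 l'))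
    {U : Ultrafilter ℕ} (hU : (U : Filter ℕ) ≤ atTop) {e₁ e₂ : κ → ν}
    (he : Injective (Sum.elim e₁ e₂)) (ld : ∀ n q, Ld (x n) (e₁ q) (e₂ q))
    (pr : ∀ q, ∃ τ : ℕ → ρ → ℂ, (∀ n i, τ n i ≠ 0) ∧ ∃ a ∈ (F.fib l').cone, ∃ b ∈ (F.fib l').cone,
      Tendsto (fun n => ta F.w (τ n) (fld (x n) ((x n).p (e₁ q)))) U (𝓝 a) ∧
      Tendsto (fun n => ta F.w (τ n) (fld (x n) ((x n).p (e₂ q)))) U (𝓝 b)) :
    ∃ s : ℕ → (F.chart g n₀ d k D).A ν, (∀ n, IsUnit (s n)) ∧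
      (∀ n q, (s n).2.2 (e₁ q) = (s n).2.2 (e₂ q)) ∧ ∃ x' ∈ sol _ ν (F.fib l'),
        (∀ q, Ld x' (e₁ q) (e₂ q)) ∧ Tendsto (fun n => act (s n) (x n)) U (𝓝 x') := by
  choose X _ _ _ R N L π u p y t h hy hc t0 tp tf tl using fun n => exists_nf hD (hx n)
  by_cases hne : ∀ n, Nonempty (X n)
  swap
  · obtain ⟨n, hn⟩ := not_forall.1 hne
    have : ∀ l, Subsingleton ((F.chart g n₀ d k D).E l) := fun l =>
      ⟨fun _ _ => (h n).u_ext fun z => (hn ⟨z⟩).elim⟩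
    have e : ∀ a b : (F.chart g n₀ d k D).W ν, a = b := fun a b =>
      W.ext (fun _ => Subsingleton.elim _ _) (fun a => (hn ⟨p n a⟩).elim) (Subsingleton.elim _ _)
        fun _ => Subsingleton.elim _ _
    exact ⟨1, fun _ => isUnit_one, fun _ _ => rfl, x n, ⟨(hx n).1, fun z hz =>
      (hn ⟨((h n).mem_gr.1 hz).choose⟩).elim⟩, ld n, tendsto_const_nhds.congr fun _ => e _ _⟩
  obtain ⟨χ, T, hC⟩ := exists_cones hF hU hl hl' ht
  have k0 : k ≠ 0 := by
    obtain ⟨_, _, -, a⟩ := hk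
    omega
  have hy' : ∀ n j, y n j ∈ H0 (N n) (bz (L n) (F.w j)) := fun n j => by
    have := (h n).ind_mem (hy n j)
    rwa [chart_wd, bz_stdA] at this
  obtain ⟨Y, _, _, _, Q, N', p', L', y', wk, ε, η, a1, a2, a3, a4, a5, a6, a7, a8, a9, a10, a11, a12,
    a13, a14⟩ := lim (g := g) (d := d) (k := k) hU hC (ampK_fib hF hl') (fun n => (h n).par.nd)
      (fun n => (h n).sm) (fun n => (h n).inj) (fun n => (h n).gen_eq) (fun n r => by
        have a := (h n).deg_eq (some r)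
        have b := (h n).deg_eq none
        simp only [stdA, deg_mul, Option.elim, mul_one, Fam.chart, Tgt.chart] at a b
        omega)
      (fun n => Ge.of_pow (k := k) ((congrArg (Ge · 1) (mul_one _)).mp (h n).par.ge_one)) k0
      (fun n v => let ⟨s, a, b⟩ := (h n).par.bpf none v; ⟨s, by simpa [stdA] using a.1, b⟩)
      hy' hc he (by simpa only [tf] using pr) (fun _ : Option ρ => (k : ℤ)) (ex F.θ k)
  let t' : ν → ℂ := fun a => if ∃ q, e₁ q = a then (-1) ^ k else 1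
  have t1 : ∀ q, t' (e₁ q) = (-1) ^ k := fun q => if_pos ⟨q, rfl⟩
  have t2 : ∀ q, t' (e₂ q) = 1 := fun q => if_neg fun ⟨q', e⟩ =>
    Sum.inl_ne_inr (he (a₁ := .inl q') (a₂ := .inr q) e)
  have t3 : ∀ a, t' a ≠ 0 := fun a => by
    simp only [t']
    split_ifs <;> simp
  obtain ⟨x', π', u', h', hy', tp'⟩ := exists_std (σ := 1) hk hD a1 a2 a3 a7
    (fun z => ⟨hl', a8 z⟩) (by rw [div_self']; exact H0.one_mem) (fun _ => one_ne_zero) a6 a4 hn a5
    (fun a _ => t' a) fun a _ => t3 a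
  rw [one_pow] at h'
  have D0 : D ≠ 0 := by have := hD.le; omega
  obtain ⟨s, s1, s2, s3⟩ := conv (chart_a_ne g n₀ d D0) (h 0).chart_M
    (fun n => stdA_eq _ (L n) F.θ k ▸ h n) (stdA_eq _ L' F.θ k ▸ h') wk
    (fun n a i => prod_zpow_ne (a10 n a) _) a12 (fun z hz => (a13 z hz).mono fun _ a => a.1)
    (fun z hz => tendsto_const_nhds.congr' ((a13 z hz).mono fun n a => by
      simp only [a9]
      rw [chi_ex hD a.2.2 (zpow_ne_zero _ a.2.1), Pi.one_apply, Pi.one_apply, one_mul, zpow_natCast]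
      exact (div_self (pow_ne_zero _ a.2.1)).symm)) hy hy'
    (fun j z hz => (a14 j z hz).congr' ((a13 z hz).mono fun n a => by
      have := congrFun (chart_wd F g n₀ d k D j)
      simp only [Ch.wd] at this
      simp only [a9, this, hat_ex a.2.2 (zpow_ne_zero _ a.2.1)])) tp tp'
  refine ⟨s, s1, fun n q => funext fun o => ?_, x', h'.mem_sol.2 ⟨y', hy', fun z c hc => ?_⟩,
    fun q => (h'.lead_iff (tp' _) (tp' _) _).2 ?_, s3⟩
  · rw [s2, s2, a11, t1, t2, tl n _ _ (ld n q), mul_assoc, div_mul_cancel_left₀ (by simp), one_div]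
  · simp only [chart_wd, prod_hat _ (hc none)]
    exact ta_mem hF.toInv (fun r => div_ne_zero (hc _) (hc _)) (a8 z)
  · rw [prod_chi hD (t3 _), prod_chi hD (t3 _), t1, t2]
    exact congrArg _ (mul_one _).symm

/-- **Gromov compactness** for families, along an ultrafilter -/
theorem exists_lim_ultra (hF : F.Good) (hk : F.Big k) (hD : F.BigD k D)
    (hn : Fintype.card (Mk ν κ) = n₀) {x : ℕ → (F.chart g n₀ d k D).WF ν κ Λ}
    (hx : ∀ n, x n ∈ solF _ ν κ F) {l : Λ → ℂ} (hl : l ∈ F.B)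
    (ht : Tendsto (fun n => (x n).1) atTop (𝓝 l)) {U : Ultrafilter ℕ} (hU : (U : Filter ℕ) ≤ atTop)
    (pr : ∀ q, ∃ τ : ℕ → ρ → ℂ, (∀ n, IsUnit (τ n)) ∧ ∃ a ∈ F.cone, ∃ b ∈ F.cone,
      Tendsto (fun n => F.actT (1, τ n) (vl (x n) (.inr (q, false)))) U (𝓝 a) ∧
      Tendsto (fun n => F.actT (1, τ n) (vl (x n) (.inr (q, true)))) U (𝓝 b)) :
    ∃ s : ℕ → (F.chart g n₀ d k D).AF ν κ S, (∀ n, IsUnit (s n) ∧ (s n).1 = 1) ∧
      ∃ x' ∈ solF _ ν κ F, x'.1 = l ∧ Tendsto (fun n => actF F.toWt (s n) (x n)) U (𝓝 x') := by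
  obtain ⟨s, s1, s2, x', h1, h2, h3⟩ := exists_lim_pairs hF hk hD hn (fun n => (hx n).2)
    (fun n => (hx n).1.1) hl ht hU (e₁ := fun q : κ => .inr (q, false))
    (e₂ := fun q => .inr (q, true)) (by rintro (a | a) (b | b) e <;> simp_all)
    (fun n => (hx n).1.2.2) fun q => by
      obtain ⟨τ, h1, a, h2, b, h3, h4, h5⟩ := pr q
      simp only [vl, actT_one] at h4 h5
      have e : ∀ {v : ℕ → J → ℂ} {z}, Tendsto (fun n => ((x n).1, v n)) U (𝓝 z) → z.1 = l :=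
        fun h => tendsto_nhds_unique ((continuous_fst.tendsto _).comp h) (ht.mono_left hU)
      exact ⟨τ, fun n => isUnit_pi_iff.1 (h1 n), a.2, e h4 ▸ h2.2, b.2, e h5 ▸ h3.2,
        (continuous_snd.tendsto _).comp h4, (continuous_snd.tendsto _).comp h5⟩
  let s' : ℕ → (F.chart g n₀ d k D).A (ν ⊕ κ) := fun n =>
    ((s n).1, (s n).2.1, fun a => (s n).2.2 (a.map id (·, false)))
  have e : ∀ n, dup (s' n) = s n := fun n => Prod.ext rfl (Prod.ext rfl (funext fun a => by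
    rcases a with a | ⟨q, _ | _⟩
    exacts [rfl, rfl, s2 n q]))
  refine ⟨fun n => (1, s' n), fun n => ⟨isUnitF_iff.2 ⟨fun _ => one_ne_zero, ?_⟩, rfl⟩, (l, x'),
    ⟨⟨hl, h1.1, h2⟩, h1⟩, rfl, ?_⟩
  · obtain ⟨a, b, c⟩ := Cv.isUnit_iff.1 (s1 n)
    exact Cv.isUnit_iff.2 ⟨a, b, fun _ => c _⟩
  · simpa only [actF_one_S, e] using (ht.mono_left hU).prodMk_nhds h3

/-- **Gromov compactness** for families: a subsequence converges modulo the group -/
theorem exists_subseq (hF : F.Good) (hk : F.Big k) (hD : F.BigD k D)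
    (hn : Fintype.card (Mk ν κ) = n₀) {x : ℕ → (F.chart g n₀ d k D).WF ν κ Λ}
    (hx : ∀ n, x n ∈ solF _ ν κ F) {l : Λ → ℂ} (hl : l ∈ F.B)
    (ht : Tendsto (fun n => (x n).1) atTop (𝓝 l))
    (pr : ∀ q, ∃ τ : ℕ → ρ → ℂ, (∀ n, IsUnit (τ n)) ∧ ∃ C ⊆ F.cone, IsCompact C ∧ ∀ n b,
      F.actT (1, τ n) (vl (x n) (.inr (q, b))) ∈ C) :
    ∃ s : ℕ → (F.chart g n₀ d k D).AF ν κ S, (∀ n, IsUnit (s n) ∧ (s n).1 = 1) ∧
      ∃ x' ∈ solF _ ν κ F, x'.1 = l ∧ ∃ φ : ℕ → ℕ, StrictMono φ ∧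
        Tendsto (fun n => actF F.toWt (s (φ n)) (x (φ n))) atTop (𝓝 x') := by
  obtain ⟨s, h1, x', h2, h3, h4⟩ := exists_lim_ultra hF hk hD hn hx hl ht
    (U := Ultrafilter.of atTop) (Ultrafilter.of_le _) fun q => by
      obtain ⟨τ, h1, C, h2, h3, h4⟩ := pr q
      have := fun b => h3.ultrafilter_le_nhds' ((Ultrafilter.of atTop).map fun n =>
        F.actT (1, τ n) (vl (x n) (.inr (q, b)))) (mem_map.2 (univ_mem' (h4 · b)))
      obtain ⟨a, a1, a2⟩ := this false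
      obtain ⟨b, b1, b2⟩ := this true
      exact ⟨τ, h1, a, h2 a1, b, h2 b1, a2, b2⟩
  exact ⟨s, h1, x', h2, h3, MapClusterPt.tendsto_subseq
    (mapClusterPt_iff_ultrafilter.2 ⟨_, Ultrafilter.of_le _, h4⟩)⟩

end Vale.Agent.P269.Cpt
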