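import Vale.Agent.P269.Cpt.PenA
import Vale.Agent.P269.Cpt.Lift
import Vale.Agent.P269.Cpt.Bub

/-!
# Existence of the limit surface
-/

set_option linter.unusedSectionVars false

namespace Vale.Agent.P269.Cpt

open Set Function Topology Filter Metric Module Vale.Agent.P269.Cv

variable {X : ℕ → Type} [∀ n, TopologicalSpace (X n)] [∀ n, T2Space (X n)]
  [∀ n, CompactSpace (X n)] [∀ n, Nonempty (X n)] {Y : Type} [TopologicalSpace Y] [T2Space Y]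
  [CompactSpace Y] {U : Ultrafilter ℕ} {R : ∀ n, RS (X n)} {Q : RS Y} {D : Dg U R Q}
  {B B' : ∀ n, LB (R n)} {L L' : LB Q} {p q : ∀ n, X n} {x y y' z : Y} {s s' : ∀ n, X n → ℂ}
  {σ σ' : Y → ℂ} {Z : ∀ n, Set (X n)} {ν : Type} [Fintype ν] {N : ∀ n, Finset (X n × X n)}
  {pm : ∀ n, ν → X n} {N₀ N₁ : Finset (Y × Y)} {p₀ : ν → Y}

theorem exists_dg (hU : (U : Filter ℕ) ≤ atTop) (R : ∀ n, RS (X n)) (A : ∀ n, LB (R n))
    (hA : ∀ n, Ge (A n) 1) (bpf : ∀ n w, ∃ a ∈ (A n).Γ, a w ≠ 0) {m : ℕ}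
    (hd : ∀ n, deg (A n) ≤ m) (hK : ∀ n, deg (R n).K ≤ m) (hZ : ∀ n, (Z n).encard ≤ m) :
    ∃ (Y' : Type) (_ : TopologicalSpace Y') (_ : T2Space Y') (_ : CompactSpace Y') (Q' : RS Y')
      (D' : Dg U R Q'), D'.Av Z := by
  choose h h1 h2 h3 using fun n => exists_pen (hA n) (bpf n)
  obtain ⟨D₀⟩ := Cpt.exists_const P1 hU
  obtain ⟨Y₁, _, _, _, Q₁, D₁, h4⟩ := D₀.exists_av (m := 3 * m)
    (Z := fun n => h n '' {w | (R n).d (fun v => P1.e (h n w) (h n v)) w = 0}) fun n =>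
    ((encard_image_le _ _).trans (h3 n)).trans (by
      have := hd n
      have := hK n
      exact_mod_cast (show (deg (R n).K + 2 * deg (A n)).toNat ≤ 3 * m by omega))
  obtain ⟨Y₂, _, _, _, Q₂, ⟨D₂⟩⟩ := D₁.lift R h1 (m := m) (fun n v => (h2 n v).trans (by
    have := hd n
    exact_mod_cast (show (deg (A n)).toNat ≤ m by omega))) h4 fun n w e => ⟨w, e, rfl⟩
  exact D₂.exists_av hZ

end Vale.Agent.P269.Cpt
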