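import Vale.Agent.P269.Cpt.Defs
import Vale.Agent.P269.Cv.Rat

/-!
# Pencils: holomorphic maps to the projective line with bounded degree
-/

set_option linter.unusedSectionVars false

namespace Vale.Agent.P269.Cpt

open Set Function Topology Filter Metric Module Vale.Agent.P269.Cv

variable {W : Type} [TopologicalSpace W] [T2Space W] [CompactSpace W] {S : RS W} {A : LB S}
  {a b : W → ℂ} {w : W}

namespace PenP

theorem gen_eq (hA : Ge A 1) (ha : a ∈ A.Γ) (hb : b ∈ A.Γ) (h : ∀ w, a w ≠ 0 ∨ b w ≠ 0) :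
    Gen a = univ := by
  refine compl_empty_iff.1 (not_nonempty_iff_eq_empty.1 fun hn => ?_)
  have := hA _ (isClopen_gen ha).compl hn
  rw [degOn_of_ne (U := (Gen a)ᶜ) (fun w _ => hb w) fun w hw =>
    (h w).resolve_left (not_not.2 (eq_zero_of_gen ha hw))] at this
  omega

theorem encard_le (ha : a ∈ A.Γ) (g : Gen a = univ) : {w | a w = 0}.encard ≤ (deg A).toNat := by
  have h := LB.finite_zeros ha g
  have := card_le_degOn isClopen_univ (fun w _ => ha w) g.ge (T := h.toFinset) (by simp)
  rw [degOn_univ] at this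
  rw [← h.coe_toFinset, encard_coe_eq_coe_finsetCard]
  exact_mod_cast (show h.toFinset.card ≤ (deg A).toNat by omega)

theorem const_of_d (h : S.Hol a w) (h0 : ∀ᶠ v in 𝓝 w, S.d a v = 0) : ∀ᶠ v in 𝓝 w, a v = a w := by
  have h1 := AnalyticAt.analyticOrderAt_deriv_add_one h
  rw [← analyticOrderAt_congr h.loc_d, show analyticOrderAt _ _ = ⊤ from LB.ord_eq_top.2 h0,
    top_add, eq_comm, analyticOrderAt_eq_top, S.i_zero] at h1
  exact S.ev_iff.2 (h1.mono fun t ht => sub_eq_zero.1 ht)

theorem d_inv (ha : A.Sec a w) (hb : A.Sec b w) (h1 : a w ≠ 0) (h2 : b w ≠ 0) :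
    S.d (fun v => a v / b v) w * b w ^ 2 = -(S.d (fun v => b v / a v) w * a w ^ 2) := by
  have := RS.d_comp (u := fun t => t⁻¹) (f := fun v => b v / a v)
    (analyticAt_id.inv (div_ne_zero h2 h1)) (hb.hol_div ha h1)
  simp only [inv_div, deriv_inv'] at this
  rw [this]
  field_simp

end PenP

open PenP

theorem exists_pen {W : Type} [TopologicalSpace W] [T2Space W] [CompactSpace W] {S : RS W}
    {A : LB S} (hA : Ge A 1) (bpf : ∀ w, ∃ a ∈ A.Γ, a w ≠ 0) :
    ∃ h : W → OnePoint ℂ, HM S P1 h ∧ (∀ v, (h ⁻¹' {v}).encard ≤ (deg A).toNat) ∧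
      {w | S.d (fun v => P1.e (h w) (h v)) w = 0}.encard ≤ (deg S.K + 2 * deg A).toNat := by
  classical
  obtain ⟨a, ha, b, hb, h⟩ := exists_pencil le_rfl bpf
  have gb := gen_eq hA hb ha fun w => (h w).symm
  have hc : ∀ c : ℂ, a - c • b ∈ A.Γ := fun c => sub_mem ha (Submodule.smul_mem _ c hb)
  have gc : ∀ c : ℂ, Gen (a - c • b) = univ := fun c => gen_eq hA (hc c) hb fun w =>
    (em (b w = 0)).imp_left fun e => by simpa [e] using h w
  have h0 : ∀ w, b w = 0 → a w ≠ 0 := fun w e => (h w).resolve_right (not_not.2 e)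
  let F : W → OnePoint ℂ := fun w => if b w = 0 then OnePoint.infty else (a w / b w : ℂ)
  have F0 : ∀ w, b w = 0 → F w = OnePoint.infty := fun w e => if_pos e
  have F1 : ∀ w, b w ≠ 0 → F w = (a w / b w : ℂ) := fun w e => if_neg e
  have e0 : ∀ w, b w = 0 → (fun v => P1.e (F w) (F v)) = fun v => b v / a v := fun w e =>
    funext fun v => by by_cases c : b v = 0 <;> simp [F0 w e, F0, F1, c, P1_e_infty]
  have e1 : ∀ w, b w ≠ 0 → (fun v => a v / b v - a w / b w) =ᶠ[𝓝 w] fun v => P1.e (F w) (F v) :=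
    fun w e => ((hb w).ev_ne e).mono fun v c => by simp only [F1 w e, F1 v c, P1_e_coe]
  let ω : W → ℂ := fun w => if b w = 0 then -(S.d (fun v => b v / a v) w * a w ^ 2)
    else S.d (fun v => a v / b v) w * b w ^ 2
  have o1 : ∀ w, b w ≠ 0 → S.d (fun v => a v / b v) * b ^ 2 =ᶠ[𝓝 w] ω := fun w e =>
    ((hb w).ev_ne e).mono fun v c => (if_neg c).symm
  have ho : ω ∈ (S.K * A ^ 2).Γ := fun w => by
    by_cases c : b w = 0
    · refine ((((hb w).hol_div (ha w) (h0 w c)).sec_d.mul ((ha w).pow 2)).smul (-1)).congr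
        (((ha w).ev_ne (h0 w c)).mono fun v e => ?_)
      by_cases c' : b v = 0
      · simp [ω, c']
      · simp [ω, c', d_inv (ha v) (hb v) e c']
    · exact (((ha w).hol_div (hb w) c).sec_d.mul ((hb w).pow 2)).congr (o1 w c)
  have go : Gen ω = univ := eq_univ_of_forall fun w => by_contra fun hn => by
    have := S.neBot w
    obtain ⟨v, c, e⟩ := ((mem_gen.1 (gb.ge (mem_univ w))).and (nhdsWithin_le_nhds
      ((ho w).not_mem_gen.1 hn).eventually_nhds)).exists
    have h1 := const_of_d ((ha v).hol_div (hb v) c) (by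
      filter_upwards [e, o1 v c, (hb v).ev_ne c] with u a1 a2 a3
      simpa [a3] using a2.trans a1)
    refine (hc (a v / b v) v).not_mem_gen.2 ?_ ((gc _).ge (mem_univ v))
    filter_upwards [h1, (hb v).ev_ne c] with u a1 a2
    rw [Pi.sub_apply, Pi.smul_apply, ← a1, smul_eq_mul, div_mul_cancel₀ _ a2, sub_self]
  refine ⟨F, ⟨continuous_iff_continuousAt.2 fun w => ?_, fun w => ?_⟩, fun v => ?_, ?_⟩
  · by_cases c : b w = 0
    · refine ((P1.contAt_i (x := OnePoint.infty) (mem_univ _)).comp
        ((hb w).hol_div (ha w) (h0 w c)).continuousAt).congr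
        (((ha w).ev_ne (h0 w c)).mono fun v e => ?_)
      by_cases c' : b v = 0
      · simp [c', F0, P1_i_infty]
      · simp [F1 v c', P1_i_infty, iv_ne (div_ne_zero c' e)]
    · exact (OnePoint.continuous_coe.continuousAt.comp
        ((ha w).hol_div (hb w) c).continuousAt).congr (((hb w).ev_ne c).mono fun v e => (F1 v e).symm)
  · by_cases c : b w = 0
    · exact e0 w c ▸ (hb w).hol_div (ha w) (h0 w c)
    · exact (((ha w).hol_div (hb w) c).sub (RS.hol_const _)).congr (e1 w c)
  · induction v using OnePoint.rec with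
    | infty => exact (encard_le_encard fun w e => by_contra fun c =>
        OnePoint.coe_ne_infty _ ((F1 w c).symm.trans e)).trans (encard_le hb gb)
    | coe v =>
      refine (encard_le_encard fun w e => ?_).trans (encard_le (hc v) (gc v))
      have c : b w ≠ 0 := fun c => OnePoint.infty_ne_coe _ ((F0 w c).symm.trans e)
      have := OnePoint.coe_eq_coe.1 ((F1 w c).symm.trans e)
      simp [← this, c]
  · have := encard_le ho go
    rw [deg_mul, deg_pow] at this
    refine (encard_le_encard fun w e => ?_).trans this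
    by_cases c : b w = 0
    · simpa [ω, c, e0 w c, h0 w c] using e
    · rw [mem_ofPred_eq, ← RS.d_congr (e1 w c), RS.d, deriv_sub_const] at e
      simpa [ω, c, RS.d] using e

end Vale.Agent.P269.Cpt
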