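import Vale.Agent.P269.Cpt.Defs

/-!
# Finitely valent functions: the logarithmic derivative is bounded, no level crossing on annuli
-/

namespace Vale.Agent.P269.Cpt

open Set Function Topology Filter Metric

namespace PlanP

/-- Bloch's theorem: the image of a disc contains a disc of comparable size. -/
lemma bloch {H g : ℂ → ℂ} {c : ℂ} {r : ℝ} (hr : 0 < r)
    (hH : ∀ z ∈ ball c r, HasDerivAt H (g z) z) :
    ∃ w, ball w (r * ‖g c‖ / 128) ⊆ H '' ball c r := by
  have hd : DifferentiableOn ℂ H (ball c r) := fun z hz =>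
    (hH z hz).differentiableAt.differentiableWithinAt
  have hg : DifferentiableOn ℂ g (ball c r) :=
    (hd.deriv isOpen_ball).congr fun z hz => (hH z hz).deriv.symm
  by_cases h0 : g c = 0
  · exact ⟨0, by simp [h0]⟩
  have hgc : 0 < ‖g c‖ := norm_pos_iff.2 h0
  have sub : closedBall c (r / 2) ⊆ ball c r := closedBall_subset_ball (by linarith)
  have hφ : ContinuousOn (fun z => (r / 2 - ‖z - c‖) * ‖g z‖) (closedBall c (r / 2)) :=
    (by fun_prop : Continuous fun z : ℂ => r / 2 - ‖z - c‖).continuousOn.mul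
      (hg.continuousOn.mono sub).norm
  obtain ⟨z0, hz0, hmax⟩ := (isCompact_closedBall c (r / 2)).exists_isMaxOn
    ⟨c, mem_closedBall_self (by linarith)⟩ hφ
  have hc := hmax (mem_closedBall_self (x := c) (by linarith : 0 ≤ r / 2))
  simp only [mem_ofPred_eq, sub_self, norm_zero, sub_zero] at hc
  set M := ‖g z0‖ with hM
  set ρ := (r / 2 - ‖z0 - c‖) / 2 with hρ
  have e2 : r / 2 - ‖z0 - c‖ = 2 * ρ := by rw [hρ]; ring
  rw [e2] at hc
  have hM0 : 0 ≤ M := norm_nonneg _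
  have hpos : 0 < 2 * ρ * M := lt_of_lt_of_le (by positivity) hc
  have hMp : 0 < M := lt_of_le_of_ne hM0 fun h => by simp [← h] at hpos
  have hρp : 0 < ρ := by
    by_contra h
    nlinarith [not_lt.1 h]
  have near : ∀ z ∈ ball z0 ρ, ‖z - c‖ < r / 2 - ρ := by
    intro z hz
    have h1 : ‖z - z0‖ < ρ := mem_ball_iff_norm.1 hz
    have h2 : ‖z - c‖ ≤ ‖z - z0‖ + ‖z0 - c‖ := norm_sub_le_norm_sub_add_norm_sub _ _ _
    linarith
  have sub2 : ball z0 ρ ⊆ ball c r := fun z hz =>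
    mem_ball_iff_norm.2 (by linarith [near z hz])
  have bd : ∀ z ∈ ball z0 ρ, ‖g z‖ ≤ 2 * M := by
    intro z hz
    have h1 := near z hz
    have h2 := hmax (mem_closedBall_iff_norm.2 (by linarith : ‖z - c‖ ≤ r / 2))
    simp only [mem_ofPred_eq] at h2
    rw [e2] at h2
    have h3 : ρ * ‖g z‖ ≤ (r / 2 - ‖z - c‖) * ‖g z‖ := by gcongr; linarith
    nlinarith
  have maps : MapsTo g (ball z0 ρ) (closedBall (g z0) (4 * M)) := by
    intro z hz
    refine mem_closedBall_iff_norm.2 ((norm_sub_le _ _).trans ?_)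
    linarith [bd z hz]
  have sub3 : closedBall z0 (ρ / 8) ⊆ ball z0 ρ := closedBall_subset_ball (by linarith)
  have sch : ∀ z ∈ closedBall z0 (ρ / 8), ‖g z - g z0‖ ≤ M / 2 := by
    intro z hz
    have h1 := Complex.dist_le_div_mul_dist_of_mapsTo_ball (hg.mono sub2) maps (sub3 hz)
    rw [dist_eq_norm] at h1
    refine h1.trans ?_
    calc 4 * M / ρ * dist z z0 ≤ 4 * M / ρ * (ρ / 8) := by gcongr; exact hz
      _ = M / 2 := by field_simp; ring
  have low : ∀ z ∈ closedBall z0 (ρ / 8), M / 2 * ‖z - z0‖ ≤ ‖H z - H z0‖ := by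
    intro z hz
    have h1 := (convex_closedBall z0 (ρ / 8)).norm_image_sub_le_of_norm_hasDerivWithin_le
      (f := fun z => H z - g z0 * z) (f' := fun z => g z - g z0) (C := M / 2)
      (fun x hx => (((hH x (sub2 (sub3 hx))).sub
        ((hasDerivAt_id x).const_mul (g z0))).congr_deriv (by simp)).hasDerivWithinAt)
      sch (mem_closedBall_self (by positivity)) hz
    have h2 : g z0 * (z - z0) = (H z - H z0) - (H z - g z0 * z - (H z0 - g z0 * z0)) := by ring
    have h3 : ‖g z0 * (z - z0)‖ ≤ ‖H z - H z0‖ + ‖H z - g z0 * z - (H z0 - g z0 * z0)‖ := by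
      rw [h2]; exact norm_sub_le _ _
    rw [norm_mul] at h3
    linarith
  have hdc : DiffContOnCl ℂ H (ball z0 (ρ / 8)) :=
    (hd.mono ((closure_ball_subset_closedBall.trans sub3).trans sub2)).diffContOnCl
  have fr : ∃ᶠ z in 𝓝 z0, H z ≠ H z0 := by
    have h1 : ∀ᶠ z in 𝓝[≠] z0, H z ≠ H z0 := by
      filter_upwards [self_mem_nhdsWithin,
        mem_nhdsWithin_of_mem_nhds (closedBall_mem_nhds z0 (by positivity : 0 < ρ / 8))] with z h1 h2
      have h3 : 0 < ‖z - z0‖ := norm_pos_iff.2 (sub_ne_zero.2 h1)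
      exact sub_ne_zero.1 (norm_pos_iff.1 (lt_of_lt_of_le (by positivity) (low z h2)))
    exact h1.frequently.filter_mono nhdsWithin_le_nhds
  have img := hdc.ball_subset_image_closedBall (ε := M / 2 * (ρ / 8)) (by positivity)
    (fun z hz => by
      have := low z (sphere_subset_closedBall hz)
      rwa [mem_sphere_iff_norm.1 hz] at this) fr
  refine ⟨H z0, ((ball_subset_ball ?_).trans img).trans (image_mono (sub3.trans sub2))⟩
  nlinarith

/-- Growth along a circle of a function with bounded logarithmic derivative. -/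
lemma circ {f : ℂ → ℂ} {s K : ℝ}
    (h : ∀ z, ‖z‖ = s → DifferentiableAt ℂ f z ∧ s * ‖deriv f z‖ ≤ K * ‖f z‖) (hK : 0 ≤ K)
    {z w : ℂ} (hz : ‖z‖ = s) (hw : ‖w‖ = s) (hs : 0 < s) : ‖f w‖ ≤ Real.exp (7 * K) * ‖f z‖ := by
  have hz0 : z ≠ 0 := norm_pos_iff.1 (hz ▸ hs)
  have h1 : ‖w / z‖ = 1 := by rw [norm_div, hz, hw, div_self hs.ne']
  obtain ⟨θ, hθ, e⟩ : ∃ θ ∈ Icc (0 : ℝ) 7, z * Complex.exp (θ * Complex.I) = w := by
    have h2 := Complex.norm_mul_exp_arg_mul_I (w / z)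
    rw [h1, Complex.ofReal_one, one_mul] at h2
    have hp := Real.pi_lt_d2
    have ha := Complex.arg_mem_Ioc (w / z)
    by_cases h0 : 0 ≤ (w / z).arg
    · exact ⟨_, ⟨h0, by linarith [ha.2]⟩, by rw [h2]; field_simp⟩
    · refine ⟨(w / z).arg + 2 * Real.pi, ⟨by linarith [ha.1, Real.pi_pos], by linarith⟩, ?_⟩
      rw [Complex.ofReal_add, add_mul, Complex.exp_add, h2]
      push_cast
      rw [Complex.exp_two_pi_mul_I]
      field_simp
  have nr : ∀ t : ℝ, ‖z * Complex.exp (t * Complex.I)‖ = s := fun t => by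
    rw [norm_mul, Complex.norm_exp_ofReal_mul_I, mul_one, hz]
  have der : ∀ t : ℝ, HasDerivAt (fun t : ℝ => f (z * Complex.exp (t * Complex.I)))
      (deriv f (z * Complex.exp (t * Complex.I)) * (z * Complex.exp (t * Complex.I) * Complex.I))
      t := by
    intro t
    have a : HasDerivAt (fun u : ℂ => z * Complex.exp (u * Complex.I))
        (z * Complex.exp (t * Complex.I) * Complex.I) t :=
      ((((hasDerivAt_id (t : ℂ)).mul_const Complex.I).cexp).const_mul z).congr_deriv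
        (by simp [mul_assoc])
    exact ((h _ (nr t)).1.hasDerivAt.comp (t : ℂ) a).comp_ofReal
  have g := norm_le_gronwallBound_of_norm_deriv_right_le (a := 0) (b := 7) (δ := ‖f z‖) (K := K)
    (ε := 0) (fun t _ => (der t).continuousAt.continuousWithinAt)
    (fun t _ => (der t).hasDerivWithinAt) (by simp) (fun t _ => by
      rw [norm_mul, norm_mul, nr t, Complex.norm_I, mul_one, add_zero, mul_comm]
      exact (h _ (nr t)).2) θ hθ
  rw [gronwallBound_ε0, e, sub_zero, mul_comm] at g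
  refine g.trans (mul_le_mul_of_nonneg_right (Real.exp_le_exp.2 ?_) (norm_nonneg _))
  nlinarith [hθ.2]

/-- A function that is large on one boundary circle and small on the other takes the value `1`. -/
lemma cross {f : ℂ → ℂ} {a b : ℝ} (ha : 0 < a) (hb : 0 < b)
    (hf : ∀ z, ‖z‖ ∈ uIcc a b → AnalyticAt ℂ f z ∧ ¬∀ᶠ w in 𝓝 z, f w = f z)
    (h1 : ∀ z, ‖z‖ = a → 1 < ‖f z‖) (h2 : ∀ z, ‖z‖ = b → ‖f z‖ < 1) :
    ∃ z, ‖z‖ ∈ uIcc a b ∧ f z = 1 := by
  set A : Set ℂ := {z | ‖z‖ ∈ uIcc a b} with hA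
  have cA : IsCompact A := by
    refine (isCompact_closedBall (0 : ℂ) (max a b)).of_isClosed_subset
      (isClosed_Icc.preimage continuous_norm) fun z hz => ?_
    exact mem_closedBall_zero_iff.2 hz.2
  have cf : ContinuousOn f A := fun z hz => (hf z hz).1.continuousAt.continuousWithinAt
  have cl : IsClosed (f '' A) := (cA.image_of_continuousOn cf).isClosed
  have op : ∀ z ∈ A, ‖f z‖ = 1 → f z ∈ interior (f '' A) := by
    intro z hz e
    have na : ‖z‖ ≠ a := fun h => (h1 z h).ne' e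
    have nb : ‖z‖ ≠ b := fun h => (h2 z h).ne e
    have hn : A ∈ 𝓝 z := by
      refine continuous_norm.continuousAt.preimage_mem_nhds (Icc_mem_nhds ?_ ?_)
      · refine lt_of_le_of_ne hz.1 fun h => ?_
        rcases min_choice a b with c | c
        · exact na (h.symm.trans c)
        · exact nb (h.symm.trans c)
      · refine lt_of_le_of_ne hz.2 fun h => ?_
        rcases max_choice a b with c | c
        · exact na (h.trans c)
        · exact nb (h.trans c)
    have := (hf z hz).1.eventually_constant_or_nhds_le_map_nhds.resolve_left (hf z hz).2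
    exact mem_interior_iff_mem_nhds.2 (this (image_mem_map hn))
  have hr : ∀ t ∈ uIcc a b, ‖(t : ℂ)‖ = t := fun t ht => by
    rw [Complex.norm_real, Real.norm_of_nonneg ((lt_min ha hb).le.trans ht.1)]
  obtain ⟨t, ht, e⟩ : ∃ t ∈ uIcc a b, ‖f t‖ = 1 := by
    have c : ContinuousOn (fun t : ℝ => ‖f t‖) (uIcc a b) :=
      (cf.comp Complex.continuous_ofReal.continuousOn fun t ht => by
        show ‖(t : ℂ)‖ ∈ uIcc a b
        rwa [hr t ht]).norm
    refine intermediate_value_uIcc c (mem_uIcc.2 (Or.inr ⟨?_, ?_⟩))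
    · exact (h2 _ (hr b right_mem_uIcc)).le
    · exact (h1 _ (hr a left_mem_uIcc)).le
  have pc : IsPreconnected (sphere (0 : ℂ) 1) := isPreconnected_sphere (by simp) _ _
  have sub := pc.subset_left_of_subset_union (u := interior (f '' A)) (v := (f '' A)ᶜ)
    isOpen_interior cl.isOpen_compl (disjoint_compl_right.mono_left interior_subset)
    (fun w hw => by
      by_cases h : w ∈ f '' A
      · obtain ⟨z, hz, rfl⟩ := h
        exact Or.inl (op z hz (mem_sphere_zero_iff_norm.1 hw))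
      · exact Or.inr h)
    ⟨f t, mem_sphere_zero_iff_norm.2 e, op _ (by show ‖(t : ℂ)‖ ∈ uIcc a b; rwa [hr t ht]) e⟩
  have fin : (1 : ℂ) ∈ f '' A := interior_subset (sub (by simp : (1 : ℂ) ∈ sphere (0 : ℂ) 1))
  exact fin

lemma ball_sub {τ z : ℂ} {r : ℝ} (hr : 0 < r) (hz : z ∈ ann τ (r / 2) \ {0}) :
    ball z (‖z‖ / 2) ⊆ ann τ r \ {0} := by
  intro w hw
  have h1 : ‖w - z‖ < ‖z‖ / 2 := mem_ball_iff_norm.1 hw
  have h2 : ‖w‖ ≤ ‖w - z‖ + ‖z‖ := by simpa using norm_add_le (w - z) z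
  have h3 : ‖z‖ ≤ ‖w - z‖ + ‖w‖ := by
    rw [norm_sub_rev]; simpa using norm_add_le (z - w) w
  obtain ⟨⟨h4, h5⟩, h6⟩ := hz
  have h7 : 0 < ‖z‖ := norm_pos_iff.2 h6
  have h8 : 0 < ‖w‖ := by linarith
  have h9 : r / 2 * ‖z‖ < r * ‖w‖ := by nlinarith
  exact ⟨⟨by linarith, h5.imp_right fun h => h.trans h9⟩, norm_pos_iff.1 h8⟩

end PlanP

open PlanP

theorem logd (d : ℕ) : ∃ C : ℝ, 0 < C ∧ ∀ (f : ℂ → ℂ) (c : ℂ) (r : ℝ), 0 < r →
    DifferentiableOn ℂ f (ball c r) → (∀ z ∈ ball c r, f z ≠ 0) →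
    (∀ v, {z | z ∈ ball c r ∧ f z = v}.encard ≤ d) → r * ‖deriv f c‖ ≤ C * ‖f c‖ := by
  refine ⟨128 * (7 * d + 1), by positivity, fun f c r hr hf h0 hv => ?_⟩
  have hc := mem_ball_self (x := c) hr
  obtain ⟨H, hH⟩ : ∃ H : ℂ → ℂ, ∀ z ∈ ball c r, HasDerivAt H (deriv f z / f z) z :=
    ((hf.deriv isOpen_ball).div hf h0).isExactOn_ball
  have const : ∀ z ∈ ball c r, f z * Complex.exp (-H z) = f c * Complex.exp (-H c) := by
    intro z hz
    have der : ∀ x ∈ ball c r, HasDerivAt (fun z => f z * Complex.exp (-H z)) 0 x := by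
      intro x hx
      refine (((hf.differentiableAt (isOpen_ball.mem_nhds hx)).hasDerivAt).mul
        (hH x hx).neg.cexp).congr_deriv ?_
      have := h0 x hx
      simp only [Pi.neg_apply]
      field_simp
      ring
    have := (convex_ball c r).norm_image_sub_le_of_norm_hasDerivWithin_le (C := 0)
      (f' := fun _ => 0) (fun x hx => (der x hx).hasDerivWithinAt) (by simp) hc hz
    simpa [sub_eq_zero] using this
  obtain ⟨w, hw⟩ := bloch (g := fun z => deriv f z / f z) hr hH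
  have key : r * ‖deriv f c / f c‖ / 128 ≤ 7 * d + 1 := by
    by_contra hlt
    have ex : ∀ k : Fin (d + 1), ∃ z ∈ ball c r, H z = w + (k : ℕ) * (2 * Real.pi * Complex.I) := by
      intro k
      refine hw (mem_ball_iff_norm.2 ?_)
      have hk : ((k : ℕ) : ℝ) ≤ d := by exact_mod_cast Nat.lt_succ_iff.1 k.2
      have hp := Real.pi_lt_d2
      have hp0 := Real.pi_pos
      rw [add_sub_cancel_left, norm_mul, Complex.norm_natCast]
      have : ‖(2 * Real.pi * Complex.I : ℂ)‖ ≤ 7 := by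
        simp [abs_of_pos hp0]; linarith
      calc _ ≤ (d : ℝ) * 7 := by gcongr
        _ < _ := by linarith [not_le.1 hlt]
    choose z hz e using ex
    have inj : Injective z := by
      intro k k' h
      have h1 := e k
      rw [h, e k', add_right_inj, mul_left_inj' Complex.two_pi_I_ne_zero] at h1
      exact Fin.ext (by exact_mod_cast h1.symm)
    have sub : range z ⊆ {x | x ∈ ball c r ∧ f x = f c * Complex.exp (-H c) * Complex.exp w} := by
      rintro _ ⟨k, rfl⟩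
      refine ⟨hz k, ?_⟩
      rw [← const _ (hz k), e k, mul_assoc, ← Complex.exp_add]
      have : -(w + (k : ℕ) * (2 * Real.pi * Complex.I)) + w =
          ((-(k : ℕ) : ℤ) : ℂ) * (2 * Real.pi * Complex.I) := by push_cast; ring
      rw [this, Complex.exp_int_mul_two_pi_mul_I, mul_one]
    have h1 := (encard_le_encard sub).trans (hv _)
    rw [← image_univ, inj.encard_image, encard_univ, ENat.card_eq_coe_fintype_card,
      Fintype.card_fin] at h1
    exact absurd (by exact_mod_cast h1 : d + 1 ≤ d) (by omega)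
  have hp : 0 < ‖f c‖ := norm_pos_iff.2 (h0 c hc)
  rw [norm_div, ← mul_div_assoc, div_le_iff₀ (by norm_num), div_le_iff₀ hp] at key
  linarith

theorem ann_bd (d : ℕ) : ∃ C : ℝ, 0 < C ∧ ∀ (f : ℂ → ℂ) (τ : ℂ) (r : ℝ), 0 < r →
    DifferentiableOn ℂ f (ann τ r \ {0}) → (∀ z ∈ ann τ r \ {0}, f z ≠ 0 ∧ f z ≠ 1) →
    (∀ v, {z | z ∈ ann τ r \ {0} ∧ f z = v}.encard ≤ d) →
    (∀ z ∈ ann τ (r / 2) \ {0}, ‖f z‖ ≤ C) ∨ ∀ z ∈ ann τ (r / 2) \ {0}, 1 ≤ C * ‖f z‖ := by
  obtain ⟨C, hC, h⟩ := logd d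
  refine ⟨Real.exp (7 * (2 * C)), Real.exp_pos _, fun f τ r hr hf h0 hv => ?_⟩
  have pos : ∀ z ∈ ann τ (r / 2) \ {0}, 0 < ‖z‖ := fun z hz => norm_pos_iff.2 hz.2
  have nh : ∀ z ∈ ann τ (r / 2) \ {0}, ball z (‖z‖ / 2) ∈ 𝓝 z := fun z hz =>
    ball_mem_nhds z (half_pos (pos z hz))
  have bd : ∀ z ∈ ann τ (r / 2) \ {0},
      DifferentiableAt ℂ f z ∧ ‖z‖ * ‖deriv f z‖ ≤ 2 * C * ‖f z‖ := by
    intro z hz
    have s := ball_sub hr hz
    refine ⟨(hf.mono s).differentiableAt (nh z hz), ?_⟩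
    have := h f z _ (half_pos (pos z hz)) (hf.mono s) (fun w hw => (h0 w (s hw)).1)
      fun v => le_trans (encard_le_encard fun w hw => And.intro (s hw.1) hw.2) (hv v)
    linarith
  have btw : ∀ z₁ ∈ ann τ (r / 2) \ {0}, ∀ z₂ ∈ ann τ (r / 2) \ {0}, ∀ z : ℂ,
      ‖z‖ ∈ uIcc ‖z₁‖ ‖z₂‖ → z ∈ ann τ (r / 2) \ {0} := by
    intro z₁ h₁ z₂ h₂ z hz
    refine ⟨⟨hz.2.trans_lt (max_lt h₁.1.1 h₂.1.1), ?_⟩,
      norm_pos_iff.1 ((lt_min (pos _ h₁) (pos _ h₂)).trans_le hz.1)⟩
    rcases h₁.1.2 with a | a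
    · exact Or.inl a
    rcases h₂.1.2 with b | b
    · exact Or.inl b
    right
    have := hz.1
    rcases min_choice ‖z₁‖ ‖z₂‖ with c | c <;> rw [c] at this <;> nlinarith
  have osc : ∀ z₀ ∈ ann τ (r / 2) \ {0}, ∀ z w : ℂ, ‖z‖ = ‖z₀‖ → ‖w‖ = ‖z₀‖ →
      ‖f w‖ ≤ Real.exp (7 * (2 * C)) * ‖f z‖ := by
    intro z₀ hz₀ z w hz hw
    refine circ (fun x hx => ?_) (by positivity) hz hw (pos _ hz₀)
    rw [← hx]
    exact bd x (btw z₀ hz₀ z₀ hz₀ x (by simp [hx]))
  by_contra hn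
  simp only [not_or, not_forall, not_le, exists_prop] at hn
  obtain ⟨⟨z₁, h₁, l₁⟩, z₂, h₂, l₂⟩ := hn
  obtain ⟨z, hz, e⟩ := cross (f := f) (pos _ h₁) (pos _ h₂) (fun z hz => by
      have hz' := btw _ h₁ _ h₂ z hz
      have s := ball_sub hr hz'
      refine ⟨(hf.mono s).analyticAt (nh z hz'), fun hc => ?_⟩
      have fin : {w | w ∈ ann τ r \ {0} ∧ f w = f z}.Finite :=
        finite_of_encard_le_coe (hv (f z))
      refine infinite_of_mem_nhds z ?_ fin
      filter_upwards [hc, nh z hz'] with w a b using ⟨s b, a⟩)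
    (fun w hw => by
      have := osc z₁ h₁ w z₁ hw rfl
      have hp := Real.exp_pos (7 * (2 * C))
      by_contra hl
      nlinarith [not_lt.1 hl])
    (fun w hw => (osc z₂ h₂ z₂ w rfl hw).trans_lt l₂)
  have hz' := btw _ h₁ _ h₂ z hz
  exact (h0 z (ball_sub hr hz' (mem_ball_self (half_pos (pos z hz'))))).2 e

end Vale.Agent.P269.Cpt
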