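import Vale.Agent.P269.Cpt.Bas2
import Vale.Agent.P269.Cpt.Plan

/-!
# Comparison of sections near a point of the limit surface
-/

set_option linter.unusedSectionVars false

namespace Vale.Agent.P269.Cpt

open Set Function Topology Filter Metric Module Vale.Agent.P269.Cv

variable {X : ℕ → Type} [∀ n, TopologicalSpace (X n)] [∀ n, T2Space (X n)]
  [∀ n, CompactSpace (X n)] [∀ n, Nonempty (X n)] {Y : Type} [TopologicalSpace Y] [T2Space Y]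
  [CompactSpace Y] {U : Ultrafilter ℕ} {R : ∀ n, RS (X n)} {Q : RS Y} {D : Dg U R Q}
  {B B' : ∀ n, LB (R n)} {L L' : LB Q} {p q : ∀ n, X n} {x y y' z : Y} {s s' : ∀ n, X n → ℂ}
  {σ σ' : Y → ℂ} {Z : ∀ n, Set (X n)} {ν : Type} [Fintype ν] {N : ∀ n, Finset (X n × X n)}
  {pm : ∀ n, ν → X n} {N₀ N₁ : Finset (Y × Y)} {p₀ : ν → Y}

theorem encard_zeros_le {W : Type} [TopologicalSpace W] [T2Space W] [CompactSpace W] {S : RS W}
    {A : LB S} (hA : Ge A 0) {f : W → ℂ} (hf : f ∈ A.Γ) :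
    {w | w ∈ Gen f ∧ f w = 0}.encard ≤ (deg A).toNat := by
  have h1 := finite_zeros_on (isClopen_gen hf) (fun x _ => hf x) Subset.rfl
  have h2 := card_le_degOn (isClopen_gen hf) (fun x _ => hf x) Subset.rfl (T := h1.toFinset)
    fun x hx => h1.mem_toFinset.1 hx
  have h3 := degOn_add_compl (L := A) (isClopen_gen hf)
  have h4 := hA.nonneg (Gen f)ᶜ
  rw [h1.encard_eq_coe_toFinset_card, Nat.cast_le]
  omega

namespace RatP

variable {W : Type} [TopologicalSpace W] [T2Space W] [CompactSpace W] {S : RS W} {A : LB S}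
  {E : OpenPartialHomeomorph W ℂ} {τ : ℂ} {r C : ℝ} {f g : W → ℂ}

theorem dich (ht : ann τ r ⊆ E.target) (hf : f ∈ A.Γ) :
    (∀ t ∈ ann τ r \ {0}, E.symm t ∈ Gen f) ∨ ∀ t ∈ ann τ r \ {0}, f (E.symm t) = 0 := by
  refine or_iff_not_imp_right.2 fun h t e => ?_
  push Not at h
  obtain ⟨t', h1, h2⟩ := h
  exact (isPreconnected_ann.image _ (E.continuousOn_symm.mono fun _ a => ht a.1)).subset_isClopen
    (isClopen_gen hf) ⟨_, ⟨t', h1, rfl⟩, (hf _).mem_gen h2⟩ ⟨t, e, rfl⟩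

theorem extend (hf : f ∈ A.Γ) (hg : g ∈ A.Γ)
    (h : ∀ t ∈ ann τ r \ {0}, ‖f (E.symm t)‖ ≤ C * ‖g (E.symm t)‖) :
    ∀ w ∈ reg E τ r, ‖f w‖ ≤ C * ‖g w‖ := by
  have h1 : ∀ w ∈ reg E τ r, E w ≠ 0 → ‖f w‖ ≤ C * ‖g w‖ := fun w a b =>
    E.left_inv a.1 ▸ h (E w) ⟨a.2, b⟩
  intro w hw
  refine (eq_or_ne (E w) 0).elim (fun e => ?_) (h1 w hw)
  have := S.neBot w
  have h2 := le_of_tendsto_of_tendsto
    ((LB.sec_iff.1 (hf w)).continuousAt.norm.tendsto.mono_left (nhdsWithin_le_nhds (s := {w}ᶜ)))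
    (((LB.sec_iff.1 (hg w)).continuousAt.norm.tendsto.const_mul C).mono_left nhdsWithin_le_nhds) (by
      filter_upwards [self_mem_nhdsWithin, nhdsWithin_le_nhds
        ((E.isOpen_inter_preimage isOpen_ann).mem_nhds hw)] with v a b
      rw [norm_div, norm_div, ← mul_div_assoc]
      exact div_le_div_of_nonneg_right (h1 v b fun e' => a (E.injOn b.1 hw.1 (e'.trans e.symm)))
        (norm_nonneg _))
  simpa only [A.self, div_one] using h2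

theorem stat {d : ℕ} (h1 : 1 ≤ C) (hC : ∀ (f : ℂ → ℂ) (τ : ℂ) (r : ℝ), 0 < r →
      DifferentiableOn ℂ f (ann τ r \ {0}) → (∀ z ∈ ann τ r \ {0}, f z ≠ 0 ∧ f z ≠ 1) →
      (∀ v, {z | z ∈ ann τ r \ {0} ∧ f z = v}.encard ≤ d) →
      (∀ z ∈ ann τ (r / 2) \ {0}, ‖f z‖ ≤ C) ∨ ∀ z ∈ ann τ (r / 2) \ {0}, 1 ≤ C * ‖f z‖)
    (hE : S.Cmp E) (hr : 0 < r) (ht : ann τ r ⊆ E.target) (hf : f ∈ A.Γ) (hg : g ∈ A.Γ)
    (hA : Ge A 0) (hd : deg A ≤ d) (hZ : ∀ w ∈ reg E τ r, (w ∈ Gen f ∧ f w = 0 ∨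
      w ∈ Gen g ∧ g w = 0 ∨ w ∈ Gen (f - g) ∧ f w = g w) → E w = 0) :
    (∀ w ∈ reg E τ (r / 2), ‖f w‖ ≤ C * ‖g w‖) ∨ ∀ w ∈ reg E τ (r / 2), ‖g w‖ ≤ C * ‖f w‖ := by
  have hs : ann τ (r / 2) \ {0} ⊆ ann τ r \ {0} := fun t a => ⟨ann_mono (half_le_self hr.le) a.1, a.2⟩
  have hz : ∀ t ∈ ann τ r \ {0}, ¬(E.symm t ∈ Gen f ∧ f (E.symm t) = 0 ∨ E.symm t ∈ Gen g ∧
      g (E.symm t) = 0 ∨ E.symm t ∈ Gen (f - g) ∧ f (E.symm t) = g (E.symm t)) := fun t a b =>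
    a.2 ((E.right_inv (ht a.1)).symm.trans (hZ _ ⟨E.map_target (ht a.1), by
      rw [mem_preimage, E.right_inv (ht a.1)]; exact a.1⟩ b))
  refine Or.imp (extend hf hg) (extend hg hf) ?_
  rcases dich ht hg with h2 | h2
  swap
  · exact .inr fun t a => by rw [h2 t (hs a), norm_zero]; positivity
  have h3 : ∀ t ∈ ann τ r \ {0}, g (E.symm t) ≠ 0 := fun t a e => hz t a (.inr (.inl ⟨h2 t a, e⟩))
  have hv : ∀ v : ℂ, f - v • g ∈ A.Γ := fun v => sub_mem hf (A.Γ.smul_mem v hg)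
  by_cases h4 : ∃ v : ℂ, ∀ t ∈ ann τ r \ {0}, (f - v • g) (E.symm t) = 0
  · obtain ⟨v, h4⟩ := h4
    have h5 : ∀ t ∈ ann τ (r / 2) \ {0}, ‖f (E.symm t)‖ = ‖v‖ * ‖g (E.symm t)‖ := fun t a => by
      rw [sub_eq_zero.1 (h4 t (hs a)), ← norm_mul]; rfl
    refine (le_total ‖v‖ 1).imp (fun e t a => ?_) fun e t a => ?_ <;> rw [h5 t a]
    · exact mul_le_mul_of_nonneg_right (e.trans h1) (norm_nonneg _)
    · rw [← mul_assoc]
      exact le_mul_of_one_le_left (norm_nonneg _) (one_le_mul_of_one_le_of_one_le h1 e)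
  have h5 : ∀ v : ℂ, ∀ t ∈ ann τ r \ {0}, E.symm t ∈ Gen (f - v • g) := fun v =>
    (dich ht (hv v)).resolve_right fun e => h4 ⟨v, e⟩
  refine (hC (fun t => f (E.symm t) / g (E.symm t)) τ r hr (fun t a => ((hE.hol_iff' (ht a.1)).1
    ((hf _).hol_div (hg _) (h3 t a))).differentiableAt.differentiableWithinAt) (fun t a =>
      ⟨div_ne_zero (fun e => hz t a (.inl ⟨by simpa using h5 0 t a, e⟩)) (h3 t a), fun e =>
        hz t a (.inr (.inr ⟨by simpa using h5 1 t a, (div_eq_one_iff_eq (h3 t a)).1 e⟩))⟩)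
    fun v => ?_).imp (fun e t a => ?_) fun e t a => ?_
  · refine le_trans (encard_le_encard_of_injOn (f := E.symm)
      (t := {w | w ∈ Gen (f - v • g) ∧ (f - v • g) w = 0}) (fun t a => ⟨h5 v t a.1, ?_⟩)
      (E.symm.injOn.mono fun t a => ht a.1.1)) ((encard_zeros_le hA (hv v)).trans ?_)
    · exact sub_eq_zero.2 ((div_eq_iff (h3 t a.1)).1 a.2)
    · rw [Nat.cast_le]
      omega
  · have := e t a
    rwa [norm_div, div_le_iff₀ (norm_pos_iff.2 (h3 t (hs a)))] at this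
  · have := e t a
    rwa [norm_div, ← mul_div_assoc, one_le_div (norm_pos_iff.2 (h3 t (hs a)))] at this

end RatP

theorem Dg.ratio {d : ℕ} (hZ : D.Av Z)
    (hs : ∀ᶠ n in U, s n ∈ (B n).Γ ∧ s' n ∈ (B n).Γ ∧ Ge (B n) 0 ∧ deg (B n) ≤ d ∧
      ∀ w, (w ∈ Gen (s n) ∧ s n w = 0 ∨ w ∈ Gen (s' n) ∧ s' n w = 0 ∨
        w ∈ Gen (s n - s' n) ∧ s n w = s' n w) → w ∈ Z n) (y : Y) :
    ∃ δ > 0, ∃ C : ℝ, 0 < C ∧ ((∀ᶠ n in U, ∀ w ∈ D.rg y n δ, ‖s n w‖ ≤ C * ‖s' n w‖) ∨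
      ∀ᶠ n in U, ∀ w ∈ D.rg y n δ, ‖s' n w‖ ≤ C * ‖s n w‖) := by
  obtain ⟨C, -, hC⟩ := ann_bd d
  obtain ⟨δ, h1, h2⟩ := hZ y
  obtain ⟨r, h3, h4⟩ := D.tgt y
  have h5 := lt_min h1 h3
  refine ⟨min δ r / 2, half_pos h5, max C 1, one_pos.trans_le (le_max_right _ _),
    Ultrafilter.eventually_or.1 ?_⟩
  filter_upwards [hs, h2, h4, D.cmp y] with n ⟨a1, a2, a3, a4, a5⟩ b1 b2 b3
  exact RatP.stat (le_max_right _ _) (fun f τ r c1 c2 c3 c4 => (hC f τ r c1 c2 c3 c4).imp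
    (fun e z c => (e z c).trans (le_max_left _ _)) fun e z c => (e z c).trans
      (mul_le_mul_of_nonneg_right (le_max_left _ _) (norm_nonneg _))) b3 h5
    ((ann_mono (min_le_right _ _)).trans b2) a1 a2 a3 a4 fun w c e =>
      b1 w (a5 w e) (Dg.rg_mono (min_le_left _ _) c)

theorem Dg.dom {β : Type} {T : Finset β} (hT : T.Nonempty) {f : β → ∀ n, X n → ℂ} {d : ℕ}
    (hZ : D.Av Z) (hs : ∀ᶠ n in U, (∀ a ∈ T, f a n ∈ (B n).Γ) ∧ Ge (B n) 0 ∧ deg (B n) ≤ d ∧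
      (∀ a ∈ T, ∀ w ∈ Gen (f a n), f a n w = 0 → w ∈ Z n) ∧
      ∀ a ∈ T, ∀ a' ∈ T, ∀ w ∈ Gen (f a n - f a' n), f a n w = f a' n w → w ∈ Z n) (y : Y) :
    ∃ a ∈ T, ∃ δ > 0, ∃ C : ℝ, 0 < C ∧
      ∀ᶠ n in U, ∀ w ∈ D.rg y n δ, ∀ a' ∈ T, ‖f a' n w‖ ≤ C * ‖f a n w‖ := by
  induction hT using Finset.Nonempty.cons_induction with
  | singleton a => exact ⟨a, by simp, 1, one_pos, 1, one_pos, .of_forall (by simp)⟩
  | cons b T hb hT ih =>
    simp only [Finset.forall_mem_cons] at hs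
    obtain ⟨a, ha, δ, h1, C, h2, h3⟩ := ih (hs.mono fun n e =>
      ⟨e.1.2, e.2.1, e.2.2.1, e.2.2.2.1.2, fun a h => (e.2.2.2.2.2 a h).2⟩)
    obtain ⟨δ', h4, C', h5, h6⟩ := Dg.ratio (s := f b) (s' := f a) hZ (hs.mono fun n e =>
      ⟨e.1.1, e.1.2 a ha, e.2.1, e.2.2.1, fun w c => c.elim (fun c => e.2.2.2.1.1 w c.1 c.2)
        fun c => c.elim (fun c => e.2.2.2.1.2 a ha w c.1 c.2)
          fun c => e.2.2.2.2.1.2 a ha w c.1 c.2⟩) y
    rcases h6 with h6 | h6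
    · refine ⟨a, Finset.mem_cons_of_mem ha, _, lt_min h1 h4, max C C', lt_max_of_lt_left h2, ?_⟩
      filter_upwards [h3, h6] with n e e' w hw
      exact Finset.forall_mem_cons _ _ |>.2 ⟨(e' w (Dg.rg_mono (min_le_right _ _) hw)).trans
        (mul_le_mul_of_nonneg_right (le_max_right _ _) (norm_nonneg _)), fun a' h =>
          (e w (Dg.rg_mono (min_le_left _ _) hw) a' h).trans
            (mul_le_mul_of_nonneg_right (le_max_left _ _) (norm_nonneg _))⟩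
    · refine ⟨b, Finset.mem_cons_self _ _, _, lt_min h1 h4, max 1 (C * C'),
        lt_max_of_lt_left one_pos, ?_⟩
      filter_upwards [h3, h6] with n e e' w hw
      refine Finset.forall_mem_cons _ _ |>.2 ⟨le_mul_of_one_le_left (norm_nonneg _)
        (le_max_left _ _), fun a' h => (e w (Dg.rg_mono (min_le_left _ _) hw) a' h).trans
          ((mul_le_mul_of_nonneg_left (e' w (Dg.rg_mono (min_le_right _ _) hw)) h2.le).trans ?_)⟩
      rw [← mul_assoc]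
      exact mul_le_mul_of_nonneg_right (le_max_right _ _) (norm_nonneg _)

end Vale.Agent.P269.Cpt
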